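import Vale.Agent.P013.Defs
import Vale.Agent.Lib.PNT
import Vale.Agent.Lib.Mertens

/-! Mertens and Chebyshev type estimates.

Proof plan.
* `mertens1`: `log N! = ∑_{d ≤ N} Λ d ⌊N/d⌋` (`ArithmeticFunction.vonMangoldt_sum`), so
  `|N ∑_{d ≤ N} Λ d / d - log N!| ≤ ψ N ≤ C N` (`Chebyshev.psi_le_const_mul_self`) and
  `N log N - N ≤ log N! ≤ N log N`; proper prime powers contribute
  `∑_p log p/(p(p-1)) ≤ C`.
* `mertensk`, `mertens0`: Abel summation (`sum_mul_eq_sub_sub_integral_mul`) of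
  `c p = log p / p` against `f u = 1/(log u)^(k+1)`; write `∑_{p ≤ u} c p = log u + E u`,
  `|E| ≤ C`; the error is at most `C (f x + f x' + ∫ |f'|) ≤ 2 C f x`.
* `Vp_le`: `1/Vp z = ∑ over z-smooth n of 1/n ≥ ∑_{n<z} 1/n ≥ log z` (see
  `Vale/Agent/P003/Primes.lean`, `VV_le_inv_log`). `Vp_ge`: `log (1-u) ≥ -u - 2u^2` for
  `u ≤ 1/2`, `mertens0`.
* `short_primes`, `box_card`, `half_primes`: `theta_asymp` of `Vale.Agent.Lib.PNT`. -/

open Finset

namespace Vale.Agent.P013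

theorem mertens1 : ∃ C : ℝ, 0 < C ∧ ∀ x x' : ℝ, 1 ≤ x → x ≤ x' →
    |∑ p ∈ PI x x', Real.log p / p - (Real.log x' - Real.log x)| ≤ C := by
  obtain ⟨C, hC⟩ := Lib.Mertens.mertens1
  refine ⟨2 * |C| + 1, by positivity, fun x x' hx hx' => ?_⟩
  have h1 := abs_le.1 (hC x hx)
  have h2 := abs_le.1 (hC x' (hx.trans hx'))
  rw [PI, ← Lib.Mertens.sum_Icc_sub (fun p => Real.log p / p) hx', abs_le]
  constructor <;> linarith [le_abs_self C]

theorem mertens_deriv (j : ℕ) {t : ℝ} (ht : 1 < t) : HasDerivAt (fun t => 1 / Real.log t ^ (j + 1))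
    (-((j + 1) * (1 / (t * Real.log t ^ (j + 2))))) t := by
  have h1 := (Real.log_pos ht).ne'
  have h2 : t ≠ 0 := by linarith
  have h3 := ((Real.hasDerivAt_log h2).pow (j + 1)).inv (pow_ne_zero _ h1)
  simp only [one_div]
  refine h3.congr_deriv ?_
  simp only [Pi.pow_apply, Nat.add_sub_cancel, Nat.cast_succ]
  field_simp
  ring

theorem mertens_cont (j : ℕ) {a b : ℝ} (ha : 1 < a) :
    ContinuousOn (fun t => 1 / (t * Real.log t ^ j)) (Set.Icc a b) := fun t ht => by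
  have h1 := (Real.log_pos (ha.trans_le ht.1)).ne'
  have h2 : t ≠ 0 := by linarith [ht.1]
  exact (continuousAt_const.div (continuousAt_id.mul ((Real.continuousAt_log h2).pow j))
    (mul_ne_zero h2 (pow_ne_zero _ h1))).continuousWithinAt

theorem mertens_int (j : ℕ) {a b : ℝ} (ha : 1 < a) (hab : a ≤ b) :
    ∫ t in a..b, 1 / (t * Real.log t ^ (j + 2)) =
      (1 / Real.log a ^ (j + 1) - 1 / Real.log b ^ (j + 1)) / (j + 1) := by
  have h := intervalIntegral.integral_eq_sub_of_hasDerivAt (a := a) (b := b)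
    (fun t ht => mertens_deriv j (ha.trans_le (Set.uIcc_of_le hab ▸ ht).1))
    (((mertens_cont (j + 2) ha).intervalIntegrable_of_Icc hab).const_mul _).neg
  rw [intervalIntegral.integral_neg, intervalIntegral.integral_const_mul] at h
  rw [eq_div_iff (by positivity)]
  linarith

theorem mertensk {k : ℕ} (hk : 1 ≤ k) : ∃ C : ℝ, 0 < C ∧ ∀ x x' : ℝ, 3 / 2 ≤ x → x ≤ x' →
    |∑ p ∈ PI x x', 1 / (p * Real.log p ^ k) -
      (1 / Real.log x ^ k - 1 / Real.log x' ^ k) / k| ≤ C / Real.log x ^ (k + 1) := by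
  obtain ⟨j, rfl⟩ := Nat.exists_eq_add_of_le' hk
  obtain ⟨C, hC0, hC⟩ := Lib.Mertens.abel_log
  refine ⟨2 * C + 1, by positivity, fun x x' hx hx' => ?_⟩
  have h0 : 1 < x := by linarith
  have h1 := hC x x' _ _ h0.le hx' (fun t ht => mertens_deriv (j + 1) (h0.trans_le ht.1))
    (continuousOn_const.mul (mertens_cont _ h0)).neg
  have h2 : ∫ t in x..x', |-(((j + 1 : ℕ) + 1) * (1 / (t * Real.log t ^ (j + 1 + 2))))| =
      1 / Real.log x ^ (j + 1 + 1) - 1 / Real.log x' ^ (j + 1 + 1) := by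
    rw [intervalIntegral.integral_congr (g := fun t =>
      ((j + 1 : ℕ) + 1) * (1 / (t * Real.log t ^ (j + 1 + 2)))) fun t ht => ?_,
      intervalIntegral.integral_const_mul, mertens_int _ h0 hx', mul_div_cancel₀ _ (by positivity)]
    have h3 := h0.trans_le (Set.uIcc_of_le hx' ▸ ht).1
    have h4 := Real.log_pos h3
    have h5 : 0 < t := by linarith
    exact (abs_neg _).trans (abs_of_nonneg (by positivity))
  have h3 : ∫ t in x..x', 1 / Real.log t ^ (j + 1 + 1) / t =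
      (1 / Real.log x ^ (j + 1) - 1 / Real.log x' ^ (j + 1)) / (j + 1 : ℕ) := by
    rw [Nat.cast_succ, ← mertens_int j h0 hx']
    simp only [div_div, mul_comm]
  have h4 : ∑ p ∈ PI x x', 1 / (p * Real.log p ^ (j + 1)) =
      ∑ p ∈ PI x x', 1 / Real.log p ^ (j + 1 + 1) * (Real.log p / p) := by
    refine sum_congr rfl fun p hp => ?_
    have h5 := Real.log_pos (Nat.one_lt_cast.2 (mem_filter.1 hp).2.one_lt)
    field_simp
    ring
  have h5 := Real.log_pos h0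
  have h6 := Real.log_pos (h0.trans_le hx')
  rw [h2, h3, abs_of_pos (a := 1 / _) (by positivity), abs_of_pos (a := 1 / _) (by positivity)] at h1
  rw [h4, div_eq_mul_one_div (2 * C + 1)]
  refine h1.trans ?_
  have h7 : 0 < 1 / Real.log x ^ (j + 1 + 1) := by positivity
  linarith

theorem mertens0 : ∃ C : ℝ, 0 < C ∧ ∀ x x' : ℝ, 3 / 2 ≤ x → x ≤ x' →
    |∑ p ∈ PI x x', 1 / (p : ℝ) - (Real.log (Real.log x') - Real.log (Real.log x))| ≤
      C / Real.log x := by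
  obtain ⟨C, hC0, hC⟩ := Lib.Mertens.mertens2_Ioc
  exact ⟨C + 1, by positivity, fun x x' hx hx' => (hC x x' (by linarith) hx').trans
    (div_le_div_of_nonneg_right (by linarith) (Real.log_nonneg (by linarith)))⟩

theorem Vp_pos (z : ℕ) : 0 < Vp z :=
  prod_pos fun _ hp => Lib.Mertens.one_sub_inv_pos (Nat.prime_of_mem_primesBelow hp)

theorem Vp_le {z : ℕ} (hz : 2 ≤ z) : Vp z ≤ 1 / Real.log z := by
  obtain ⟨N, rfl⟩ : ∃ N, z = N + 1 := ⟨z - 1, by omega⟩
  let f : ℕ →* ℝ := ⟨⟨fun n => (n : ℝ)⁻¹, by simp⟩, fun a b => by push_cast; rw [mul_inv]⟩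
  have hf : ∀ n, f n = (n : ℝ)⁻¹ := fun _ => rfl
  have h := (EulerProduct.summable_and_hasSum_smoothNumbers_prod_primesBelow_geometric (f := f)
    (fun {p} hp => by
      rw [hf, norm_inv, Real.norm_natCast]
      exact inv_lt_one_of_one_lt₀ (by exact_mod_cast hp.one_lt)) (N + 1)).2
  have h1 : ∑ n ∈ Icc 1 N, (n : ℝ)⁻¹ ≤ ∏ p ∈ (N + 1).primesBelow, (1 - f p)⁻¹ := by
    have h2 := sum_le_hasSum ((Icc 1 N).subtype (· ∈ (N + 1).smoothNumbers))
      (fun i _ => by rw [hf]; positivity) h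
    rw [sum_subtype_of_mem (fun n => f n)] at h2
    · exact h2
    · intro n hn
      rw [mem_Icc] at hn
      exact Nat.mem_smoothNumbers_of_lt (by omega) (by omega)
  have h3 := log_add_one_le_harmonic N
  simp only [harmonic_eq_sum_Icc, Rat.cast_sum, Rat.cast_inv, Rat.cast_natCast] at h3
  have h4 : ∏ p ∈ (N + 1).primesBelow, (1 - f p)⁻¹ = (Vp (N + 1))⁻¹ := by
    rw [Vp, ← prod_inv_distrib]
    exact prod_congr rfl fun p _ => by rw [hf, one_div]
  rw [one_div, le_inv_comm₀ (Vp_pos _) (Real.log_pos (by exact_mod_cast hz)), ← h4]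
  exact h3.trans h1

theorem mertens_sum : ∃ C : ℝ, ∀ z : ℕ, 2 ≤ z →
    ∑ p ∈ z.primesBelow, 1 / (p : ℝ) ≤ Real.log (Real.log z) + C := by
  obtain ⟨C, -, hC⟩ := Lib.Mertens.mertens2_crude
  refine ⟨C, fun z hz => le_trans (sum_le_sum_of_subset_of_nonneg (fun p hp => ?_)
    fun _ _ _ => by positivity) (sub_le_iff_le_add'.1 (abs_le.1 (hC z (by exact_mod_cast hz))).2)⟩
  obtain ⟨h1, h2⟩ := Nat.mem_primesBelow.1 hp
  rw [Nat.floor_natCast]
  exact mem_filter.2 ⟨mem_Icc.2 ⟨h2.one_lt.le, h1.le⟩, h2⟩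

theorem Vp_ge : ∃ c : ℝ, 0 < c ∧ ∀ z : ℕ, 2 ≤ z → c / Real.log z ≤ Vp z := by
  obtain ⟨C, hC⟩ := mertens_sum
  refine ⟨Real.exp (-(C + 2)), Real.exp_pos _, fun z hz => le_trans ?_
    (Lib.Mertens.exp_le_prod _ fun p hp => (Nat.prime_of_mem_primesBelow hp).two_le)⟩
  have h2 : 0 < Real.log z := Real.log_pos (by exact_mod_cast hz)
  conv_lhs => rw [← Real.exp_log h2, ← Real.exp_sub]
  rw [Real.exp_le_exp]
  linarith [hC z hz]

theorem prod_one_add_le : ∃ C : ℝ, 0 < C ∧ ∀ z : ℕ, 2 ≤ z →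
    ∏ p ∈ z.primesBelow, (1 + 1 / (p : ℝ)) ≤ C * Real.log z := by
  obtain ⟨C, hC⟩ := mertens_sum
  refine ⟨Real.exp C, Real.exp_pos _, fun z hz => (prod_le_prod (f := fun p : ℕ => 1 + 1 / (p : ℝ))
    (fun _ _ => by positivity)
    fun p _ => (add_comm _ _).trans_le (Real.add_one_le_exp (1 / (p : ℝ)))).trans ?_⟩
  have h2 : 0 < Real.log z := Real.log_pos (by exact_mod_cast hz)
  conv_rhs => rw [← Real.exp_log h2, ← Real.exp_add]
  rw [← Real.exp_sum, Real.exp_le_exp]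
  linarith [hC z hz]

theorem card_PI_le : ∃ C : ℝ, 0 < C ∧ ∀ x : ℝ, 2 ≤ x →
    ((PI 0 x).card : ℝ) ≤ C * x / Real.log x := by
  refine ⟨2 * Real.log 4 + 2, by have := Real.log_pos (x := 4) (by norm_num); positivity,
    fun x hx => ?_⟩
  have h1 : (PI 0 x).card = Nat.primeCounting ⌊x⌋₊ := by
    rw [← Nat.primesLE_card_eq_primeCounting]
    congr 1
    ext p
    simp only [PI, Nat.floor_zero, mem_filter, mem_Ioc, Nat.mem_primesLE]
    exact ⟨fun h => ⟨h.1.2, h.2⟩, fun h => ⟨⟨h.2.pos, h.1⟩, h.2⟩⟩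
  have h2 := Chebyshev.pi_le_log4_mul_div (x := x) (by linarith)
  have h3 := Real.log_pos (x := x) (by linarith)
  have h4 := Real.log_le_sub_one_of_pos (Real.sqrt_pos.2 (by linarith : 0 < x))
  rw [Real.log_sqrt (by linarith)] at h2 h4
  have h5 : √x ≤ 2 * x / Real.log x := by
    rw [le_div_iff₀ h3]
    nlinarith [Real.mul_self_sqrt (by linarith : 0 ≤ x), Real.sqrt_nonneg x]
  rw [h1]
  refine h2.trans ((add_le_add le_rfl h5).trans_eq ?_)
  field_simp

theorem mertens_theta {c ε : ℝ} (hc : 0 < c) (hc1 : c ≤ 1) (hε : 0 < ε) : ∃ x₀ : ℝ, 4 ≤ x₀ ∧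
    ∀ x, x₀ ≤ x → |∑ p ∈ PI (c * x) x, Real.log p - (1 - c) * x| ≤ ε * x := by
  have h1 := Lib.PNT.theta_asymp.sub ((Lib.PNT.theta_asymp.comp
    (Filter.tendsto_id.const_mul_atTop hc)).const_mul c)
  obtain ⟨x₀, hx₀⟩ := Filter.eventually_atTop.1 (Metric.tendsto_nhds.1 h1 ε hε)
  refine ⟨max x₀ 4, le_max_right _ _, fun x hx => ?_⟩
  have h2 : 0 < x := by linarith [le_max_right x₀ 4]
  have h3 := hx₀ x ((le_max_left _ _).trans hx)
  have h4 : ∑ p ∈ PI (c * x) x, Real.log p = Chebyshev.theta x - Chebyshev.theta (c * x) :=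
    (Lib.Mertens.sum_Icc_sub (fun p => Real.log p) (mul_le_of_le_one_left h2.le hc1)).symm
  have h5 : Chebyshev.theta x - Chebyshev.theta (c * x) - (1 - c) * x =
      (Chebyshev.theta x / x - c * (Chebyshev.theta (c * x) / (c * x)) - (1 - c * 1)) * x := by
    field_simp
  rw [h4, h5, abs_mul, abs_of_pos h2]
  exact mul_le_mul_of_nonneg_right h3.le h2.le

theorem mertens_card {x x' : ℝ} (hx : 0 < x) :
    (PI x x').card * Real.log x ≤ ∑ p ∈ PI x x', Real.log p ∧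
      ∑ p ∈ PI x x', Real.log p ≤ (PI x x').card * Real.log x' := by
  rw [← nsmul_eq_mul, ← nsmul_eq_mul]
  exact ⟨card_nsmul_le_sum _ _ _ fun p hp => Real.log_le_log hx ((mem_PI hx.le).1 hp).2.1.le,
    sum_le_card_nsmul _ _ _ fun p hp => Real.log_le_log (hx.trans ((mem_PI hx.le).1 hp).2.1)
      ((mem_PI hx.le).1 hp).2.2⟩

theorem short_primes : ∃ x₀ : ℝ, ∀ x : ℝ, x₀ ≤ x →
    1 / (8 * Real.log x) ≤ ∑ p ∈ PI (3 * x / 4) x, 1 / (p : ℝ) := by
  obtain ⟨x₀, h0, h⟩ := mertens_theta (c := 3 / 4) (ε := 1 / 8) (by norm_num) (by norm_num)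
    (by norm_num)
  refine ⟨x₀, fun x hx => ?_⟩
  have h1 := (abs_le.1 (h x hx)).1
  have h2 : 0 < 3 * x / 4 := by linarith
  have h3 := Real.log_pos (x := x) (by linarith)
  rw [show 3 / 4 * x = 3 * x / 4 by ring] at h1
  have h4 := (mertens_card (x' := x) h2).2
  have h5 := card_nsmul_le_sum (PI (3 * x / 4) x) (fun p => 1 / (p : ℝ)) (1 / x) fun p hp =>
    one_div_le_one_div_of_le (h2.trans ((mem_PI h2.le).1 hp).2.1) ((mem_PI h2.le).1 hp).2.2
  refine le_trans ?_ h5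
  rw [nsmul_eq_mul, mul_one_div, div_le_div_iff₀ (by positivity) (by linarith)]
  linarith

theorem half_primes : ∃ x₀ : ℝ, ∀ x : ℝ, x₀ ≤ x →
    x / (4 * Real.log x) ≤ ((PI (x / 2) x).card : ℝ) := by
  obtain ⟨x₀, h0, h⟩ := mertens_theta (c := 1 / 2) (ε := 1 / 4) (by norm_num) (by norm_num)
    (by norm_num)
  refine ⟨x₀, fun x hx => ?_⟩
  have h1 := (abs_le.1 (h x hx)).1
  have h3 := Real.log_pos (x := x) (by linarith)
  rw [show 1 / 2 * x = x / 2 by ring] at h1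
  have h4 := (mertens_card (x := x / 2) (x' := x) (by linarith)).2
  rw [div_le_iff₀ (by positivity)]
  linarith

theorem box_card : ∃ j₀ : ℕ, 1 ≤ j₀ ∧ ∀ j : ℕ, j₀ ≤ j →
    (2 : ℝ) ^ j / j ≤ (box j).card ∧ ((box j).card : ℝ) ≤ 2 * 2 ^ j / j := by
  obtain ⟨x₀, -, h⟩ := mertens_theta (c := 1 / 2) (ε := 1 / 20) (by norm_num) (by norm_num)
    (by norm_num)
  obtain ⟨m, hm⟩ := pow_unbounded_of_one_lt x₀ one_lt_two
  refine ⟨m + 10, by omega, fun j hj => ?_⟩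
  have h1 := abs_le.1 (h (2 ^ (j + 1)) (hm.le.trans (pow_le_pow_right₀ one_le_two (by omega))))
  have h2 : (1 / 2 : ℝ) * 2 ^ (j + 1) = 2 ^ j := by ring
  have h3 : PI (2 ^ j) (2 ^ (j + 1)) = box j := by
    ext p
    rw [mem_PI (by positivity), mem_box]
    refine and_congr_right fun hp => ?_
    have h4 : p ≠ 2 ^ j := fun e => Nat.Prime.not_prime_pow (by omega) (e ▸ hp)
    have h5 : p ≠ 2 ^ (j + 1) := fun e => Nat.Prime.not_prime_pow (by omega) (e ▸ hp)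
    norm_cast
    omega
  obtain ⟨h4, h5⟩ := mertens_card (x := 2 ^ j) (x' := 2 ^ (j + 1)) (by positivity)
  rw [h2, h3] at h1
  rw [h3, Real.log_pow] at h4 h5
  have h6 : (10 : ℝ) ≤ j := by exact_mod_cast (by omega : 10 ≤ j)
  have h7 : (0 : ℝ) ≤ (box j).card := Nat.cast_nonneg _
  have h8 := mul_nonneg h7 (by linarith : (0 : ℝ) ≤ j)
  have h9 := mul_le_mul_of_nonneg_left h6 h7
  rw [div_le_iff₀ (by linarith), le_div_iff₀ (by linarith)]
  rw [Nat.cast_succ] at h5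
  rw [pow_succ] at h1
  constructor
  · nlinarith [Real.log_two_lt_d9, h1.1]
  · nlinarith [Real.log_two_gt_d9, h1.2, pow_pos (two_pos (α := ℝ)) j]

end Vale.Agent.P013
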