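import Vale.Agent.P013.Fund

/-! Equidistribution of the Chinese remainder points implies many survivors.

Proof plan. `s₀` from `fund_lemma`, `κ = 2 s₀ + 2`, `E = p^s₀`, `H = p^κ`, `Y = y/2` (natural
division, `y ≤ 3 Y`). Apply the lower bound of `fund_lemma` with `w = p`, `P = p.primesBelow`,
`g l = 1/l`, `A = {(i, n₁, n₂) ∈ 𝒟 ×ˢ range Y ×ˢ range Y | d i ∣ N + n₁ + n₂}`, weight `1/Y`,
`bad l x = l ∣ N + n₁ + n₂`, `X = Y ∑ 1/d i`. For `s ⊆ P`, `e = pr s ≤ E`, `M = d i e`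
(coprime factors), `sum_ex_range` gives
`#{(n₁,n₂) | M ∣ N + n₁ + n₂} = (1/M) ∑_{h mod M} ∑_{n₁,n₂} e(h (N + n₁ + n₂)/M)`; take
`h` in a symmetric system of residues `-M/2 < h ≤ M/2`, `2 H < M`. `h = 0` gives `Y^2/M`; for
`|h| > H` the geometric sums give `‖∑_{n<Y} e(h n/M)‖ ≤ M/(2|h|)` (`‖e θ - 1‖ ≥ 4 |θ|` for
`|θ| ≤ 1/2`, from `Real.mul_abs_le_abs_sin` or `Real.mul_le_sin`), total at most `M/H`; for
`0 < |h| ≤ H` sum over `i` first and use the hypothesis with `v = n₁ + n₂`. So the remainder is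
`r ≤ X (2 H p^(-2κ) + 9 E/H) ≤ 11 X E/H`, and `E r ≤ 11 X/p^2 ≤ X Vp p/4` by `Vp_ge`. Finally
every `v < y` has at most `Y` representations `n₁ + n₂`. -/

open Finset

namespace Vale.Agent.P013

theorem fou_geom {θ : ℝ} (h : |θ| ≤ 1 / 2) (h0 : θ ≠ 0) (Y : ℕ) :
    ‖∑ n ∈ range Y, ex (n * θ)‖ ≤ 1 / (2 * |θ|) := by
  have hπ := Real.pi_pos
  have h1 : 4 * |θ| ≤ ‖ex θ - 1‖ := by
    rw [show ex θ = Complex.exp (Complex.I * ((2 * Real.pi * θ : ℝ) : ℂ)) by
      rw [ex]; congr 1; push_cast; ring, Complex.norm_exp_I_mul_ofReal_sub_one, norm_mul,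
      show 2 * Real.pi * θ / 2 = Real.pi * θ by ring]
    have := Real.mul_abs_le_abs_sin (x := Real.pi * θ)
      (by rw [abs_mul, abs_of_pos hπ]; nlinarith)
    rw [abs_mul, abs_of_pos hπ, ← mul_assoc, div_mul_cancel₀ _ hπ.ne'] at this
    simp only [Real.norm_eq_abs, abs_two]
    linarith
  have h2 := abs_pos.2 h0
  simp only [ex_nat_mul]
  rw [geom_sum_eq (fun e => by rw [e, sub_self, norm_zero] at h1; linarith), norm_div,
    div_le_div_iff₀ (by linarith) (by positivity)]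
  have := norm_sub_le (ex θ ^ Y) 1
  rw [norm_pow, norm_ex, one_pow, norm_one] at this
  nlinarith

theorem fou_orth {M : ℕ} (hM : 0 < M) (K : ℕ) (m : ℤ) :
    ∑ h ∈ Ico (-K : ℤ) (M - K), ex ((h * m : ℤ) / M) / M = if (M : ℤ) ∣ m then 1 else 0 := by
  have hM' : (M : ℝ) ≠ 0 := by positivity
  have : ∑ h ∈ Ico (-K : ℤ) (M - K), ex ((h * m : ℤ) / M) =
      ∑ j ∈ range M, ex (j * m / M) * ex ((-K * m : ℤ) / M) :=
    sum_nbij' (fun h => (h + K).toNat) (fun j => j - K) (by simp; omega) (by simp)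
      (by simp; omega) (by simp) fun h hh => by
        rw [← ex_add, ← Int.cast_natCast (h + K).toNat,
          Int.toNat_of_nonneg (by linarith [(mem_Ico.1 hh).1])]
        congr 1
        push_cast
        ring
  rw [← sum_div, this, ← sum_mul, sum_ex_range hM]
  split_ifs with h
  · obtain ⟨c, rfl⟩ := h
    rw [show ((-K * (M * c) : ℤ) : ℝ) / M = (-K * c : ℤ) by push_cast; field_simp, ex_int, mul_one,
      div_self (by exact_mod_cast hM')]
  · simp

theorem fou_count (N : ℤ) (Y : ℕ) {H M : ℕ} (hH : 0 < H) (hM : 2 * H < M) :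
    ‖((((range Y ×ˢ range Y).filter fun n => (M : ℤ) ∣ N + (n.1 + n.2 : ℕ)).card : ℂ) -
      Y ^ 2 / M) - ∑ h ∈ (Icc (-H : ℤ) H).erase 0, ∑ n ∈ range Y ×ˢ range Y,
        ex ((h * (N + (n.1 + n.2 : ℕ)) : ℤ) / M) / M‖ ≤ M / H := by
  have M0 : (0 : ℝ) < M := by exact_mod_cast (by omega : 0 < M)
  have h1 : Icc (-H : ℤ) H ⊆ Ico (-(M / 2 : ℕ) : ℤ) (M - (M / 2 : ℕ)) := fun h hh => by
    simp only [mem_Icc, mem_Ico] at hh ⊢
    omega
  rw [card_filter]
  push_cast [-Nat.cast_add, -Int.cast_mul]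
  simp only [← fou_orth (by omega : 0 < M) (M / 2)]
  rw [sum_comm, ← sum_sdiff h1, ← add_sum_erase _ _ (show (0 : ℤ) ∈ Icc (-H : ℤ) H by simp)]
  simp only [zero_mul, Int.cast_zero, zero_div, ex_zero, sum_const, card_product, card_range,
    nsmul_eq_mul, mul_one_div, ← sq, Nat.cast_pow, sub_sub, add_sub_cancel_right]
  refine (norm_sum_le_of_le _ (n := fun h : ℤ => M / 4 * ((h : ℝ) ^ 2)⁻¹) fun h hh => ?_).trans ?_
  · simp only [mem_sdiff, mem_Icc, mem_Ico] at hh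
    have h0 : (h : ℝ) ≠ 0 := by exact_mod_cast (by omega : h ≠ 0)
    have h2 := fou_geom (θ := h / M) (by
      rw [abs_div, abs_of_pos M0, div_le_div_iff₀ M0 two_pos, one_mul]
      exact_mod_cast (by cases abs_cases h <;> omega : |h| * 2 ≤ M)) (by positivity) Y
    have h3 : ∑ n ∈ range Y ×ˢ range Y, ex ((h * (N + (n.1 + n.2)) : ℤ) / M) / M =
        ex (N * (h / M)) / M * (∑ n ∈ range Y, ex (n * (h / M))) ^ 2 := by
      rw [sq, sum_mul_sum, ← sum_product', mul_sum]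
      refine sum_congr rfl fun n _ => ?_
      rw [div_mul_eq_mul_div, ← ex_add, ← ex_add]
      congr 2
      push_cast
      ring
    rw [h3, norm_mul, norm_div, norm_ex, norm_pow, Complex.norm_natCast]
    refine (mul_le_mul_of_nonneg_left (pow_le_pow_left₀ (norm_nonneg _) h2 2)
      (by positivity)).trans_eq ?_
    rw [div_pow, mul_pow, sq_abs]
    field_simp
    norm_num
  · have a := sum_Ioo_inv_sq_le (α := ℝ) H M
    have b : ∑ h ∈ Ico (-(M / 2 : ℕ) : ℤ) (M - (M / 2 : ℕ)) \ Icc (-H : ℤ) H, ((h : ℝ) ^ 2)⁻¹ ≤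
        ∑ x ∈ Ioo H M ×ˢ ({1, -1} : Finset ℤ), ((x.1 : ℝ) ^ 2)⁻¹ := by
      refine le_of_eq_of_le ((sum_congr rfl fun h _ => by simp).trans (sum_image
        (g := fun h : ℤ => (h.natAbs, h.sign)) (f := fun x => ((x.1 : ℝ) ^ 2)⁻¹)
          fun a _ b _ e => ?_).symm) (sum_le_sum_of_subset_of_nonneg (image_subset_iff.2
            fun h hh => ?_) fun _ _ _ => by positivity)
      · simp only [Prod.mk.injEq] at e
        rw [← Int.sign_mul_natAbs a, e.1, e.2, Int.sign_mul_natAbs]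
      · simp only [mem_sdiff, mem_Icc, mem_Ico, mem_product, mem_Ioo, mem_insert, mem_singleton,
          Int.sign_eq_one_iff_pos, Int.sign_eq_neg_one_iff_neg] at hh ⊢
        omega
    rw [sum_product] at b
    rw [← mul_sum]
    simp only [sum_const, show ({1, -1} : Finset ℤ).card = 2 from rfl, nsmul_eq_mul,
      ← mul_sum] at b
    have c : 2 / (H + 1 : ℝ) ≤ 2 / H := by gcongr; linarith
    refine (mul_le_mul_of_nonneg_left (b.trans (mul_le_mul_of_nonneg_left (a.trans c)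
      (by positivity))) (by positivity)).trans_eq ?_
    push_cast
    ring

theorem fourier_sieve : ∃ (κ p₀ : ℕ) (c : ℝ), 0 < c ∧ ∀ (N : ℤ) (y p : ℕ) {ι : Type}
    (𝒟 : Finset ι) (d : ι → ℕ), p₀ ≤ p →
    (∀ i ∈ 𝒟, 2 * p ^ κ < d i ∧ d i ≤ y ∧ ∀ l ∈ p.primesBelow, ¬ l ∣ d i) →
    (∀ (e : ℕ) (h : ℤ) (v : ℕ), 1 ≤ e → e ≤ p ^ κ → (∀ l : ℕ, l.Prime → l ∣ e → l < p) →
      h ≠ 0 → |h| ≤ p ^ κ → v < y →
      (p : ℝ) ^ (2 * κ) *
        ‖∑ i ∈ 𝒟, ex ((h * (N + v) : ℤ) / ((d i * e : ℕ) : ℝ)) / (d i : ℂ)‖ ≤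
        ∑ i ∈ 𝒟, 1 / (d i : ℝ)) →
    c * y / Real.log p * ∑ i ∈ 𝒟, 1 / (d i : ℝ) ≤ ∑ i ∈ 𝒟, (sift N y (d i) p : ℝ) := by
  obtain ⟨s₀, hs, H⟩ := fund_lemma
  obtain ⟨c, hc, HV⟩ := Vp_ge
  refine ⟨2 * s₀ + 2, max 2 ⌈44 / c⌉₊, c / 12, by positivity, fun N y p ι 𝒟 d hp hd hE => ?_⟩
  rcases 𝒟.eq_empty_or_nonempty with rfl | ⟨i₀, hi₀⟩
  · simp
  obtain ⟨p2, p3⟩ := max_le_iff.1 hp
  have p0 : (0 : ℝ) < p := by positivity
  have l0 : 0 < Real.log p := Real.log_pos (by exact_mod_cast p2)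
  obtain ⟨Y, hY⟩ : ∃ Y, Y = y / 2 := ⟨_, rfl⟩
  have hk : 0 < p ^ (2 * s₀ + 2) := by positivity
  have Y0 : 0 < Y ∧ y ≤ 3 * Y := by have := hd i₀ hi₀; omega
  have Y1 : (y : ℝ) ≤ 3 * Y := by exact_mod_cast Y0.2
  have Y2 : (0 : ℝ) < Y := by exact_mod_cast Y0.1
  have d0 : ∀ i ∈ 𝒟, 0 < d i := fun i hi => by have := hd i hi; omega
  obtain ⟨T, hT⟩ : ∃ T, T = ∑ i ∈ 𝒟, 1 / (d i : ℝ) := ⟨_, rfl⟩
  have T0 : 0 ≤ T := hT ▸ sum_nonneg fun _ _ => by positivity
  rw [← hT] at hE ⊢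
  have h := (H p p.primesBelow (fun l => 1 / l) (by exact_mod_cast p2)
    (fun l h => ⟨Nat.prime_of_mem_primesBelow h, by
      exact_mod_cast (Nat.lt_of_mem_primesBelow h).le⟩)
    (fun l h => ⟨by positivity, one_div_le_one_div_of_le two_pos (by
      exact_mod_cast (Nat.prime_of_mem_primesBelow h).two_le), by gcongr; norm_num⟩)
    ((𝒟 ×ˢ range Y ×ˢ range Y).filter fun x => (d x.1 : ℤ) ∣ N + (x.2.1 + x.2.2 : ℕ)) (fun _ => 1)
    (fun l x => (l : ℤ) ∣ N + (x.2.1 + x.2.2 : ℕ)) (Y ^ 2 * T)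
    (11 * (Y ^ 2 * T) * p ^ s₀ / p ^ (2 * s₀ + 2)) (by positivity) (fun _ _ => zero_le_one)
    fun s h he => by
      have h1 : ∀ l ∈ s, l.Prime := fun l a => Nat.prime_of_mem_primesBelow (h a)
      have e0 := pr_pos h1
      have e1 : (1 : ℝ) ≤ pr s := by exact_mod_cast e0
      have e2 : pr s ≤ p ^ (2 * s₀ + 2) := le_trans (by exact_mod_cast he)
        (Nat.pow_le_pow_right (by omega) (by omega : s₀ ≤ _))
      have h2 : ‖∑ h ∈ (Icc (-(p ^ (2 * s₀ + 2) : ℕ) : ℤ) (p ^ (2 * s₀ + 2) : ℕ)).erase 0,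
          ∑ n ∈ range Y ×ˢ range Y, ∑ i ∈ 𝒟, ex ((h * (N + (n.1 + n.2 : ℕ)) : ℤ) /
            ((d i * pr s : ℕ) : ℝ)) / (d i * pr s : ℕ)‖ ≤
          2 * (Y ^ 2 * T) * p ^ s₀ / p ^ (2 * s₀ + 2) := by
        refine (norm_sum_le_of_le _ fun k hh => (norm_sum_le_of_le _ (n := fun _ =>
          T / p ^ (2 * (2 * s₀ + 2))) fun n hn => ?_)).trans ?_
        · simp only [mem_erase, mem_Icc, mem_product, mem_range] at hh hn
          have := hE (pr s) k (n.1 + n.2) e0 e2 (fun l a b => Nat.lt_of_mem_primesBelow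
            (h ((prime_dvd_pr h1 a).1 b))) hh.1 (by exact_mod_cast abs_le.2 hh.2) (by omega)
          simp only [Nat.cast_mul (α := ℂ), ← div_div, ← sum_div, norm_div, Complex.norm_natCast]
          exact (div_le_self (norm_nonneg _) e1).trans ((le_div_iff₀' (by positivity)).2 this)
        · rw [sum_const, sum_const, card_erase_of_mem (by simp), Int.card_Icc, card_product,
            card_range, nsmul_eq_mul, nsmul_eq_mul,
            show ((p ^ (2 * s₀ + 2) : ℕ) + 1 - -(p ^ (2 * s₀ + 2) : ℕ) : ℤ).toNat - 1 =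
              2 * p ^ (2 * s₀ + 2) by omega, two_mul (2 * s₀ + 2), pow_add (p : ℝ) (2 * s₀ + 2)]
          refine le_of_eq_of_le (by push_cast; field_simp) (div_le_div_of_nonneg_right
            (le_mul_of_one_le_right (by positivity) (one_le_pow₀ (by exact_mod_cast by omega)))
            (by positivity))
      have h3 := norm_sum_le_of_le 𝒟 (n := fun i => 1 / (d i : ℝ) *
        (9 * Y ^ 2 * p ^ s₀ / p ^ (2 * s₀ + 2))) fun i hi => (fou_count N Y hk
          ((hd i hi).1.trans_le (Nat.le_mul_of_pos_right _ e0))).trans (by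
            have a : (0 : ℝ) < d i := by exact_mod_cast d0 i hi
            have b : (d i : ℝ) ≤ 3 * Y := le_trans (by exact_mod_cast (hd i hi).2.1) Y1
            push_cast
            rw [← mul_div_assoc, one_div_mul_eq_div]
            refine div_le_div_of_nonneg_right ((le_div_iff₀' a).2 ?_) (by positivity)
            rw [← mul_assoc]
            exact mul_le_mul (by nlinarith) he (by positivity) (by positivity))
      rw [sum_sub_distrib, sum_comm, ← sum_mul, ← hT] at h3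
      simp only [sum_comm (s := 𝒟) (t := range Y ×ˢ range Y)] at h3
      have h4 := (norm_le_norm_sub_add _ _).trans (add_le_add h3 h2)
      rw [← Real.norm_eq_abs, ← Complex.norm_real]
      refine le_of_eq_of_le (congrArg _ ?_) (h4.trans_eq (by ring))
      rw [filter_filter, sum_filter, sum_product, prod_div_distrib, ← pr_cast, hT, mul_sum, sum_mul]
      push_cast
      rw [← sum_sub_distrib]
      refine sum_congr rfl fun i hi => congr_arg₂ _ ?_ (by simp only [prod_const_one]; field_simp)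
      rw [card_filter]
      push_cast
      refine sum_congr rfl fun n _ => ?_
      have : (d i).Coprime (pr s) := Nat.coprime_of_dvd fun l a b c =>
        (hd i hi).2.2 l (h ((prime_dvd_pr h1 a).1 c)) b
      rw [apply_ite Complex.ofReal]
      exact if_congr ⟨fun h => (Nat.isCoprime_iff_coprime.2 this).mul_dvd h.1
        ((pr_dvd_iff h1).2 h.2), fun h => ⟨dvd_of_mul_right_dvd h,
          (pr_dvd_iff h1).1 (dvd_of_mul_left_dvd h)⟩⟩ rfl rfl).1
  have h1 : c / 4 / Real.log p * (Y ^ 2 * T) ≤ Y * ∑ i ∈ 𝒟, (sift N y (d i) p : ℝ) := by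
    refine le_trans ?_ (h.trans ?_)
    · have a := mul_le_mul_of_nonneg_left (HV p p2) (show 0 ≤ Y ^ 2 * T by positivity)
      have b : 11 / p ^ 2 ≤ c / 4 / Real.log p := by
        rw [div_le_div_iff₀ (by positivity) l0]
        have := (div_le_iff₀ hc).1 (Nat.ceil_le.1 p3)
        nlinarith [Real.log_le_self p0.le]
      rw [show (p : ℝ) ^ s₀ * (11 * (Y ^ 2 * T) * p ^ s₀ / p ^ (2 * s₀ + 2)) =
        11 / p ^ 2 * (Y ^ 2 * T) by field_simp; ring]
      have e := mul_le_mul_of_nonneg_right b (show 0 ≤ Y ^ 2 * T by positivity)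
      rw [div_right_comm] at e ⊢
      unfold Vp at a
      linarith
    · rw [filter_filter, sum_filter, sum_product, mul_sum]
      refine sum_le_sum fun i _ => ?_
      refine (@sum_boole _ _ _ _ (_) _).trans_le ?_
      rw [sift, ← Nat.cast_mul, Nat.cast_le,
        ← card_range Y, ← card_product, card_range]
      refine card_le_card_of_injOn (fun n => (n.1, n.1 + n.2)) (fun n hn => ?_)
        fun n _ n' _ e => ?_
      · simp only [coe_filter, mem_product, mem_range, Set.mem_ofPred_eq, coe_product,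
          Set.mem_prod, mem_coe] at hn ⊢
        exact ⟨hn.1.1, by omega, hn.2⟩
      · simp only [Prod.mk.injEq] at e
        exact Prod.ext e.1 (by omega)
  refine le_trans ?_ (le_of_mul_le_mul_left (le_of_eq_of_le (by ring) h1 :
    Y * (c / 4 * Y / Real.log p * T) ≤ _) Y2)
  gcongr ?_ / _ * _
  nlinarith

end Vale.Agent.P013
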