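import Vale.Agent.P013.Defs

/-! Inverse theorem, part B: the moment bound on a grid.

Proof plan. `grid_bound`: the left side is at most
`∑_{j < M} ∏_a ‖∑_σ g σ e(j N a σ/M)‖^(2k)`, `N a σ = (∏_{a' ≠ a} A a') c σ`. Write
`‖z‖^(2k) = z^k (conj z)^k`, expand (`Finset.sum_pow'`/`Fintype.sum_pow`, `prod_univ_sum`,
`conj_ex`, `ex_sum`): it equals `∑_{w : ι → ...} coef w ∑_j e(j Σ(w)/M)` with `‖coef w‖ ≤ 1` and
`Σ(w) = ∑_a (∏_{a' ≠ a} A a') sgnSum c (w a)`, `|Σ(w)| ≤ |ι| k F < M`. By `sum_ex_range` only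
`Σ(w) = 0` survives, and then `A a ∣ (∏_{a' ≠ a} A a') sgnSum c (w a)`, so `A a ∣ sgnSum c (w a)`
for each `a` (distinct primes). The number of such `w` is the product.
`sum_dvd_count`: swap the sums; a non zero integer of absolute value `≤ k E < 2^W` has at most
`W` prime divisors (`two_pow_card_le_pr`, `pr_dvd_iff`). -/

open Finset

namespace Vale.Agent.P013

theorem invB_abs_le {S : Type} {k : ℕ} (c : S → ℕ) {E : ℕ} (hc : ∀ σ, c σ ≤ E)
    (w : (Fin k → S) × (Fin k → S)) : |sgnSum c w| ≤ (k * E : ℕ) := by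
  have h : ∀ u : Fin k → S, 0 ≤ ∑ j, (c (u j) : ℤ) ∧ ∑ j, (c (u j) : ℤ) ≤ (k * E : ℕ) := fun u =>
    ⟨by positivity, by
      have h1 := sum_le_card_nsmul univ (fun j => (c (u j) : ℤ)) E fun j _ => by
        exact_mod_cast hc (u j)
      simpa using h1⟩
  rw [sgnSum, abs_le]
  constructor <;> linarith [h w.1, h w.2]

theorem invB_mul {S : Type} {k : ℕ} (c : S → ℕ) (P : ℕ) (w : (Fin k → S) × (Fin k → S)) :
    sgnSum (fun σ => P * c σ) w = P * sgnSum c w := by
  simp [sgnSum, mul_sub, mul_sum]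

theorem invB_pow {S : Type} [Fintype S] (k : ℕ) (g : S → ℂ) (c : S → ℕ) (θ : ℝ) :
    ((‖∑ σ, g σ * ex (θ * c σ)‖ ^ (2 * k) : ℝ) : ℂ) = ∑ w : (Fin k → S) × (Fin k → S),
      ((∏ j, g (w.1 j)) * ∏ j, (starRingEnd ℂ) (g (w.2 j))) * ex (θ * (sgnSum c w : ℤ)) := by
  rw [pow_mul, Complex.ofReal_pow, Complex.ofReal_pow, ← Complex.mul_conj', mul_pow, map_sum,
    Fintype.sum_pow, Fintype.sum_pow, sum_mul_sum, ← Fintype.sum_prod_type']
  refine sum_congr rfl fun w _ => ?_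
  simp only [map_mul, conj_ex, prod_mul_distrib, ← ex_sum]
  rw [mul_mul_mul_comm, ← ex_add]
  congr 2
  simp [sgnSum, mul_sum, sub_eq_add_neg, mul_add]

theorem grid_bound {S ι : Type} [Fintype S] [Fintype ι] [DecidableEq ι] {k : ℕ} (g : S → ℂ)
    (hg : ∀ σ, ‖g σ‖ ≤ 1) (c : S → ℕ) (A : ι → ℕ) (hA : ∀ a, (A a).Prime)
    (hinj : Function.Injective A) {M F : ℕ}
    (hF : ∀ a σ, (∏ a' ∈ univ.erase a, A a') * c σ ≤ F) (hM : k * Fintype.card ι * F < M)
    {δ : ℝ} (hδ : 0 ≤ δ) :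
    (((range M).filter fun j : ℕ => ∀ a, δ ≤
        ‖∑ σ, g σ * ex (j * (((∏ a' ∈ univ.erase a, A a') * c σ : ℕ) : ℝ) / M)‖).card : ℝ) *
        δ ^ (2 * k * Fintype.card ι) ≤
      M * ∏ a, ((univ.filter fun w : (Fin k → S) × (Fin k → S) =>
        (A a : ℤ) ∣ sgnSum c w).card : ℝ) := by
  classical
  have hM0 : 0 < M := by omega
  set P : ι → ℕ := fun a => ∏ a' ∈ univ.erase a, A a' with hP
  let T : (ι → (Fin k → S) × (Fin k → S)) → ℤ := fun W => ∑ a, P a * sgnSum c (W a)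
  let co : (Fin k → S) × (Fin k → S) → ℂ := fun w =>
    (∏ j, g (w.1 j)) * ∏ j, (starRingEnd ℂ) (g (w.2 j))
  have hco : ∀ w, ‖co w‖ ≤ 1 := fun w => by
    rw [norm_mul, norm_prod, norm_prod]
    exact mul_le_one₀ (prod_le_one (fun _ _ => norm_nonneg _) fun _ _ => hg _) (by positivity)
      (prod_le_one (fun _ _ => norm_nonneg _) fun _ _ => by simpa using hg _)
  have h1 : ∀ j : ℕ, ((∏ a, ‖∑ σ, g σ * ex (j * ((P a * c σ : ℕ) : ℝ) / M)‖ ^ (2 * k) : ℝ) : ℂ) =
      ∑ W : ι → (Fin k → S) × (Fin k → S), (∏ a, co (W a)) * ex (j * (T W : ℤ) / M) := by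
    intro j
    have h2 : ∀ a σ, (j * ((P a * c σ : ℕ) : ℝ) / M) = j / M * ((P a * c σ : ℕ) : ℝ) :=
      fun a σ => by ring
    rw [Complex.ofReal_prod]
    simp only [h2, invB_pow, invB_mul]
    rw [Fintype.prod_sum]
    refine sum_congr rfl fun W _ => ?_
    rw [prod_mul_distrib, ← ex_sum, ← mul_sum, ← Int.cast_sum]
    congr 2
    ring
  have h2 : ∀ W, (M : ℤ) ∣ T W → ∀ a, (A a : ℤ) ∣ sgnSum c (W a) := by
    intro W hW a
    have h3 : |T W| ≤ (k * Fintype.card ι * F : ℕ) := (abs_sum_le_sum_abs _ _).trans <|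
      (sum_le_card_nsmul _ _ ((k * F : ℕ) : ℤ) fun a _ => by
        rw [← invB_mul]
        exact invB_abs_le _ (hF a) _).trans_eq (by simp; ring)
    have h4 : T W = 0 := Int.eq_zero_of_abs_lt_dvd hW (h3.trans_lt (by exact_mod_cast hM))
    have h5 : (A a : ℤ) ∣ P a * sgnSum c (W a) := by
      rw [← Int.dvd_add_left (c := ∑ b ∈ univ.erase a, P b * sgnSum c (W b))
        (dvd_sum fun b hb => Dvd.dvd.mul_right (Int.natCast_dvd_natCast.2 (dvd_prod_of_mem _
          (mem_erase.2 ⟨(ne_of_mem_erase hb).symm, mem_univ _⟩))) _),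
        add_sum_erase _ (fun b => P b * sgnSum c (W b)) (mem_univ a)]
      exact (dvd_zero _).trans (dvd_of_eq h4.symm)
    refine IsCoprime.dvd_of_dvd_mul_left (Nat.isCoprime_iff_coprime.2 ?_) h5
    exact Nat.Coprime.prod_right fun b hb =>
      (Nat.coprime_primes (hA a) (hA b)).2 (hinj.ne (ne_of_mem_erase hb).symm)
  have h3 : ∑ j ∈ range M, ∏ a, ‖∑ σ, g σ * ex (j * ((P a * c σ : ℕ) : ℝ) / M)‖ ^ (2 * k) ≤
      M * ∏ a, ((univ.filter fun w : (Fin k → S) × (Fin k → S) =>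
        (A a : ℤ) ∣ sgnSum c w).card : ℝ) := by
    refine (le_abs_self _).trans ?_
    rw [← Real.norm_eq_abs, ← Complex.norm_real, Complex.ofReal_sum]
    simp only [h1]
    rw [sum_comm, ← Nat.cast_prod, ← Fintype.card_piFinset, mul_comm, ← nsmul_eq_mul, ← sum_const,
      ← univ_inter (Fintype.piFinset _), ← sum_ite_mem]
    refine (norm_sum_le _ _).trans (sum_le_sum fun W _ => ?_)
    rw [← mul_sum, sum_ex_range hM0]
    by_cases hW : (M : ℤ) ∣ T W
    · rw [if_pos hW, if_pos (by simpa using h2 W hW), norm_mul, Complex.norm_natCast, norm_prod]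
      exact mul_le_of_le_one_left (by positivity)
        (prod_le_one (fun _ _ => norm_nonneg _) fun _ _ => hco _)
    · rw [if_neg hW, mul_zero, norm_zero]
      positivity
  refine le_trans ?_ h3
  rw [← nsmul_eq_mul]
  refine (card_nsmul_le_sum _ _ _ fun j hj => ?_).trans
    (sum_le_sum_of_subset_of_nonneg (filter_subset _ _) fun _ _ _ => by positivity)
  rw [pow_mul, ← card_univ, ← prod_const]
  exact prod_le_prod (fun _ _ => by positivity) fun a _ =>
    pow_le_pow_left₀ hδ ((mem_filter.1 hj).2 a) _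

theorem sum_dvd_count {S : Type} [Fintype S] {k : ℕ} (c : S → ℕ) (Q : Finset ℕ)
    (hQ : ∀ p ∈ Q, p.Prime) {E W : ℕ} (hc : ∀ σ, c σ ≤ E) (hW : k * E < 2 ^ W) :
    ∑ p ∈ Q, (univ.filter fun w : (Fin k → S) × (Fin k → S) => (p : ℤ) ∣ sgnSum c w).card ≤
      Q.card * (univ.filter fun w : (Fin k → S) × (Fin k → S) => sgnSum c w = 0).card +
        W * Fintype.card S ^ (2 * k) := by
  simp only [card_filter]
  rw [sum_comm, mul_sum, two_mul k, pow_add]
  refine (sum_le_sum (g := fun w => Q.card * (if sgnSum c w = 0 then 1 else 0) + W)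
    fun w _ => ?_).trans_eq ?_
  · rw [← card_filter]
    split_ifs with h
    · exact (card_filter_le _ _).trans (by omega)
    have hp : ∀ p ∈ Q.filter fun p : ℕ => (p : ℤ) ∣ sgnSum c w, p.Prime :=
      fun p hp => hQ p (mem_filter.1 hp).1
    have h1 := Int.le_of_dvd (abs_pos.2 h)
      ((dvd_abs _ _).2 ((pr_dvd_iff hp).2 fun p hp => (mem_filter.1 hp).2))
    have h2 := two_pow_card_le_pr hp
    have h3 := invB_abs_le c hc w
    have h4 := (Nat.pow_lt_pow_iff_right one_lt_two).1 (h2.trans_lt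
      (lt_of_le_of_lt (by exact_mod_cast h1.trans h3) hW))
    omega
  · rw [sum_add_distrib]
    simp [mul_comm]

end Vale.Agent.P013
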