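import Vale.Agent.P013.Defs

/-! Inverse theorem, part C: counting and gluing lemmas. -/

open Finset

namespace Vale.Agent.P013

theorem ic_markov {α : Type*} (s : Finset α) (f : α → ℝ) {Y θ : ℝ} (hY : 0 < Y) (hθ : 0 ≤ θ)
    (hf : ∀ x ∈ s, f x ≤ Y) (h : θ * (s.card * Y) ≤ ∑ x ∈ s, f x) :
    θ / 2 * s.card ≤ (s.filter fun x => θ / 2 * Y ≤ f x).card := by
  have h1 : ∑ x ∈ s, f x ≤ ∑ x ∈ s, ((if θ / 2 * Y ≤ f x then Y else 0) + θ / 2 * Y) := by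
    refine sum_le_sum fun x hx => ?_
    have : 0 ≤ θ / 2 * Y := by positivity
    split_ifs with h2
    · linarith [hf x hx]
    · linarith
  rw [sum_add_distrib, ← sum_filter, sum_const, sum_const, nsmul_eq_mul, nsmul_eq_mul] at h1
  refine le_of_mul_le_mul_right ?_ hY
  nlinarith

open Classical in
/-- Injective tuples with entries in `T`. -/
noncomputable def icT (ι : Type) [Fintype ι] [DecidableEq ι] (T : Finset ℕ) : Finset (ι → ℕ) :=
  (Fintype.piFinset fun _ : ι => T).filter Function.Injective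

theorem mem_icT {ι : Type} [Fintype ι] [DecidableEq ι] {T : Finset ℕ} {A : ι → ℕ} :
    A ∈ icT ι T ↔ (∀ a, A a ∈ T) ∧ Function.Injective A := by
  simp [icT]

theorem ic_card_inj (ι : Type) [Fintype ι] [DecidableEq ι] (T : Finset ℕ) :
    (T.card + 1 - Fintype.card ι) ^ Fintype.card ι ≤ (icT ι T).card := by
  refine (Nat.pow_sub_le_descFactorial _ _).trans ?_
  rw [← Fintype.card_coe T, ← Fintype.card_embedding_eq, ← card_univ]
  refine card_le_card_of_injOn (fun f a => (f a : ℕ)) (fun f _ => ?_) fun f _ g _ h => ?_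
  · exact mem_coe.2 (mem_icT.2 ⟨fun a => (f a).2, Subtype.val_injective.comp f.injective⟩)
  · ext a
    exact congrFun h a

theorem ic_step1 (ι : Type) [Fintype ι] [DecidableEq ι] {t : ℕ} (hι : Fintype.card ι = 2 * t)
    (ht : 1 ≤ t) (Q' Qs : Finset ℕ) (bias : ℕ → ℕ → Prop) [∀ p r, Decidable (bias p r)] {η : ℝ}
    (hη : 0 < η) (h3 : 32 * (t : ℝ) ≤ η * Q'.card)
    (h : η / 4 * (Q'.card * Qs.card) ≤ ((Q' ×ˢ Qs).filter fun c => bias c.1 c.2).card) :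
    2 * (η / 16) ^ (2 * t + 1) * Qs.card * Q'.card ^ (2 * t) ≤
      ∑ A ∈ icT ι Q', ((Qs.filter fun r => ∀ a, bias (A a) r).card : ℝ) := by
  have ht' : (1 : ℝ) ≤ t := by exact_mod_cast ht
  have hQ : (0 : ℝ) < Q'.card := pos_of_mul_pos_left (by linarith) hη.le
  have e1 : (((Q' ×ˢ Qs).filter fun c => bias c.1 c.2).card : ℝ) =
      ∑ r ∈ Qs, ((Q'.filter fun p => bias p r).card : ℝ) := by
    simp only [card_filter, sum_product_right]
    push_cast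
    rfl
  have h1 := ic_markov Qs (fun r => ((Q'.filter fun p => bias p r).card : ℝ)) (θ := η / 4) hQ
    (by positivity) (fun r _ => by exact_mod_cast card_filter_le _ _) (by rw [← e1]; linarith)
  have e2 : ∑ A ∈ icT ι Q', ((Qs.filter fun r => ∀ a, bias (A a) r).card : ℝ) =
      ∑ r ∈ Qs, ((icT ι (Q'.filter fun p => bias p r)).card : ℝ) := by
    have e3 : ∀ r, icT ι (Q'.filter fun p => bias p r) =
        (icT ι Q').filter fun A => ∀ a, bias (A a) r := fun r => by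
      ext A
      simp only [mem_icT, mem_filter, forall_and]
      tauto
    simp only [e3, card_filter]
    push_cast
    exact sum_comm
  rw [e2]
  refine le_trans ?_ (sum_le_sum_of_subset_of_nonneg (filter_subset
    (fun r => η / 4 / 2 * Q'.card ≤ ((Q'.filter fun p => bias p r).card : ℝ)) Qs)
    fun _ _ _ => by positivity)
  refine le_trans ?_ (card_nsmul_le_sum _ _ ((η / 16 * Q'.card) ^ (2 * t)) fun r hr => ?_)
  · rw [nsmul_eq_mul]
    calc 2 * (η / 16) ^ (2 * t + 1) * Qs.card * Q'.card ^ (2 * t)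
        = η / 4 / 2 * Qs.card * (η / 16 * Q'.card) ^ (2 * t) := by rw [mul_pow]; ring
      _ ≤ _ := by gcongr
  · have h2 := (mem_filter.1 hr).2
    have h4 := ic_card_inj ι (Q'.filter fun p => bias p r)
    rw [hι] at h4
    refine le_trans ?_ (Nat.cast_le.2 h4)
    rw [Nat.cast_pow]
    refine pow_le_pow_left₀ (by positivity) ?_ _
    have h5 : 2 * t ≤ (Q'.filter fun p => bias p r).card + 1 := by
      have : (2 * t : ℝ) ≤ (Q'.filter fun p => bias p r).card + 1 := by linarith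
      exact_mod_cast this
    rw [Nat.cast_sub h5]
    push_cast
    linarith

theorem ic_good {α : Type*} (s : Finset α) (u v : α → ℕ) {Y : ℕ} {c : ℝ} (hY : 0 < Y)
    (hu : ∀ x ∈ s, u x ≤ Y) (h1 : 2 * c * Y ≤ ∑ x ∈ s, (u x : ℝ))
    (h2 : ∑ x ∈ s, (v x : ℝ) ≤ c * Y) : c ≤ (s.filter fun x => v x < u x).card := by
  have h3 : ∑ x ∈ s, (u x : ℝ) ≤ ∑ x ∈ s, ((if v x < u x then (Y : ℝ) else 0) + v x) := by
    refine sum_le_sum fun x hx => ?_
    split_ifs with h4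
    · have : (u x : ℝ) ≤ Y := by exact_mod_cast hu x hx
      linarith [(Nat.cast_nonneg (v x) : (0 : ℝ) ≤ v x)]
    · have : (u x : ℝ) ≤ v x := by exact_mod_cast not_lt.1 h4
      linarith
  rw [sum_add_distrib, ← sum_filter, sum_const, nsmul_eq_mul] at h3
  have hY' : (0 : ℝ) < Y := by exact_mod_cast hY
  refine le_of_mul_le_mul_right ?_ hY'
  linarith

theorem ic_near {S : Type} [Fintype S] (G : S → ℂ) (hG : ∀ σ, ‖G σ‖ ≤ 1) (N : S → ℕ) {F M : ℕ}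
    (hN : ∀ σ, N σ ≤ F) {η : ℝ} (hM0 : 0 < M) (hM : 64 * (F : ℝ) ≤ η * M) (α : ℝ) :
    ‖∑ σ, G σ * ex (α * N σ)‖ - η / 8 * Fintype.card S ≤
      ‖∑ σ, G σ * ex ((⌊M * Int.fract α⌋₊ : ℕ) * (N σ : ℝ) / M)‖ := by
  have hM' : (0 : ℝ) < M := by exact_mod_cast hM0
  have h0 : 0 ≤ M * Int.fract α := mul_nonneg hM'.le (Int.fract_nonneg α)
  have h1 := Nat.floor_le h0
  have h2 := Nat.lt_floor_add_one (M * Int.fract α)
  rw [sub_le_comm]
  refine (norm_sub_norm_le _ _).trans ?_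
  rw [← sum_sub_distrib]
  refine (norm_sum_le _ _).trans ?_
  refine (sum_le_card_nsmul (univ : Finset S) _ (η / 8) fun σ _ => ?_).trans
    (by rw [nsmul_eq_mul, card_univ, mul_comm])
  have e : α * N σ = Int.fract α * N σ + ((⌊α⌋ * N σ : ℤ) : ℝ) := by
    push_cast
    rw [← add_mul, Int.fract_add_floor]
  rw [← mul_sub, norm_mul, e, ex_add_int]
  refine (mul_le_mul (hG σ) (norm_ex_sub_ex _ _) (norm_nonneg _) zero_le_one).trans ?_
  have hF : (N σ : ℝ) ≤ F := by exact_mod_cast hN σ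
  have hN0 : (0 : ℝ) ≤ N σ := Nat.cast_nonneg _
  have e2 : Int.fract α * N σ - (⌊M * Int.fract α⌋₊ : ℕ) * (N σ : ℝ) / M =
      (M * Int.fract α - (⌊M * Int.fract α⌋₊ : ℕ)) * N σ / M := by
    field_simp
  have h3 : (M * Int.fract α - (⌊M * Int.fract α⌋₊ : ℕ)) * N σ / M ≤ η / 64 := by
    rw [div_le_iff₀ hM']
    nlinarith
  have h4 : 0 ≤ (M * Int.fract α - (⌊M * Int.fract α⌋₊ : ℕ)) * N σ / M :=
    div_nonneg (mul_nonneg (by linarith) hN0) hM'.le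
  rw [e2, abs_of_nonneg h4, one_mul]
  nlinarith [Real.pi_le_four, Real.pi_pos]

theorem ic_glue (K : ℤ) {D r r' M : ℕ} (hD : 0 < D) (hr : 0 < r) (hrr : r < r') (hM : 0 < M)
    (h : ⌊M * Int.fract ((K : ℝ) / (D * r : ℕ))⌋₊ = ⌊M * Int.fract ((K : ℝ) / (D * r' : ℕ))⌋₊) :
    ∃ x : ℤ, (|x| : ℝ) * M ≤ D * r * r' ∧ (D : ℤ) ∣ ((r' - r : ℕ) : ℤ) * K - x := by
  have hM' : (0 : ℝ) < M := by exact_mod_cast hM
  have hD' : (0 : ℝ) < D := by exact_mod_cast hD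
  have hr1 : (0 : ℝ) < r := by exact_mod_cast hr
  have hr2 : (0 : ℝ) < r' := by exact_mod_cast hr.trans hrr
  set α := (K : ℝ) / (D * r : ℕ) with hα
  set α' := (K : ℝ) / (D * r' : ℕ) with hα'
  have h1 := Nat.floor_le (mul_nonneg hM'.le (Int.fract_nonneg α))
  have h2 := Nat.lt_floor_add_one (M * Int.fract α)
  have h3 := Nat.floor_le (mul_nonneg hM'.le (Int.fract_nonneg α'))
  have h4 := Nat.lt_floor_add_one (M * Int.fract α')
  rw [h] at h1 h2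
  refine ⟨((r' - r : ℕ) : ℤ) * K - (⌊α⌋ - ⌊α'⌋) * (D * r * r'), ?_, ⟨(⌊α⌋ - ⌊α'⌋) * r * r', by ring⟩⟩
  have e : ((((r' - r : ℕ) : ℤ) * K - (⌊α⌋ - ⌊α'⌋) * (D * r * r') : ℤ) : ℝ) =
      (Int.fract α - Int.fract α') * (D * r * r') := by
    rw [Int.fract, Int.fract]
    push_cast [Nat.cast_sub hrr.le]
    have e1 : α * (D * r * r') = K * r' := by rw [hα]; push_cast; field_simp
    have e2 : α' * (D * r * r') = K * r := by rw [hα']; push_cast; field_simp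
    linear_combination e2 - e1
  have h5 : |Int.fract α - Int.fract α'| * M ≤ 1 := by
    rw [← abs_of_pos hM', ← abs_mul, abs_le]
    constructor <;> linarith
  have h6 : (0 : ℝ) < D * r * r' := by positivity
  rw [e, abs_mul, abs_of_pos h6]
  nlinarith

theorem ic_few {t a b q : ℕ} (h2 : a + 3 * b ≤ (a - 1) * t) (ha : 2 ≤ a) (hq : 1 ≤ q)
    (hqb : q < 2 ^ b) (A : Fin t → ℕ) (hA : ∀ i, (A i).Prime ∧ 2 ^ (a - 1) ≤ A i)
    (hinj : Function.Injective A) : 2 * (univ.filter fun i => A i ∣ q).card ≤ t := by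
  set s := univ.filter fun i => A i ∣ q
  have h1 : ∏ i ∈ s, A i ∣ q := by
    refine prod_dvd_of_isRelPrime (fun i _ j _ hij => ?_) fun i hi => (mem_filter.1 hi).2
    exact Nat.coprime_iff_isRelPrime.1
      ((Nat.coprime_primes (hA i).1 (hA j).1).2 fun e => hij (hinj e))
  have h3 : (2 ^ (a - 1)) ^ s.card ≤ ∏ i ∈ s, A i := pow_card_le_prod _ _ _ fun i _ => (hA i).2
  have h4 : 2 ^ ((a - 1) * s.card) < 2 ^ b := by
    rw [pow_mul]
    exact (h3.trans (Nat.le_of_dvd hq h1)).trans_lt hqb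
  have h5 := (Nat.pow_lt_pow_iff_right (by norm_num : 1 < 2)).1 h4
  have h6 : (a - 1) * (3 * s.card) < (a - 1) * t := by nlinarith
  have := Nat.lt_of_mul_lt_mul_left h6
  omega

theorem ic_same {M₀ P a b q q' : ℕ} {K x x' : ℤ} (hM₀ : 1 ≤ M₀) (hP : 2 ^ (a + 3 * b) ≤ P)
    (hq : q < 2 ^ b) (hq' : q' < 2 ^ b) (hx : 64 * |x| ≤ M₀ * 2 ^ (a + 2 * b))
    (hx' : 64 * |x'| ≤ M₀ * 2 ^ (a + 2 * b)) (h : ((M₀ * P : ℕ) : ℤ) ∣ q * K - x)
    (h' : ((M₀ * P : ℕ) : ℤ) ∣ q' * K - x') : q' * (q * K - x) = q * (q' * K - x') := by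
  have h1 : ((M₀ * P : ℕ) : ℤ) ∣ q' * (q * K - x) - q * (q' * K - x') :=
    dvd_sub (h.mul_left _) (h'.mul_left _)
  refine sub_eq_zero.1 (Int.eq_zero_of_abs_lt_dvd h1 ?_)
  have e : (q' : ℤ) * (q * K - x) - q * (q' * K - x') = q * x' - q' * x := by ring
  have h2 : (q : ℤ) ≤ 2 ^ b := by exact_mod_cast hq.le
  have h3 : (q' : ℤ) ≤ 2 ^ b := by exact_mod_cast hq'.le
  have h4 : (2 : ℤ) ^ (a + 3 * b) ≤ P := by exact_mod_cast hP
  have h5 : (1 : ℤ) ≤ M₀ := by exact_mod_cast hM₀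
  have h6 : |(q : ℤ) * x' - q' * x| ≤ 2 ^ b * |x'| + 2 ^ b * |x| := by
    refine (abs_sub _ _).trans ?_
    rw [abs_mul, abs_mul, Nat.abs_cast, Nat.abs_cast]
    gcongr
  have h7 : (2 : ℤ) ^ (a + 3 * b) = 2 ^ b * 2 ^ (a + 2 * b) := by ring
  have h8 : (0 : ℤ) < 2 ^ b := by positivity
  have h9 : (0 : ℤ) < 2 ^ (a + 2 * b) := by positivity
  rw [e]
  push_cast
  have h10 : (M₀ : ℤ) * (2 ^ b * 2 ^ (a + 2 * b)) ≤ M₀ * P := by rw [← h7]; gcongr
  have h11 : (0 : ℤ) < M₀ * (2 ^ b * 2 ^ (a + 2 * b)) := by positivity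
  nlinarith

theorem ic_weight {t : ℕ} (ht : 1 ≤ t) (Q' T : Finset ℕ) (hQ : Q'.Nonempty) {η : ℝ} (hη : 0 < η)
    (hη1 : η ≤ 1) (𝒢 : Finset (Fin t → ℕ)) (h𝒢 : 𝒢 ⊆ Fintype.piFinset fun _ => Q')
    (hc : (η / 16) ^ (2 * t + 1) * (Q'.card : ℝ) ^ t ≤ 𝒢.card)
    (hw : ∀ A ∈ 𝒢, 2 * (univ.filter fun i => A i ∉ T).card ≤ t) :
    (η / 32) ^ 6 * Q'.card ≤ (Q'.filter fun p => p ∈ T).card := by
  by_contra hlt
  rw [not_le] at hlt
  set μ := (η / 32) ^ 3 with hμ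
  have hμ0 : 0 < μ := by positivity
  have hμ1 : μ ≤ 1 := pow_le_one₀ (by positivity) (by linarith)
  have hQ' : (0 : ℝ) < Q'.card := by exact_mod_cast hQ.card_pos
  have e6 : (η / 32) ^ 6 = μ ^ 2 := by rw [hμ]; ring
  rw [e6] at hlt
  let ω : ℕ → ℝ := fun p => if p ∉ T then μ ^ 2 else 1
  have h1 : ∑ p ∈ Q', ω p ≤ 2 * μ ^ 2 * Q'.card := by
    have : ∑ p ∈ Q', ω p ≤ ∑ p ∈ Q', ((if p ∈ T then (1 : ℝ) else 0) + μ ^ 2) :=
      sum_le_sum fun p _ => by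
        by_cases hp : p ∈ T <;> simp [ω, hp, sq_nonneg]
    rw [sum_add_distrib, ← sum_filter, sum_const, sum_const, nsmul_eq_mul, nsmul_eq_mul] at this
    linarith
  have hω : ∀ p, 0 ≤ ω p := fun p => by
    by_cases hp : p ∈ T <;> simp [ω, hp, sq_nonneg]
  have h2 : (𝒢.card : ℝ) * μ ^ t ≤ (∑ p ∈ Q', ω p) ^ t := by
    have e : (∑ p ∈ Q', ω p) ^ t = ∑ A ∈ Fintype.piFinset fun _ : Fin t => Q', ∏ i, ω (A i) := by
      rw [← prod_univ_sum]; simp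
    rw [e, ← nsmul_eq_mul]
    refine le_trans (card_nsmul_le_sum _ _ _ fun A hA => ?_)
      (sum_le_sum_of_subset_of_nonneg h𝒢 fun A _ _ => prod_nonneg fun i _ => hω _)
    simp only [ω]
    rw [prod_ite, prod_const, prod_const_one, mul_one, ← pow_mul μ]
    exact pow_le_pow_of_le_one hμ0.le hμ1 (hw A hA)
  have h3 : ((η / 16) ^ 3 * μ * Q'.card) ^ t ≤ (2 * μ ^ 2 * Q'.card) ^ t := by
    refine le_trans ?_ (h2.trans (pow_le_pow_left₀ (sum_nonneg fun p _ => hω p) h1 t))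
    refine le_trans ?_ (mul_le_mul_of_nonneg_right hc (by positivity))
    have h4 : (η / 16) ^ (3 * t) ≤ (η / 16) ^ (2 * t + 1) :=
      pow_le_pow_of_le_one (by positivity) (by linarith) (by omega)
    calc ((η / 16) ^ 3 * μ * Q'.card) ^ t = (η / 16) ^ (3 * t) * (Q'.card : ℝ) ^ t * μ ^ t := by
          rw [mul_pow, mul_pow, ← pow_mul]; ring
      _ ≤ _ := by gcongr
  have h5 := le_of_pow_le_pow_left₀ (by omega) (by positivity) h3
  have h6 : (η / 16) ^ 3 = 8 * μ := by rw [hμ]; ring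
  rw [h6] at h5
  have h7 : 0 < μ ^ 2 * Q'.card := by positivity
  nlinarith

theorem ic_step4 {t a b M₀ : ℕ} (ht : 1 ≤ t) (ha : 2 ≤ a) (h2 : a + 3 * b ≤ (a - 1) * t)
    (hM₀ : 1 ≤ M₀) (Q' : Finset ℕ) (hQ : Q'.Nonempty)
    (hQ' : ∀ p ∈ Q', p.Prime ∧ 2 ^ (a - 1) ≤ p) {η : ℝ} (hη : 0 < η) (hη1 : η ≤ 1) (K : ℤ)
    (𝒢 : Finset (Fin t ⊕ Fin t → ℕ)) (h𝒢 : 𝒢 ⊆ icT _ Q')
    (hc : (η / 16) ^ (2 * t + 1) * (Q'.card : ℝ) ^ (2 * t) ≤ 𝒢.card)
    (hg : ∀ A ∈ 𝒢, ∃ (q : ℕ) (x : ℤ), 1 ≤ q ∧ q < 2 ^ b ∧ 64 * |x| ≤ M₀ * 2 ^ (a + 2 * b) ∧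
      ((M₀ * ∏ i, A i : ℕ) : ℤ) ∣ q * K - x) :
    ∃ (q : ℕ) (x : ℤ), 1 ≤ q ∧ q < 2 ^ b ∧ |x| ≤ M₀ * 2 ^ (a + 2 * b) ∧
      (M₀ : ℤ) ∣ q * K - x ∧
      (η / 32) ^ 6 * Q'.card ≤ (Q'.filter fun p : ℕ => (p : ℤ) ∣ q * K - x).card := by
  have hQ0 : (0 : ℝ) < Q'.card := by exact_mod_cast hQ.card_pos
  obtain ⟨A₁, -, h1⟩ := exists_le_card_fiber_of_nsmul_le_card_of_maps_to (s := 𝒢)
    (t := Fintype.piFinset fun _ : Fin t => Q') (f := fun A => A ∘ Sum.inl)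
    (b := (η / 16) ^ (2 * t + 1) * (Q'.card : ℝ) ^ t)
    (fun A hA => Fintype.mem_piFinset.2 fun i => (mem_icT.1 (h𝒢 hA)).1 _)
    (Fintype.piFinset_nonempty.2 fun _ => hQ) (by
      refine le_trans (le_of_eq ?_) hc
      simp only [Fintype.card_piFinset, prod_const, card_univ, Fintype.card_fin, nsmul_eq_mul]
      push_cast
      ring)
  set 𝒢₁ := 𝒢.filter fun A => A ∘ Sum.inl = A₁
  have hne : 𝒢₁.Nonempty := by
    rw [← card_pos]
    have : (0 : ℝ) < 𝒢₁.card := lt_of_lt_of_le (by positivity) h1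
    exact_mod_cast this
  have hsplit : ∀ A ∈ 𝒢₁, ∏ i, A i = (∏ i, A₁ i) * ∏ i, A (.inr i) := fun A hA => by
    rw [Fintype.prod_sum_type, ← (mem_filter.1 hA).2]
    rfl
  obtain ⟨A₀, hA₀⟩ := hne
  obtain ⟨q, x, hq1, hq, hx, hd⟩ := hg A₀ (mem_filter.1 hA₀).1
  have hP : 2 ^ (a + 3 * b) ≤ ∏ i, A₁ i := by
    refine (Nat.pow_le_pow_right (by norm_num) h2).trans ?_
    rw [pow_mul]
    refine le_trans (by simp) (pow_card_le_prod univ A₁ (2 ^ (a - 1)) fun i _ => ?_)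
    rw [← (mem_filter.1 hA₀).2]
    exact (hQ' _ ((mem_icT.1 (h𝒢 (mem_filter.1 hA₀).1)).1 _)).2
  have hdv : ∀ A ∈ 𝒢₁, ((M₀ * ∏ i, A₁ i : ℕ) : ℤ) ∣ ((M₀ * ∏ i, A i : ℕ) : ℤ) := fun A hA => by
    rw [hsplit A hA, ← mul_assoc]
    exact Int.natCast_dvd_natCast.2 (dvd_mul_right _ _)
  refine ⟨q, x, hq1, hq, by linarith [abs_nonneg x],
    (Int.natCast_dvd_natCast.2 (dvd_mul_right _ _)).trans hd, ?_⟩
  have h3 := ic_weight ht Q' (Q'.filter fun p : ℕ => (p : ℤ) ∣ q * K - x) hQ hη hη1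
    (𝒢₁.image fun A => A ∘ Sum.inr) (fun A hA => ?_) ?_ fun A hA => ?_
  · rwa [filter_mem_eq_inter, inter_eq_right.2 (filter_subset _ _)] at h3
  · obtain ⟨A, hA', rfl⟩ := mem_image.1 hA
    clear hA
    rename' hA' => hA
    exact Fintype.mem_piFinset.2 fun i => (mem_icT.1 (h𝒢 (mem_filter.1 hA).1)).1 _
  · rw [card_image_of_injOn fun A hA A' hA' e => ?_]
    · exact h1
    · have e' := (mem_filter.1 hA).2.trans (mem_filter.1 hA').2.symm
      funext i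
      rcases i with i | i
      · exact congrFun e' i
      · exact congrFun e i
  · obtain ⟨A, hA', rfl⟩ := mem_image.1 hA
    clear hA
    rename' hA' => hA
    obtain ⟨hm, hinj⟩ := mem_icT.1 (h𝒢 (mem_filter.1 hA).1)
    obtain ⟨q', x', hq1', hq', hx', hd'⟩ := hg A (mem_filter.1 hA).1
    have e := ic_same hM₀ hP hq hq' hx hx' ((hdv _ hA₀).trans hd) ((hdv _ hA).trans hd')
    refine le_trans (Nat.mul_le_mul_left _ (card_le_card fun i hi => ?_))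
      (ic_few h2 ha hq1' hq' (A ∘ Sum.inr) (fun i => hQ' _ (hm _))
        (hinj.comp Sum.inr_injective))
    have h4 : ((A (.inr i) : ℕ) : ℤ) ∣ q' * (q * K - x) := by
      rw [e]
      exact ((Int.natCast_dvd_natCast.2
        ((dvd_prod_of_mem A (mem_univ _)).mul_left M₀)).trans hd').mul_left _
    have h5 := (mem_filter.1 hi).2
    rcases (Nat.prime_iff_prime_int.1 (hQ' _ (hm (.inr i))).1).dvd_or_dvd h4 with h6 | h6
    · exact mem_filter.2 ⟨mem_univ _, Int.natCast_dvd_natCast.1 h6⟩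
    · exact absurd (mem_filter.2 ⟨hm _, h6⟩) h5

end Vale.Agent.P013
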