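import Vale.Agent.P013.InvA
import Vale.Agent.P013.InvB
import Vale.Agent.P013.InvCX

/-! Inverse theorem, part C: pigeonhole and gluing. -/

open Finset

namespace Vale.Agent.P013

theorem ic_prod_le {ι : Type*} (s : Finset ι) (A : ι → ℕ) {a : ℕ} (h : ∀ i ∈ s, A i ≤ 2 ^ a) :
    ∏ i ∈ s, A i ≤ 2 ^ (a * s.card) := by
  rw [pow_mul]
  exact prod_le_pow_card _ _ _ h

theorem ic_step2 {S ι : Type} [Fintype S] [Nonempty S] [Fintype ι] [DecidableEq ι]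
    {k t a V : ℕ} (hι : Fintype.card ι = 2 * t) (G : S → ℂ) (hG : ∀ σ, ‖G σ‖ ≤ 1) (c : S → ℕ)
    (hc : ∀ σ, c σ ≤ 2 ^ V) (Q' : Finset ℕ) (hQ : Q'.Nonempty)
    (hQ' : ∀ p ∈ Q', p.Prime ∧ p < 2 ^ a) {M : ℕ}
    (hM : k * (2 * t) * 2 ^ (a * (2 * t - 1) + V) < M) {η z : ℝ} (hη : 0 < η)
    (hZ : ((univ.filter fun w : (Fin k → S) × (Fin k → S) => sgnSum c w = 0).card : ℝ) ≤
      z * (Fintype.card S : ℝ) ^ (2 * k)) :
    ∑ A ∈ icT ι Q', (((range M).filter fun j : ℕ => ∀ a, η / 8 * Fintype.card S ≤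
        ‖∑ σ, G σ * ex (j * (((∏ a' ∈ univ.erase a, A a') * c σ : ℕ) : ℝ) / M)‖).card : ℝ) ≤
      M * ((8 / η) ^ (2 * k) * (z + (V + k) / Q'.card)) ^ (2 * t) * (Q'.card : ℝ) ^ (2 * t) := by
  have hS : (0 : ℝ) < Fintype.card S := by exact_mod_cast Fintype.card_pos
  have hQ0 : (0 : ℝ) < Q'.card := by exact_mod_cast hQ.card_pos
  have hδ : 0 < η / 8 * Fintype.card S := by positivity
  let cnt : ℕ → ℝ := fun p =>
    ((univ.filter fun w : (Fin k → S) × (Fin k → S) => (p : ℤ) ∣ sgnSum c w).card : ℝ)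
  have h1 : ∑ p ∈ Q', cnt p ≤ (Q'.card * z + (V + k)) * (Fintype.card S : ℝ) ^ (2 * k) := by
    have h2 := sum_dvd_count (k := k) c Q' (fun p hp => (hQ' p hp).1) hc (W := V + k) (by
      rw [pow_add, mul_comm]
      exact Nat.mul_lt_mul_of_pos_left Nat.lt_two_pow_self (by positivity))
    have h3 := (Nat.cast_le (α := ℝ)).2 h2
    push_cast at h3
    refine h3.trans ?_
    nlinarith
  refine le_of_mul_le_mul_right ?_ (pow_pos hδ (2 * k * Fintype.card ι))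
  rw [sum_mul]
  calc _ ≤ ∑ A ∈ icT ι Q', M * ∏ a, cnt (A a) := by
        refine sum_le_sum fun A hA => ?_
        obtain ⟨h4, h5⟩ := mem_icT.1 hA
        refine grid_bound G hG c A (fun a => (hQ' _ (h4 a)).1) h5
          (F := 2 ^ (a * (2 * t - 1) + V)) (fun i σ => ?_) (by rwa [hι]) hδ.le
        rw [pow_add]
        refine Nat.mul_le_mul ?_ (hc σ)
        have := ic_prod_le (univ.erase i) A fun i _ => (hQ' _ (h4 i)).2.le
        rwa [card_erase_of_mem (mem_univ _), card_univ, hι] at this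
    _ ≤ ∑ A ∈ Fintype.piFinset fun _ : ι => Q', M * ∏ a, cnt (A a) :=
        sum_le_sum_of_subset_of_nonneg (filter_subset _ _) fun A _ _ =>
          mul_nonneg (Nat.cast_nonneg _) (prod_nonneg fun _ _ => Nat.cast_nonneg _)
    _ = M * (∑ p ∈ Q', cnt p) ^ (2 * t) := by
        rw [← mul_sum, ← prod_univ_sum (fun _ : ι => Q') fun _ p => cnt p, prod_const, card_univ,
          hι]
    _ ≤ M * ((Q'.card * z + (V + k)) * (Fintype.card S : ℝ) ^ (2 * k)) ^ (2 * t) := by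
        gcongr
    _ = _ := by
        rw [hι, pow_mul (η / 8 * _) (2 * k), mul_assoc, mul_assoc, ← mul_pow, ← mul_pow]
        congr 2
        rw [mul_pow (η / 8), div_pow, div_pow]
        field_simp

theorem ic_cof {R n : ℕ} (B : Fin R → Fin n → ℕ) (σ : Fin R → Fin n) :
    cof B σ * ∏ i, B i (σ i) = ∏ i, ∏ s, B i s := by
  rw [cof, ← prod_mul_distrib]
  exact prod_congr rfl fun i _ => prod_erase_mul _ _ (mem_univ _)

theorem inverse_abstract {R n k t a b J m : ℕ} (hR : 1 ≤ R) (hn : 1 ≤ n) (hk : 1 ≤ k)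
    (ht : 1 ≤ t) (hm : 1 ≤ m) (ha : 2 ≤ a) (Q' Qs : Finset ℕ) (Q : Fin R → Finset ℕ)
    (hQ' : ∀ p ∈ Q', p.Prime ∧ 2 ^ (a - 1) ≤ p ∧ p < 2 ^ a)
    (hQ : ∀ i, m ≤ (Q i).card ∧ ∀ u ∈ Q i, 1 ≤ u ∧ u < 2 ^ J)
    (hQs : ∀ r ∈ Qs, 1 ≤ r ∧ r < 2 ^ b) (hne : Qs.Nonempty) {η : ℝ} (hη : 0 < η)
    (h2 : a + 3 * b ≤ (a - 1) * t) (h3 : 32 * (t : ℝ) ≤ η * Q'.card)
    (h4 : 128 * k * t / η * 2 ^ (a * (2 * t - 1) + J * n * R) *
      ((8 / η) ^ (2 * k) * (4 / η * ((k / (n : ℝ) ^ R) ^ k + n * R / m) +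
        (J * n * R + k) / Q'.card)) ^ (2 * t) ≤ (η / 16) ^ (2 * t + 1) * Qs.card)
    (K : ℤ) {M₀ : ℕ} (hM₀ : 1 ≤ M₀) (g' gs : ℕ → ℂ) (g : Fin R → ℕ → ℂ)
    (hg' : ∀ p, ‖g' p‖ ≤ 1) (hgs : ∀ r, ‖gs r‖ ≤ 1) (hg : ∀ i u, ‖g i u‖ ≤ 1)
    (hb : η * (Q'.card * (∏ i, ((Q i).card : ℝ)) * Qs.card) ≤
      ‖∑ p ∈ Q', ∑ u ∈ Fintype.piFinset Q, ∑ r ∈ Qs, g' p * (∏ i, g i (u i)) * gs r *
        ex (K / ((M₀ * p * (∏ i, u i) * r : ℕ) : ℝ))‖) :
    ∃ (q : ℕ) (x : ℤ), 1 ≤ q ∧ q < 2 ^ b ∧ |x| ≤ M₀ * 2 ^ (a + 2 * b) ∧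
      (M₀ : ℤ) ∣ q * K - x ∧
      (η / 32) ^ 6 * Q'.card ≤ (Q'.filter fun p : ℕ => (p : ℤ) ∣ q * K - x).card := by
  classical
  have ht' : (1 : ℝ) ≤ t := by exact_mod_cast ht
  have hk' : (1 : ℝ) ≤ k := by exact_mod_cast hk
  have hQ0 : (0 : ℝ) < Q'.card := pos_of_mul_pos_left (by linarith) hη.le
  have hQne : Q'.Nonempty := card_pos.1 (by exact_mod_cast hQ0)
  have hQs0 : (0 : ℝ) < Qs.card := by exact_mod_cast hne.card_pos
  have hpr : ∀ u : Fin R → ℕ, ‖∏ i, g i (u i)‖ ≤ 1 := fun u => by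
    rw [norm_prod]
    exact prod_le_one (fun _ _ => norm_nonneg _) fun i _ => hg i _
  let Fn : ℕ × ℕ → (Fin R → ℕ) → ℂ := fun c u => g' c.1 * (∏ i, g i (u i)) * gs c.2 *
    ex (K / ((M₀ * c.1 * (∏ i, u i) * c.2 : ℕ) : ℝ))
  have hFn : ∀ c u, ‖Fn c u‖ ≤ 1 := fun c u => by
    simp only [Fn, norm_mul, norm_ex, mul_one]
    exact mul_le_one₀ (mul_le_one₀ (hg' _) (norm_nonneg _) (hpr u)) (norm_nonneg _) (hgs _)
  have hb' : η * ((Q' ×ˢ Qs).card * ∏ i, ((Q i).card : ℝ)) ≤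
      ‖∑ c ∈ Q' ×ˢ Qs, ∑ u ∈ Fintype.piFinset Q, Fn c u‖ := by
    rw [sum_product, card_product]
    simp only [sum_comm (s := Qs)]
    refine le_trans (le_of_eq ?_) hb
    push_cast
    ring
  have hη1 : η ≤ 1 := by
    have hP : 0 < ((Q' ×ˢ Qs).card * ∏ i, ((Q i).card : ℝ)) := by
      rw [card_product]
      push_cast
      exact mul_pos (mul_pos hQ0 hQs0)
        (prod_pos fun i _ => by exact_mod_cast lt_of_lt_of_le hm (hQ i).1)
    refine le_of_mul_le_mul_right (hb'.trans ?_) hP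
    refine (norm_sum_le _ _).trans ((sum_le_card_nsmul _ _ (∏ i, ((Q i).card : ℝ))
      fun c _ => ?_).trans (by rw [nsmul_eq_mul, one_mul]))
    refine (norm_sum_le _ _).trans ((sum_le_card_nsmul _ _ 1 fun u _ => hFn c u).trans ?_)
    simp
  obtain ⟨B, hB, b1, b2⟩ := exists_cands (k := k) hR hn hm (Q' ×ˢ Qs) (hQne.product hne) Q
    (fun i => (hQ i).1) Fn hFn hη hb'
  have : Nonempty (Fin n) := ⟨⟨0, hn⟩⟩
  have hS : ((n : ℝ) ^ R) = Fintype.card (Fin R → Fin n) := by simp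
  have hS0 : (0 : ℝ) < Fintype.card (Fin R → Fin n) := by exact_mod_cast Fintype.card_pos
  have hι : Fintype.card (Fin t ⊕ Fin t) = 2 * t := by simp [two_mul]
  let G : (Fin R → Fin n) → ℂ := fun σ => ∏ i, g i (B i (σ i))
  let y : ℕ → ℕ → ℝ := fun p r =>
    ‖∑ σ, G σ * ex (K / ((M₀ * p * (∏ i, B i (σ i)) * r : ℕ) : ℝ))‖
  have s0 := ic_markov (Q' ×ˢ Qs) (fun c => y c.1 c.2) (θ := η / 2) hS0 (by positivity)
    (fun c _ => by
      refine (norm_sum_le _ _).trans ((sum_le_card_nsmul _ _ 1 fun σ _ => ?_).trans (by simp))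
      rw [norm_mul, norm_ex, mul_one]
      exact hpr _)
    (by
      rw [← hS]
      refine b1.trans (sum_le_sum fun c _ => ?_)
      have e : ∑ σ : Fin R → Fin n, Fn c (fun i => B i (σ i)) = (g' c.1 * gs c.2) *
          ∑ σ, G σ * ex (K / ((M₀ * c.1 * (∏ i, B i (σ i)) * c.2 : ℕ) : ℝ)) := by
        rw [mul_sum]
        exact sum_congr rfl fun σ _ => by simp only [Fn, G]; ring
      rw [e, norm_mul, norm_mul]
      exact mul_le_of_le_one_left (norm_nonneg _) (mul_le_one₀ (hg' _) (norm_nonneg _) (hgs _)))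
  have s1 := ic_step1 _ hι ht Q' Qs
    (fun p r => η / 2 / 2 * (Fintype.card (Fin R → Fin n) : ℝ) ≤ y p r) hη h3 (by
      refine le_trans (le_of_eq ?_) s0
      rw [card_product]
      push_cast
      ring)
  have hPB : ∏ i, ∏ s, B i s ≤ 2 ^ (J * n * R) := by
    have := ic_prod_le univ (fun i => ∏ s, B i s) (a := J * n) fun i _ => by
      simpa using ic_prod_le univ (B i) fun s _ => ((hQ i).2 _ (hB i s)).2.le
    simpa using this
  have hB0 : ∀ i s, 0 < B i s := fun i s => ((hQ i).2 _ (hB i s)).1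
  have hPB0 : 0 < ∏ i, ∏ s, B i s := prod_pos fun i _ => prod_pos fun s _ => hB0 i s
  have hcof : ∀ σ, cof B σ ≤ 2 ^ (J * n * R) := fun σ =>
    (Nat.le_of_dvd hPB0 ⟨_, (ic_cof B σ).symm⟩).trans hPB
  obtain ⟨F, hF⟩ : ∃ F, F = 2 ^ (a * (2 * t - 1) + J * n * R) := ⟨_, rfl⟩
  have hF1 : (1 : ℝ) ≤ F := by rw [hF]; exact_mod_cast Nat.one_le_two_pow
  obtain ⟨M, hM1, hM2, hM3⟩ : ∃ M : ℕ, k * (2 * t) * F < M ∧ 64 * (F : ℝ) ≤ η * M ∧
      (M : ℝ) ≤ 128 * k * t / η * F := by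
    have e1 := Nat.le_ceil (64 * F / η)
    have e2 := Nat.ceil_lt_add_one (show 0 ≤ 64 * F / η by positivity)
    have e3 : 0 < ⌈64 * F / η⌉₊ := Nat.ceil_pos.2 (by positivity)
    refine ⟨⌈64 * F / η⌉₊ + k * (2 * t) * F, by omega, ?_, ?_⟩
    · rw [div_le_iff₀ hη] at e1
      push_cast
      have : 0 ≤ η * (k * (2 * t) * F) := by positivity
      nlinarith
    · push_cast
      have e4 : (1 : ℝ) ≤ k * t := one_le_mul_of_one_le_of_one_le hk' ht'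
      have e5 : (F : ℝ) ≤ k * t * F := le_mul_of_one_le_left (by positivity) e4
      have e6 : k * t * F ≤ k * t * F / η := le_div_self (by positivity) hη hη1
      have e7 : F / η ≤ k * t * F / η := by gcongr
      have e8 : 128 * k * t / η * F = 128 * (k * t * F / η) := by ring
      have e9 : 64 * F / η = 64 * (F / η) := by ring
      linarith
  have hM0 : 0 < M := by omega
  have s2 := ic_step2 (ι := Fin t ⊕ Fin t) hι G (fun σ => hpr _) (cof B) hcof Q' hQne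
    (fun p hp => ⟨(hQ' p hp).1, (hQ' p hp).2.2⟩) (hF ▸ hM1) hη (hS ▸ b2)
  have s3 := ic_good (icT (Fin t ⊕ Fin t) Q') _ _ hne.card_pos
    (c := (η / 16) ^ (2 * t + 1) * (Q'.card : ℝ) ^ (2 * t)) (fun A _ => card_filter_le _ _)
    (le_trans (le_of_eq (by ring)) s1) (s2.trans (by
      rw [mul_right_comm _ _ (Qs.card : ℝ)]
      refine mul_le_mul_of_nonneg_right (le_trans ?_ h4) (by positivity)
      rw [hF] at hM3
      push_cast at hM3 ⊢
      rw [← hS]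
      exact mul_le_mul_of_nonneg_right hM3 (by positivity)))
  refine ic_step4 ht ha h2 hM₀ Q' hQne (fun p hp => ⟨(hQ' p hp).1, (hQ' p hp).2.1⟩) hη hη1 K _
    (filter_subset _ _) s3 fun A hA => ?_
  obtain ⟨hA1, hA2⟩ := mem_filter.1 hA
  obtain ⟨hAm, -⟩ := mem_icT.1 hA1
  have hA0 : ∀ i, 0 < A i := fun i => (hQ' _ (hAm i)).1.pos
  have hPA : ∏ i, A i ≤ 2 ^ (a * (2 * t)) := by
    have := ic_prod_le univ A fun i _ => (hQ' _ (hAm i)).2.2.le
    rwa [card_univ, hι] at this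
  obtain ⟨D, hD⟩ : ∃ D, D = M₀ * (∏ i, A i) * ∏ i, ∏ s, B i s := ⟨_, rfl⟩
  have hD0 : 0 < D := hD ▸ Nat.mul_pos (Nat.mul_pos hM₀ (prod_pos fun i _ => hA0 i)) hPB0
  have key : ∀ r ∈ Qs, ∀ r' ∈ Qs, r < r' →
      ⌊M * Int.fract ((K : ℝ) / (D * r : ℕ))⌋₊ = ⌊M * Int.fract ((K : ℝ) / (D * r' : ℕ))⌋₊ →
      ∃ (q : ℕ) (x : ℤ), 1 ≤ q ∧ q < 2 ^ b ∧ 64 * |x| ≤ M₀ * 2 ^ (a + 2 * b) ∧
        ((M₀ * ∏ i, A i : ℕ) : ℤ) ∣ q * K - x := by
    intro r hr r' hr' hrr e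
    obtain ⟨x, hx1, hx2⟩ := ic_glue K hD0 (hQs r hr).1 hrr hM0 e
    have := (hQs r' hr').2
    refine ⟨r' - r, x, by omega, by omega, ?_,
      (Int.natCast_dvd_natCast.2 (hD ▸ dvd_mul_right _ _)).trans hx2⟩
    have e1 : D * r * r' ≤ M₀ * 2 ^ (a + 2 * b) * F := by
      have e2 : a + 2 * b + (a * (2 * t - 1) + J * n * R) = a * (2 * t) + J * n * R + b + b := by
        obtain ⟨t, rfl⟩ : ∃ s, t = s + 1 := ⟨t - 1, by omega⟩
        have : 2 * (t + 1) - 1 = 2 * t + 1 := by omega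
        rw [this]
        ring
      rw [hF, hD, mul_assoc M₀ (2 ^ _), ← pow_add, e2, pow_add, pow_add, pow_add,
        ← mul_assoc, ← mul_assoc, ← mul_assoc]
      gcongr
      exact (hQs r hr).2.le
    have e3 : (D : ℝ) * r * r' ≤ M₀ * 2 ^ (a + 2 * b) * F := by exact_mod_cast e1
    have e4 : 64 * (F : ℝ) ≤ M := hM2.trans (mul_le_of_le_one_left (by positivity) hη1)
    have e5 : 64 * (|x| : ℝ) ≤ M₀ * 2 ^ (a + 2 * b) := by
      refine le_of_mul_le_mul_right ?_ (show (0 : ℝ) < F by linarith)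
      nlinarith [abs_nonneg (x : ℝ)]
    exact_mod_cast e5
  obtain ⟨r, hr, r', hr', hrr, e⟩ := exists_ne_map_eq_of_card_lt_of_maps_to hA2
    (f := fun r => ⌊M * Int.fract ((K : ℝ) / (D * r : ℕ))⌋₊) fun r hr => by
      obtain ⟨hr1, hr2⟩ := mem_filter.1 (mem_coe.1 hr)
      have hM' : (0 : ℝ) < M := by exact_mod_cast hM0
      refine mem_coe.2 (mem_filter.2 ⟨mem_range.2 ((Nat.floor_lt
        (mul_nonneg hM'.le (Int.fract_nonneg _))).2
        (mul_lt_of_lt_one_right hM' (Int.fract_lt_one _))), fun i => ?_⟩)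
      refine le_trans ?_ (ic_near G (fun σ => hpr _)
        (fun σ => (∏ a' ∈ univ.erase i, A a') * cof B σ) (F := F) (fun σ => ?_) hM0 hM2 _)
      · have e1 : ∀ σ : Fin R → Fin n, (K : ℝ) / (D * r : ℕ) *
            ((∏ a' ∈ univ.erase i, A a') * cof B σ : ℕ) =
            K / ((M₀ * A i * (∏ i, B i (σ i)) * r : ℕ) : ℝ) := fun σ => by
          have e2 : D * r = M₀ * A i * (∏ i, B i (σ i)) * r *
              ((∏ a' ∈ univ.erase i, A a') * cof B σ) := by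
            rw [hD, ← ic_cof B σ, ← mul_prod_erase univ A (mem_univ i)]
            ring
          have e3 : (((∏ a' ∈ univ.erase i, A a') * cof B σ : ℕ) : ℝ) ≠ 0 := by
            have : 0 < D * r := Nat.mul_pos hD0 (hQs r hr1).1
            rw [e2] at this
            exact_mod_cast (Nat.pos_of_mul_pos_left this).ne'
          rw [e2, Nat.cast_mul _ (_ * cof B σ), div_mul_eq_mul_div, mul_div_mul_right _ _ e3]
        simp only [e1]
        linarith [hr2 i]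
      · rw [hF, pow_add]
        refine Nat.mul_le_mul ?_ (hcof σ)
        have := ic_prod_le (univ.erase i) A fun i _ => (hQ' _ (hAm i)).2.2.le
        rwa [card_erase_of_mem (mem_univ _), card_univ, hι] at this
  rcases lt_or_gt_of_ne hrr with h | h
  · exact key r (mem_filter.1 hr).1 r' (mem_filter.1 hr').1 h e
  · exact key r' (mem_filter.1 hr').1 r (mem_filter.1 hr).1 h e.symm

end Vale.Agent.P013
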