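import Vale.Agent.P013.BilinX2

/-! A bilinear exponential sum estimate.

By Cauchy-Schwarz in `a` and extension to all `n ∈ [P, 2P)` coprime to `M`, the square is at most
`|𝒜| ∑_{b, b'} ‖T b b'‖`, where `T b b' = ∑_n e(κ n⁻¹/M) e(β''/n)`, `κ = Ω (b⁻¹ - b'⁻¹)` and
`β'' = γ/M (1/b - 1/b')`. Abel summation compares `T b b'` with the Ramanujan sum times the
oscillating sum `∑_n e(β''/n)`; the first hypothesis bounds the Ramanujan sums on average, the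
second one bounds the oscillating sums on average. -/

open Finset

namespace Vale.Agent.P013

namespace Bil

theorem div_gcd_dvd {δ w m : ℕ} (hδ : 1 ≤ δ) (h : δ ∣ w * m) : δ / Nat.gcd δ w ∣ m := by
  obtain ⟨δ', w', hc, h1, h2⟩ := Nat.exists_coprime δ w
  have hg : 0 < Nat.gcd δ w := Nat.gcd_pos_of_pos_left w hδ
  generalize Nat.gcd δ w = g at h1 h2 hg
  subst h1 h2
  rw [Nat.mul_div_cancel _ hg]
  rw [mul_right_comm] at h
  exact hc.dvd_of_dvd_mul_left (Nat.dvd_of_mul_dvd_mul_right hg h)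

theorem case_one {P' M b : ℕ} {ℬ : Finset ℕ} (Ω : ℤ) (hM : 1 ≤ M) (hB : ℬ ⊆ Ico P' (2 * P'))
    (hc : ∀ b ∈ ℬ, Nat.Coprime b M) (hb : b ∈ ℬ) :
    ∑ b' ∈ ℬ.erase b, ‖ram M (Ω * (iv M b - iv M b'))‖ ≤
      2 * (2 * √M * (Int.gcd Ω M * P')) := by
  set φ : ℕ → ℝ := fun j => ∑ δ ∈ M.divisors,
    if δ / Nat.gcd δ Ω.natAbs ∣ j then (δ : ℝ) else 0 with hφ
  have hφ0 : ∀ j, 0 ≤ φ j := fun j => sum_nonneg fun δ _ => by split_ifs <;> positivity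
  have h1 : ∀ b' ∈ ℬ.erase b, ‖ram M (Ω * (iv M b - iv M b'))‖ ≤ φ ((b' : ℤ) - b).natAbs := by
    intro b' hb'
    refine (norm_ram_le hM _).trans (sum_le_sum fun δ hδ => ?_)
    by_cases h : (δ : ℤ) ∣ Ω * (iv M b - iv M b')
    · have hδM : (δ : ℤ) ∣ M := Int.natCast_dvd_natCast.2 (Nat.dvd_of_mem_divisors hδ)
      have e1 := hδM.trans (iv_spec hM (hc b hb))
      have e2 := hδM.trans (iv_spec hM (hc b' (mem_of_mem_erase hb')))
      have e3 : Ω * ((b' : ℤ) - b) = Ω * (iv M b - iv M b') * (b * b') -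
          Ω * b' * ((b : ℤ) * iv M b - 1) + Ω * b * ((b' : ℤ) * iv M b' - 1) := by ring
      have e4 : (δ : ℤ) ∣ Ω * ((b' : ℤ) - b) := by
        rw [e3]
        exact dvd_add (dvd_sub (h.mul_right _) (e1.mul_left _)) (e2.mul_left _)
      rw [Int.natCast_dvd, Int.natAbs_mul] at e4
      rw [if_pos h, if_pos (div_gcd_dvd (Nat.pos_of_mem_divisors hδ) e4)]
    · rw [if_neg h]
      split_ifs <;> positivity
  refine (sum_le_sum h1).trans ((sum_dist_le hB hb φ hφ0).trans ?_)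
  refine mul_le_mul_of_nonneg_left ?_ (by norm_num)
  simp only [hφ]
  rw [sum_comm]
  have h2 : ∀ δ ∈ M.divisors, (∑ j ∈ Icc 1 P', if δ / Nat.gcd δ Ω.natAbs ∣ j then (δ : ℝ) else 0)
      ≤ Int.gcd Ω M * P' := by
    intro δ hδ
    have e0 : Icc 1 P' = Ioc 0 P' := by ext j; simp only [mem_Icc, mem_Ioc]; omega
    rw [← sum_filter, sum_const, e0, Nat.Ioc_filter_dvd_card_eq_div, nsmul_eq_mul]
    have e1 : Nat.gcd δ Ω.natAbs ≤ Int.gcd Ω M := by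
      rw [Int.gcd, Int.natAbs_natCast]
      refine Nat.le_of_dvd (Nat.gcd_pos_of_pos_right _ hM) (Nat.dvd_gcd (Nat.gcd_dvd_right _ _) ?_)
      exact (Nat.gcd_dvd_left _ _).trans (Nat.dvd_of_mem_divisors hδ)
    have e2 : P' / (δ / Nat.gcd δ Ω.natAbs) * δ ≤ Int.gcd Ω M * P' := by
      have e3 : δ / Nat.gcd δ Ω.natAbs * Nat.gcd δ Ω.natAbs = δ :=
        Nat.div_mul_cancel (Nat.gcd_dvd_left _ _)
      calc P' / (δ / Nat.gcd δ Ω.natAbs) * δ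
          = P' / (δ / Nat.gcd δ Ω.natAbs) * (δ / Nat.gcd δ Ω.natAbs) * Nat.gcd δ Ω.natAbs := by
            rw [mul_assoc, e3]
        _ ≤ P' * Int.gcd Ω M := Nat.mul_le_mul (Nat.div_mul_le_self _ _) e1
        _ = _ := mul_comm _ _
    exact_mod_cast e2
  refine (sum_le_sum h2).trans ?_
  rw [sum_const, nsmul_eq_mul]
  exact mul_le_mul_of_nonneg_right (card_divisors_le M) (by positivity)

theorem case_two {P' b : ℕ} {ℬ : Finset ℕ} (hB : ℬ ⊆ Ico P' (2 * P')) (hb : b ∈ ℬ) :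
    ∑ b' ∈ ℬ.erase b, |(b' : ℝ) - b|⁻¹ ≤ 2 * (1 + Real.log P') := by
  have h1 := sum_dist_le hB hb (fun j => (j : ℝ)⁻¹) fun j => by positivity
  have h2 := harmonic_le_one_add_log P'
  simp only [harmonic_eq_sum_Icc, Rat.cast_sum, Rat.cast_inv, Rat.cast_natCast] at h2
  simp only [Nat.cast_natAbs, Int.cast_abs, Int.cast_sub, Int.cast_natCast] at h1
  linarith

theorem beta_eq {M b b' : ℕ} (γ : ℝ) (hM : 1 ≤ M) (hb : 1 ≤ b) (hb' : 1 ≤ b') :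
    |γ / M * (1 / b - 1 / b')| = |γ| * |(b' : ℝ) - b| / (M * (b * b')) := by
  have h1 : (0 : ℝ) < M := by exact_mod_cast hM
  have h2 : (0 : ℝ) < b := by exact_mod_cast hb
  have h3 : (0 : ℝ) < b' := by exact_mod_cast hb'
  have h4 : γ / M * (1 / b - 1 / b') = γ * ((b' : ℝ) - b) / (M * (b * b')) := by field_simp
  rw [h4, abs_div, abs_mul, abs_of_pos (by positivity : (0 : ℝ) < M * (b * b'))]

theorem beta_le {P P' M b b' : ℕ} (γ : ℝ) (hP : 1 ≤ P) (hP' : 1 ≤ P') (hM : 1 ≤ M)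
    (hb : b ∈ Ico P' (2 * P')) (hb' : b' ∈ Ico P' (2 * P')) :
    |γ / M * (1 / b - 1 / b')| / P ≤ |γ| / (P * P' * M) := by
  rw [mem_Ico] at hb hb'
  have h0 : (0 : ℝ) < P := by exact_mod_cast hP
  have h0' : (0 : ℝ) < P' := by exact_mod_cast hP'
  have h1 : (0 : ℝ) < M := by exact_mod_cast hM
  have h2 : (P' : ℝ) ≤ b := by exact_mod_cast hb.1
  have h3 : (P' : ℝ) ≤ b' := by exact_mod_cast hb'.1
  have h4 : (b : ℝ) < 2 * P' := by exact_mod_cast hb.2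
  have h5 : (b' : ℝ) < 2 * P' := by exact_mod_cast hb'.2
  have h6 : |(b' : ℝ) - b| ≤ P' := abs_le.2 ⟨by linarith, by linarith⟩
  have h2' : (0 : ℝ) < b := by linarith
  have h3' : (0 : ℝ) < b' := by linarith
  rw [beta_eq γ hM (by omega) (by omega), div_div, div_le_div_iff₀ (by positivity) (by positivity)]
  have h7 : |(b' : ℝ) - b| * P' ≤ b * b' :=
    (mul_le_mul_of_nonneg_right h6 h0'.le).trans (mul_le_mul h2 h3 h0'.le h2'.le)
  calc |γ| * |(b' : ℝ) - b| * (P * P' * M) = |γ| * (M * (|(b' : ℝ) - b| * P') * P) := by ring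
    _ ≤ _ := by gcongr

theorem beta_ge {P P' M b b' : ℕ} {γ : ℝ} (hγ : γ ≠ 0) (hP' : 1 ≤ P') (hM : 1 ≤ M)
    (hb : b ∈ Ico P' (2 * P')) (hb' : b' ∈ Ico P' (2 * P')) (hne : b' ≠ b) :
    γ / M * (1 / b - 1 / b') ≠ 0 ∧ 2 * P ^ 2 / |γ / M * (1 / b - 1 / b')| ≤
      8 * P * P' * (P * P' * M) / |γ| * |(b' : ℝ) - b|⁻¹ := by
  rw [mem_Ico] at hb hb'
  have h0' : (0 : ℝ) < P' := by exact_mod_cast hP'
  have h1 : (0 : ℝ) < M := by exact_mod_cast hM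
  have h2 : (P' : ℝ) ≤ b := by exact_mod_cast hb.1
  have h3 : (P' : ℝ) ≤ b' := by exact_mod_cast hb'.1
  have h4 : (b : ℝ) < 2 * P' := by exact_mod_cast hb.2
  have h5 : (b' : ℝ) < 2 * P' := by exact_mod_cast hb'.2
  have h2' : (0 : ℝ) < b := by linarith
  have h3' : (0 : ℝ) < b' := by linarith
  have h6 : 0 < |(b' : ℝ) - b| := abs_pos.2 (sub_ne_zero.2 (by exact_mod_cast hne))
  have h7 : 0 < |γ| := abs_pos.2 hγ
  have h8 := beta_eq γ hM (b := b) (b' := b') (by omega) (by omega)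
  refine ⟨abs_pos.1 (by rw [h8]; positivity), ?_⟩
  have h9 : (b : ℝ) * b' ≤ 4 * P' ^ 2 := by nlinarith
  have e1 : 2 * (P : ℝ) ^ 2 / (|γ| * |(b' : ℝ) - b| / (M * (b * b'))) =
      2 * P ^ 2 * M * (b * b') / (|γ| * |(b' : ℝ) - b|) := by field_simp
  have e2 : 8 * (P : ℝ) * P' * (P * P' * M) / |γ| * |(b' : ℝ) - b|⁻¹ =
      2 * P ^ 2 * M * (4 * P' ^ 2) / (|γ| * |(b' : ℝ) - b|) := by field_simp; ring
  rw [h8, e1, e2]
  gcongr

theorem row_le {P P' M b : ℕ} {ℬ : Finset ℕ} {Ω : ℤ} {γ μ : ℝ} (hP : 1 ≤ P) (hP' : 1 ≤ P')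
    (hM : 1 ≤ M) (hB : ℬ ⊆ Ico P' (2 * P')) (hc : ∀ b ∈ ℬ, Nat.Coprime b M) (hμ : 0 ≤ μ)
    (hcase : (Int.gcd Ω M : ℝ) ≤ μ * √M ∨ (1 + Real.log P') * (P * P' * M) ≤ μ * |γ|)
    (hb : b ∈ ℬ) :
    ∑ b' ∈ ℬ, ‖∑ i ∈ range P, hh M (Ω * (iv M b - iv M b')) (P + i) *
      ex (γ / M * (1 / b - 1 / b') / (P + i : ℕ))‖ ≤
      32 * (P + μ * P * P' + ℬ.card * M * (1 + |γ| / (P * P' * M))) := by
  have h0 : (1 : ℝ) ≤ P := by exact_mod_cast hP
  have h0' : (1 : ℝ) ≤ P' := by exact_mod_cast hP'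
  have h1 : (1 : ℝ) ≤ M := by exact_mod_cast hM
  set Θ : ℝ := |γ| / (P * P' * M) with hΘ
  have hΘ0 : 0 ≤ Θ := by positivity
  have hcard : ((ℬ.erase b).card : ℝ) ≤ ℬ.card := by exact_mod_cast card_erase_le
  have hcard0 : (0 : ℝ) ≤ ℬ.card := by positivity
  rw [← add_sum_erase _ _ hb]
  have hdiag : ‖∑ i ∈ range P, hh M (Ω * (iv M b - iv M b)) (P + i) *
      ex (γ / M * (1 / b - 1 / b) / (P + i : ℕ))‖ ≤ P := by
    refine (norm_sum_le _ _).trans ((sum_le_sum (g := fun _ => (1 : ℝ)) fun i _ => ?_).trans ?_)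
    · rw [norm_mul, norm_ex, mul_one]; exact norm_hh_le _ _ _
    · simp
  have hoff : ∀ b' ∈ ℬ.erase b, ‖∑ i ∈ range P, hh M (Ω * (iv M b - iv M b')) (P + i) *
      ex (γ / M * (1 / b - 1 / b') / (P + i : ℕ))‖ ≤ ‖ram M (Ω * (iv M b - iv M b'))‖ / M *
        ‖∑ i ∈ range P, ex (γ / M * (1 / b - 1 / b') / (P + i : ℕ))‖ + 2 * M * (1 + 8 * Θ) := by
    intro b' hb'
    refine (twist_le hM hP _ _).trans ?_
    have := beta_le γ hP hP' hM (hB hb) (hB (mem_of_mem_erase hb'))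
    gcongr
  have hmain : ∑ b' ∈ ℬ.erase b, ‖ram M (Ω * (iv M b - iv M b'))‖ / M *
      ‖∑ i ∈ range P, ex (γ / M * (1 / b - 1 / b') / (P + i : ℕ))‖ ≤
      16 * (μ * P * P') + ℬ.card * (16 * Θ) := by
    rcases hcase with h | h
    · have e1 : ∀ b' ∈ ℬ.erase b, ‖ram M (Ω * (iv M b - iv M b'))‖ / M *
          ‖∑ i ∈ range P, ex (γ / M * (1 / b - 1 / b') / (P + i : ℕ))‖ ≤
          P / M * ‖ram M (Ω * (iv M b - iv M b'))‖ := by
        intro b' _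
        refine (mul_le_mul_of_nonneg_left (osc_le_triv _ P) (by positivity)).trans (le_of_eq ?_)
        ring
      refine (sum_le_sum e1).trans ?_
      rw [← mul_sum]
      refine (mul_le_mul_of_nonneg_left (case_one Ω hM hB hc hb) (by positivity)).trans ?_
      have e2 : (P : ℝ) / M * (2 * (2 * √M * (Int.gcd Ω M * P'))) ≤
          P / M * (2 * (2 * √M * (μ * √M * P'))) := by gcongr
      have e3 : (P : ℝ) / M * (2 * (2 * √M * (μ * √M * P'))) = 4 * (μ * P * P') := by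
        have e4 : √(M : ℝ) * √M = M := Real.mul_self_sqrt (by positivity)
        calc (P : ℝ) / M * (2 * (2 * √M * (μ * √M * P')))
            = 4 * (μ * P * P') * (√(M : ℝ) * √M) / M := by ring
          _ = _ := by rw [e4]; field_simp
      have e5 : 0 ≤ μ * P * P' := by positivity
      have e6 : 0 ≤ ℬ.card * (16 * Θ) := by positivity
      linarith
    · have hlog : 0 ≤ Real.log P' := Real.log_nonneg h0'
      have hγ : γ ≠ 0 := by
        rintro rfl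
        have : 0 < (1 + Real.log P') * (P * P' * M) := by positivity
        simp only [abs_zero, mul_zero] at h
        linarith
      have hγ0 : 0 < |γ| := abs_pos.2 hγ
      have e1 : ∀ b' ∈ ℬ.erase b, ‖ram M (Ω * (iv M b - iv M b'))‖ / M *
          ‖∑ i ∈ range P, ex (γ / M * (1 / b - 1 / b') / (P + i : ℕ))‖ ≤
          8 * P * P' * (P * P' * M) / |γ| * |(b' : ℝ) - b|⁻¹ + 16 * Θ := by
        intro b' hb'
        have hb'' := hB (mem_of_mem_erase hb')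
        obtain ⟨f1, f2⟩ := beta_ge (P := P) hγ hP' hM (hB hb) hb'' (ne_of_mem_erase hb')
        have f3 := beta_le γ hP hP' hM (hB hb) hb''
        have f4 : ‖ram M (Ω * (iv M b - iv M b'))‖ / M ≤ 1 :=
          (div_le_one (by positivity)).2 (norm_ram_le_self M _)
        refine (mul_le_of_le_one_left (norm_nonneg _) f4).trans ((osc_le f1 hP).trans ?_)
        linarith
      refine (sum_le_sum e1).trans ?_
      rw [sum_add_distrib, ← mul_sum, sum_const, nsmul_eq_mul]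
      refine add_le_add ?_ (by gcongr)
      refine (mul_le_mul_of_nonneg_left (case_two hB hb) (by positivity)).trans ?_
      have e2 : 8 * (P : ℝ) * P' * (P * P' * M) / |γ| * (2 * (1 + Real.log P')) =
          16 * P * P' * ((1 + Real.log P') * (P * P' * M)) / |γ| := by ring
      have e3 : 16 * (μ * P * P') = 16 * P * P' * (μ * |γ|) / |γ| := by field_simp
      rw [e2, e3]
      gcongr
  have h2 := sum_le_sum hoff
  rw [sum_add_distrib, sum_const, nsmul_eq_mul] at h2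
  have h3 : ((ℬ.erase b).card : ℝ) * (2 * M * (1 + 8 * Θ)) ≤ ℬ.card * (2 * M * (1 + 8 * Θ)) := by
    gcongr
  have h4 : 0 ≤ μ * P * P' := by positivity
  have h5 : ℬ.card * Θ ≤ ℬ.card * M * Θ := by
    rw [mul_assoc]
    exact mul_le_mul_of_nonneg_left (le_mul_of_one_le_left hΘ0 h1) hcard0
  have h6 : (0 : ℝ) ≤ ℬ.card * M := by positivity
  nlinarith

theorem phase_eq {M a b : ℕ} {Ω : ℤ} (γ : ℝ) (hM : 1 ≤ M) (ha : 1 ≤ a) (hb : 1 ≤ b)
    (hca : Nat.Coprime a M) (hcb : Nat.Coprime b M) (hd : ((a * b : ℕ) : ℤ) ∣ Ω) :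
    ex ((Ω + γ) / (a * b * M)) =
      ex ((Ω * iv M a * iv M b : ℤ) / M) * ex (γ / (a * b * M)) := by
  obtain ⟨k, rfl⟩ := hd
  have h1 : (a : ℝ) ≠ 0 := by positivity
  have h2 : (b : ℝ) ≠ 0 := by positivity
  have h3 : (M : ℝ) ≠ 0 := by positivity
  have h4 : ((((a * b : ℕ) : ℤ) * k : ℤ) + γ) / (a * b * M : ℝ) = (k : ℝ) / M + γ / (a * b * M) := by
    push_cast; field_simp
  rw [h4, ex_add]
  congr 1
  refine ex_congr hM ?_
  have e1 := iv_spec hM hca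
  have e2 := iv_spec hM hcb
  have e3 : k - ((a * b : ℕ) : ℤ) * k * iv M a * iv M b =
      -(k * ((a : ℤ) * iv M a - 1)) - k * (a * iv M a) * ((b : ℤ) * iv M b - 1) := by
    push_cast; ring
  rw [e3]
  exact dvd_sub (e1.mul_left _).neg_right (e2.mul_left _)

end Bil

open Bil in
theorem bilinear : ∃ C : ℝ, 0 < C ∧ ∀ (P P' M : ℕ) (𝒜 ℬ : Finset ℕ) (Ω : ℤ) (γ μ : ℝ)
    (α β : ℕ → ℂ), 1 ≤ P → 1 ≤ P' → 1 ≤ M → 𝒜 ⊆ Ico P (2 * P) → ℬ ⊆ Ico P' (2 * P') →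
    (∀ a ∈ 𝒜, Nat.Coprime a M) → (∀ b ∈ ℬ, Nat.Coprime b M) →
    (∀ a ∈ 𝒜, ∀ b ∈ ℬ, ((a * b : ℕ) : ℤ) ∣ Ω) → (∀ a ∈ 𝒜, ‖α a‖ ≤ 1) →
    (∀ b ∈ ℬ, ‖β b‖ ≤ 1) → 0 ≤ μ →
    ((Int.gcd Ω M : ℝ) ≤ μ * √M ∨ (1 + Real.log P') * (P * P' * M) ≤ μ * |γ|) →
    ‖∑ a ∈ 𝒜, ∑ b ∈ ℬ, α a * β b * ex ((Ω + γ) / (a * b * M))‖ ^ 2 ≤
      C * 𝒜.card * ℬ.card *
        (P + μ * P * P' + ℬ.card * M * (1 + |γ| / (P * P' * M))) := by
  refine ⟨32, by norm_num, ?_⟩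
  intro P P' M 𝒜 ℬ Ω γ μ α β hP hP' hM hA hB hcA hcB hd hα hβ hμ hcase
  set f : ℕ → ℕ → ℂ := fun n b => ex ((Ω * iv M n * iv M b : ℤ) / M) * ex (γ / (n * b * M))
    with hf
  set N := (Ico P (2 * P)).filter fun n => Nat.Coprime n M with hN
  have h1 : ‖∑ a ∈ 𝒜, ∑ b ∈ ℬ, α a * β b * ex ((Ω + γ) / (a * b * M))‖ ≤
      ∑ a ∈ 𝒜, ‖∑ b ∈ ℬ, β b * f a b‖ := by
    refine (norm_sum_le _ _).trans (sum_le_sum fun a ha => ?_)
    have e1 : ∑ b ∈ ℬ, α a * β b * ex ((Ω + γ) / (a * b * M)) = α a * ∑ b ∈ ℬ, β b * f a b := by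
      rw [mul_sum]
      refine sum_congr rfl fun b hb => ?_
      have ha1 := (mem_Ico.1 (hA ha)).1
      have hb1 := (mem_Ico.1 (hB hb)).1
      rw [phase_eq γ hM (by omega) (by omega) (hcA a ha) (hcB b hb) (hd a ha b hb), mul_assoc]
    rw [e1, norm_mul]
    exact mul_le_of_le_one_left (norm_nonneg _) (hα a ha)
  have h2 : ∑ a ∈ 𝒜, ‖∑ b ∈ ℬ, β b * f a b‖ ^ 2 ≤ ∑ n ∈ N, ‖∑ b ∈ ℬ, β b * f n b‖ ^ 2 :=
    sum_le_sum_of_subset_of_nonneg (fun a ha => mem_filter.2 ⟨hA ha, hcA a ha⟩)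
      fun _ _ _ => by positivity
  have h3 : ∀ b b' : ℕ, ∑ n ∈ N, f n b * (starRingEnd ℂ) (f n b') =
      ∑ i ∈ range P, hh M (Ω * (iv M b - iv M b')) (P + i) *
        ex (γ / M * (1 / b - 1 / b') / (P + i : ℕ)) := by
    intro b b'
    rw [hN, sum_filter, sum_Ico_eq_sum_range, show 2 * P - P = P by omega]
    refine sum_congr rfl fun i _ => ?_
    unfold hh
    split_ifs
    · simp only [hf, conj_ex, ← ex_add]
      generalize P + i = n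
      congr 1
      push_cast
      ring
    · simp
  have h4 := sq_expand N ℬ β hβ f
  simp only [h3] at h4
  have h5 := h4.trans (sum_le_sum fun b hb => row_le hP hP' hM hB hcB hμ hcase hb)
  rw [sum_const, nsmul_eq_mul] at h5
  calc _ ≤ (∑ a ∈ 𝒜, ‖∑ b ∈ ℬ, β b * f a b‖) ^ 2 := pow_le_pow_left₀ (norm_nonneg _) h1 2
    _ ≤ 𝒜.card * ∑ a ∈ 𝒜, ‖∑ b ∈ ℬ, β b * f a b‖ ^ 2 := sq_sum_le_card_mul_sum_sq
    _ ≤ 𝒜.card * (ℬ.card * (32 * (P + μ * P * P' + ℬ.card * M * (1 + |γ| / (P * P' * M))))) :=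
      mul_le_mul_of_nonneg_left (h2.trans h5) (by positivity)
    _ = _ := by ring

end Vale.Agent.P013
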