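import Vale.Agent.P013.Defs

/-! Helpers for the bilinear estimate: inverses modulo `M`, Ramanujan sums, Abel summation. -/

open Finset

namespace Vale.Agent.P013.Bil

/-- The inverse of `n` modulo `M`, as a natural number. -/
def iv (M n : ℕ) : ℕ := ((n : ZMod M)⁻¹).val

theorem iv_cast {M : ℕ} (hM : 1 ≤ M) (n : ℕ) : ((iv M n : ℕ) : ZMod M) = (n : ZMod M)⁻¹ := by
  have : NeZero M := ⟨by omega⟩
  rw [iv, ZMod.natCast_zmod_val]

theorem iv_spec {M n : ℕ} (hM : 1 ≤ M) (h : Nat.Coprime n M) :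
    (M : ℤ) ∣ (n : ℤ) * iv M n - 1 := by
  rw [← ZMod.intCast_zmod_eq_zero_iff_dvd]
  push_cast
  rw [iv_cast hM, ZMod.coe_mul_inv_eq_one n h, sub_self]

theorem iv_lt {M : ℕ} (hM : 1 ≤ M) (n : ℕ) : iv M n < M := by
  have : NeZero M := ⟨by omega⟩
  exact ZMod.val_lt _

theorem iv_add (M n : ℕ) : iv M (n + M) = iv M n := by simp [iv]

theorem iv_coprime {M n : ℕ} (hM : 1 ≤ M) (h : Nat.Coprime n M) : Nat.Coprime (iv M n) M := by
  rw [← ZMod.isUnit_iff_coprime, iv_cast hM]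
  exact IsUnit.of_mul_eq_one (n : ZMod M) (by rw [mul_comm, ZMod.coe_mul_inv_eq_one n h])

theorem iv_iv {M n : ℕ} (hM : 1 ≤ M) (h : Nat.Coprime n M) (hn : n < M) :
    iv M (iv M n) = n := by
  have h1 : ((iv M n : ℕ) : ZMod M)⁻¹ = n := by
    rw [iv_cast hM]
    exact ZMod.inv_eq_of_mul_eq_one _ _ _ (by rw [mul_comm, ZMod.coe_mul_inv_eq_one n h])
  rw [iv, h1, ZMod.val_cast_of_lt hn]

theorem ex_congr {M : ℕ} (hM : 1 ≤ M) {x y : ℤ} (h : (M : ℤ) ∣ x - y) :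
    ex (x / M) = ex (y / M) := by
  obtain ⟨c, hc⟩ := h
  have hM' : (M : ℝ) ≠ 0 := by positivity
  have h1 : (x : ℝ) = y + M * c := by
    have : x = y + M * c := by linarith
    exact_mod_cast this
  have h2 : (x : ℝ) / M = y / M + c := by rw [h1]; field_simp
  rw [h2, ex_add_int]

/-- The periodic factor. -/
noncomputable def hh (M : ℕ) (κ : ℤ) (n : ℕ) : ℂ :=
  if Nat.Coprime n M then ex (κ * iv M n / M) else 0

theorem hh_add (M : ℕ) (κ : ℤ) (n : ℕ) : hh M κ (n + M) = hh M κ n := by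
  simp only [hh, iv_add, Nat.coprime_add_self_left]

theorem norm_hh_le (M : ℕ) (κ : ℤ) (n : ℕ) : ‖hh M κ n‖ ≤ 1 := by
  unfold hh
  split_ifs <;> simp

/-- The Ramanujan sum. -/
noncomputable def ram (M : ℕ) (κ : ℤ) : ℂ := ∑ n ∈ range M, hh M κ n

theorem norm_ram_le_self (M : ℕ) (κ : ℤ) : ‖ram M κ‖ ≤ M := by
  refine (norm_sum_le _ _).trans ?_
  refine (sum_le_sum fun n _ => norm_hh_le M κ n).trans ?_
  simp

theorem ram_eq {M : ℕ} (hM : 1 ≤ M) (κ : ℤ) :
    ram M κ = ∑ n ∈ range M, if Nat.Coprime n M then ex (κ * n / M) else 0 := by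
  rw [ram]
  simp only [hh]
  rw [← sum_filter, ← sum_filter]
  refine sum_nbij' (iv M) (iv M) ?_ ?_ ?_ ?_ ?_
  · intro n hn
    rw [mem_filter, mem_range] at hn ⊢
    exact ⟨iv_lt hM _, iv_coprime hM hn.2⟩
  · intro n hn
    rw [mem_filter, mem_range] at hn ⊢
    exact ⟨iv_lt hM _, iv_coprime hM hn.2⟩
  · intro n hn
    rw [mem_filter, mem_range] at hn
    exact iv_iv hM hn.2 hn.1
  · intro n hn
    rw [mem_filter, mem_range] at hn
    exact iv_iv hM hn.2 hn.1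
  · intro n _
    rfl

open ArithmeticFunction in
theorem coprime_ind {M : ℕ} (hM : 1 ≤ M) (n : ℕ) :
    (if Nat.Coprime n M then (1 : ℤ) else 0) =
      ∑ d ∈ M.divisors, if d ∣ n then moebius d else 0 := by
  have h1 := congrArg (fun f : ArithmeticFunction ℤ => f (Nat.gcd n M)) moebius_mul_coe_zeta
  simp only [coe_mul_zeta_apply, one_apply] at h1
  rw [← sum_filter]
  have h2 : M.divisors.filter (· ∣ n) = (Nat.gcd n M).divisors := by
    ext d
    simp only [mem_filter, Nat.mem_divisors, Nat.dvd_gcd_iff]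
    have : Nat.gcd n M ≠ 0 := (Nat.gcd_pos_of_pos_right n hM).ne'
    constructor
    · rintro ⟨⟨a, _⟩, c⟩; exact ⟨⟨c, a⟩, this⟩
    · rintro ⟨⟨a, b⟩, _⟩; exact ⟨⟨b, by omega⟩, a⟩
  rw [h2, h1]

theorem sum_dvd_ex {d δ : ℕ} (hd : 1 ≤ d) (hδ : 1 ≤ δ) (κ : ℤ) :
    (∑ n ∈ range (d * δ), if d ∣ n then ex (κ * n / (d * δ : ℕ)) else 0) =
      if (δ : ℤ) ∣ κ then (δ : ℂ) else 0 := by
  rw [← sum_ex_range hδ κ, ← sum_filter]
  symm
  refine sum_nbij' (fun j => d * j) (fun n => n / d) ?_ ?_ ?_ ?_ ?_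
  · intro j hj
    rw [mem_range] at hj
    rw [mem_filter, mem_range]
    exact ⟨Nat.mul_lt_mul_of_pos_left hj hd, dvd_mul_right _ _⟩
  · intro n hn
    rw [mem_filter, mem_range] at hn
    rw [mem_range]
    exact Nat.div_lt_of_lt_mul hn.1
  · intro j _
    exact Nat.mul_div_cancel_left j hd
  · intro n hn
    rw [mem_filter] at hn
    exact Nat.mul_div_cancel' hn.2
  · intro j _
    have h1 : (d : ℝ) ≠ 0 := by positivity
    have h2 : (δ : ℝ) ≠ 0 := by positivity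
    congr 1
    push_cast
    field_simp

open ArithmeticFunction in
theorem norm_ram_le {M : ℕ} (hM : 1 ≤ M) (κ : ℤ) :
    ‖ram M κ‖ ≤ ∑ δ ∈ M.divisors, if (δ : ℤ) ∣ κ then (δ : ℝ) else 0 := by
  have h1 : ram M κ = ∑ d ∈ M.divisors, (moebius d : ℂ) *
      ∑ n ∈ range M, if d ∣ n then ex (κ * n / M) else 0 := by
    rw [ram_eq hM]
    simp only [mul_sum]
    rw [sum_comm]
    refine sum_congr rfl fun n _ => ?_
    have h2 : (if Nat.Coprime n M then ex (κ * n / M) else 0) =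
        ((if Nat.Coprime n M then (1 : ℤ) else 0 : ℤ) : ℂ) * ex (κ * n / M) := by
      split_ifs <;> simp
    rw [h2, coprime_ind hM, Int.cast_sum, sum_mul]
    refine sum_congr rfl fun d _ => ?_
    split_ifs <;> simp
  rw [h1, ← Nat.sum_div_divisors M fun δ => if (δ : ℤ) ∣ κ then (δ : ℝ) else 0]
  refine (norm_sum_le _ _).trans (sum_le_sum fun d hd => ?_)
  obtain ⟨δ, rfl⟩ := Nat.dvd_of_mem_divisors hd
  have hd1 : 1 ≤ d := Nat.pos_of_mem_divisors hd
  have hδ : 1 ≤ δ := Nat.pos_of_ne_zero (by rintro rfl; simp at hM)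
  rw [sum_dvd_ex hd1 hδ, Nat.mul_div_cancel_left δ hd1, norm_mul]
  have h3 : ‖(moebius d : ℂ)‖ ≤ 1 := by
    rw [Complex.norm_intCast]
    exact_mod_cast abs_moebius_le_one
  split_ifs
  · rw [Complex.norm_natCast]
    exact mul_le_of_le_one_left (by positivity) h3
  · simp

theorem card_divisors_le (M : ℕ) : (M.divisors.card : ℝ) ≤ 2 * √M := by
  have h1 : M.divisors ⊆ Icc 1 M.sqrt ∪ (Icc 1 M.sqrt).image (M / ·) := by
    intro d hd
    obtain ⟨δ, hδ⟩ := Nat.dvd_of_mem_divisors hd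
    have hd1 : 1 ≤ d := Nat.pos_of_mem_divisors hd
    have hM : M ≠ 0 := (Nat.mem_divisors.1 hd).2
    have hδ1 : 1 ≤ δ := Nat.pos_of_ne_zero (by rintro rfl; simp at hδ; exact hM hδ)
    rw [mem_union, mem_image]
    rcases Nat.le_sqrt_of_eq_mul hδ with h | h
    · exact Or.inl (mem_Icc.2 ⟨hd1, h⟩)
    · refine Or.inr ⟨δ, mem_Icc.2 ⟨hδ1, h⟩, ?_⟩
      rw [hδ, Nat.mul_div_cancel _ hδ1]
  have h2 : M.divisors.card ≤ M.sqrt + M.sqrt := by
    refine (card_le_card h1).trans ((card_union_le _ _).trans ?_)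
    refine add_le_add (by simp) (card_image_le.trans (by simp))
  have h3 : ((M.sqrt : ℕ) : ℝ) ≤ √M := Real.nat_sqrt_le_real_sqrt
  have h4 : (M.divisors.card : ℝ) ≤ M.sqrt + M.sqrt := by exact_mod_cast h2
  linarith

theorem sum_dist_le {P' b : ℕ} {ℬ : Finset ℕ} (hB : ℬ ⊆ Ico P' (2 * P')) (hb : b ∈ ℬ)
    (φ : ℕ → ℝ) (hφ : ∀ j, 0 ≤ φ j) :
    ∑ b' ∈ ℬ.erase b, φ ((b' : ℤ) - b).natAbs ≤ 2 * ∑ j ∈ Icc 1 P', φ j := by
  have key : ∀ s : Finset ℕ, s ⊆ ℬ.erase b →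
      Set.InjOn (fun b' : ℕ => ((b' : ℤ) - b).natAbs) s →
      ∑ b' ∈ s, φ ((b' : ℤ) - b).natAbs ≤ ∑ j ∈ Icc 1 P', φ j := by
    intro s hs hi
    rw [← sum_image (f := φ) hi]
    refine sum_le_sum_of_subset_of_nonneg ?_ fun j _ _ => hφ j
    intro j hj
    obtain ⟨b', hb', rfl⟩ := mem_image.1 hj
    have h1 := mem_erase.1 (hs hb')
    have h2 := mem_Ico.1 (hB h1.2)
    have h3 := mem_Ico.1 (hB hb)
    have h4 := h1.1
    rw [mem_Icc]
    omega
  rw [← sum_filter_add_sum_filter_not (ℬ.erase b) (fun b' => b' < b), two_mul]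
  refine add_le_add (key _ (filter_subset _ _) ?_) (key _ (filter_subset _ _) ?_)
  · intro x hx y hy h
    have h1 := (mem_filter.1 hx).2
    have h2 := (mem_filter.1 hy).2
    simp only at h
    omega
  · intro x hx y hy h
    have h1 := (mem_filter.1 hx).2
    have h2 := (mem_filter.1 hy).2
    simp only at h
    omega

theorem abel_id (u g : ℕ → ℂ) (L : ℕ) :
    ∑ i ∈ range L, u i * g i = (∑ i ∈ range L, u i) * g L -
      ∑ i ∈ range L, (∑ j ∈ range (i + 1), u j) * (g (i + 1) - g i) := by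
  induction L with
  | zero => simp
  | succ L ih =>
    rw [sum_range_succ, ih, sum_range_succ (fun i => (∑ j ∈ range (i + 1), u j) * _),
      sum_range_succ u L]
    ring

theorem abel_le (u g : ℕ → ℂ) (L : ℕ) {U V : ℝ} (hU : ∀ k, ‖∑ i ∈ range k, u i‖ ≤ U)
    (hg : ‖g L‖ ≤ 1) (hV : ∀ i < L, ‖g (i + 1) - g i‖ ≤ V) :
    ‖∑ i ∈ range L, u i * g i‖ ≤ U * (1 + L * V) := by
  have hU0 : 0 ≤ U := (norm_nonneg _).trans (hU 0)
  rw [abel_id]
  refine (norm_sub_le _ _).trans ?_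
  have h1 : ‖(∑ i ∈ range L, u i) * g L‖ ≤ U := by
    rw [norm_mul]
    exact (mul_le_of_le_one_right (norm_nonneg _) hg).trans (hU L)
  have h2 : ‖∑ i ∈ range L, (∑ j ∈ range (i + 1), u j) * (g (i + 1) - g i)‖ ≤
      ∑ _i ∈ range L, U * V := by
    refine (norm_sum_le _ _).trans (sum_le_sum fun i hi => ?_)
    rw [norm_mul]
    exact mul_le_mul (hU _) (hV i (mem_range.1 hi)) (norm_nonneg _) hU0
  rw [sum_const, card_range, nsmul_eq_mul] at h2
  nlinarith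

theorem period_sum {u : ℕ → ℂ} {M : ℕ} (hu : ∀ n, u (n + M) = u n) (a : ℕ) :
    ∑ i ∈ range M, u (a + i) = ∑ i ∈ range M, u i := by
  induction a with
  | zero => simp
  | succ a ih =>
    have h1 := sum_range_succ (fun i => u (a + i)) M
    have h2 := sum_range_succ' (fun i => u (a + i)) M
    rw [← ih]
    simp only [add_zero, hu] at h1 h2
    have h3 : ∑ i ∈ range M, u (a + 1 + i) = ∑ i ∈ range M, u (a + (i + 1)) :=
      sum_congr rfl fun i _ => by rw [add_assoc, add_comm 1 i]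
    rw [h3]
    exact add_right_cancel (h2.symm.trans h1)

theorem zero_mean_le {u : ℕ → ℂ} {M : ℕ} (hM : 1 ≤ M) (hu : ∀ n, u (n + M) = u n)
    (h0 : ∑ i ∈ range M, u i = 0) (h2 : ∀ n, ‖u n‖ ≤ 2) (a k : ℕ) :
    ‖∑ i ∈ range k, u (a + i)‖ ≤ 2 * M := by
  induction k using Nat.strong_induction_on with
  | _ k ih =>
    by_cases hk : k < M
    · refine (norm_sum_le _ _).trans ((sum_le_sum fun i _ => h2 (a + i)).trans ?_)
      have : (k : ℝ) ≤ M := by exact_mod_cast hk.le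
      rw [sum_const, card_range, nsmul_eq_mul]
      linarith
    · obtain ⟨j, rfl⟩ : ∃ j, k = j + M := ⟨k - M, by omega⟩
      rw [sum_range_add]
      have h3 : ∑ i ∈ range M, u (a + (j + i)) = 0 := by
        rw [← h0, ← period_sum hu (a + j)]
        exact sum_congr rfl fun i _ => by rw [add_assoc]
      rw [h3, add_zero]
      exact ih j (by omega)

end Vale.Agent.P013.Bil
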