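import Vale.Agent.P013.BilinX

/-! Helpers for the bilinear estimate: the oscillating sum and the twisted sum. -/

open Finset

namespace Vale.Agent.P013.Bil

theorem norm_ex_taylor (x : ℝ) :
    ‖ex x - 1 - 2 * Real.pi * x * Complex.I‖ ≤ 2 * (2 * Real.pi * x) ^ 2 := by
  have hn : ‖(2 * Real.pi * x * Complex.I : ℂ)‖ = |2 * Real.pi * x| := by
    have : (2 * Real.pi * x * Complex.I : ℂ) = ((2 * Real.pi * x : ℝ) : ℂ) * Complex.I := by
      push_cast; ring
    rw [this, norm_mul, Complex.norm_I, mul_one, Complex.norm_real, Real.norm_eq_abs]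
  by_cases h : |2 * Real.pi * x| ≤ 1
  · have h1 := Complex.norm_exp_sub_one_sub_id_le (x := 2 * Real.pi * x * Complex.I)
      (by rw [hn]; exact h)
    rw [hn, sq_abs] at h1
    refine h1.trans ?_
    nlinarith [sq_nonneg (2 * Real.pi * x)]
  · have h1 := norm_ex_sub_one x
    have h2 : 2 * Real.pi * |x| = |2 * Real.pi * x| := by
      rw [abs_mul (2 * Real.pi), abs_of_pos (by positivity : 0 < 2 * Real.pi)]
    refine (norm_sub_le _ _).trans ?_
    rw [hn, ← sq_abs]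
    rw [h2] at h1
    push Not at h
    nlinarith

theorem osc_step (β : ℝ) {n : ℕ} (hn : 1 ≤ n) :
    ‖2 * Real.pi * β * Complex.I * ex (β / n) -
      ((n : ℂ) * (n + 1) * ex (β / n) - ((n + 1 : ℕ) : ℂ) * (((n + 1 : ℕ) : ℂ) + 1) *
        ex (β / (n + 1 : ℕ)))‖ ≤ 2 * (n + 1) + 2 * (2 * Real.pi * β) ^ 2 / n ^ 2 := by
  have hn0 : (0 : ℝ) < n := by exact_mod_cast hn
  have hnc : (n : ℂ) ≠ 0 := by exact_mod_cast hn0.ne'
  have hnc1 : (n : ℂ) + 1 ≠ 0 := by exact_mod_cast (by positivity : (n : ℝ) + 1 ≠ 0)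
  set t : ℝ := -(β / (n * (n + 1))) with ht
  have h1 : ex (β / (n + 1 : ℕ)) = ex (β / n) * ex t := by
    rw [← ex_add]; congr 1; rw [ht]; push_cast; field_simp; ring
  have h2 : (2 * Real.pi * β * Complex.I : ℂ) =
      -((n : ℂ) * (n + 1)) * (2 * Real.pi * t * Complex.I) := by
    rw [ht]; push_cast; field_simp
  have h3 : 2 * Real.pi * β * Complex.I * ex (β / n) -
      ((n : ℂ) * (n + 1) * ex (β / n) - ((n + 1 : ℕ) : ℂ) * (((n + 1 : ℕ) : ℂ) + 1) *
        ex (β / (n + 1 : ℕ))) = 2 * ((n : ℂ) + 1) * ex (β / (n + 1 : ℕ)) +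
      (n : ℂ) * (n + 1) * (ex (β / n) * (ex t - 1 - 2 * Real.pi * t * Complex.I)) := by
    rw [h2, h1]; push_cast; ring
  rw [h3]
  refine (norm_add_le _ _).trans (add_le_add ?_ ?_)
  · rw [norm_mul, norm_ex, mul_one]
    have : (2 * ((n : ℂ) + 1)) = ((2 * (n + 1) : ℝ) : ℂ) := by push_cast; ring
    rw [this, Complex.norm_real, Real.norm_eq_abs, abs_of_pos (by positivity)]
  · have h4 : ((n : ℂ) * (n + 1)) = ((n * (n + 1) : ℝ) : ℂ) := by push_cast; ring
    rw [norm_mul, norm_mul (ex _), norm_ex, one_mul, h4, Complex.norm_real, Real.norm_eq_abs,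
      abs_of_pos (by positivity)]
    refine (mul_le_mul_of_nonneg_left (norm_ex_taylor t) (by positivity)).trans ?_
    have h5 : (n : ℝ) * (n + 1) * (2 * (2 * Real.pi * t) ^ 2) =
        2 * (2 * Real.pi * β) ^ 2 / (n * (n + 1)) := by
      rw [ht]; field_simp
    rw [h5]
    exact div_le_div_of_nonneg_left (by positivity) (by positivity) (by nlinarith)

theorem osc_le {β : ℝ} (hβ : β ≠ 0) {P : ℕ} (hP : 1 ≤ P) :
    ‖∑ i ∈ range P, ex (β / (P + i : ℕ))‖ ≤ 2 * P ^ 2 / |β| + 16 * (|β| / P) := by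
  have hP0 : (1 : ℝ) ≤ P := by exact_mod_cast hP
  have hβ0 : 0 < |β| := abs_pos.2 hβ
  set G : ℕ → ℂ := fun n => (n : ℂ) * (n + 1) * ex (β / n) with hG
  have hGn : ∀ n : ℕ, ‖G n‖ = n * (n + 1) := fun n => by
    have h4 : ((n : ℂ) * (n + 1)) = ((n * (n + 1) : ℝ) : ℂ) := by push_cast; ring
    simp only [hG]
    rw [norm_mul, norm_ex, mul_one, h4, Complex.norm_real, Real.norm_eq_abs,
      abs_of_nonneg (by positivity)]
  have h1 : 2 * Real.pi * β * Complex.I * ∑ i ∈ range P, ex (β / (P + i : ℕ)) =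
      (G (P + 0) - G (P + P)) + ∑ i ∈ range P, (2 * Real.pi * β * Complex.I *
        ex (β / (P + i : ℕ)) - (G (P + i) - G (P + (i + 1)))) := by
    rw [← sum_range_sub' (fun i => G (P + i)) P, ← sum_add_distrib, mul_sum]
    exact sum_congr rfl fun i _ => by ring
  have h2 : ∀ i ∈ range P, ‖2 * Real.pi * β * Complex.I *
      ex (β / (P + i : ℕ)) - (G (P + i) - G (P + (i + 1)))‖ ≤
      4 * P + 2 * (2 * Real.pi * β) ^ 2 / P ^ 2 := by
    intro i hi
    have hi' : (i : ℝ) + 1 ≤ P := by exact_mod_cast mem_range.1 hi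
    refine (osc_step β (n := P + i) (by omega)).trans (add_le_add ?_ ?_)
    · push_cast; linarith
    · refine div_le_div_of_nonneg_left (by positivity) (by positivity) ?_
      push_cast
      have : (0 : ℝ) ≤ i := by positivity
      nlinarith
  have h3 : 2 * Real.pi * |β| * ‖∑ i ∈ range P, ex (β / (P + i : ℕ))‖ ≤
      12 * P ^ 2 + 2 * (2 * Real.pi * β) ^ 2 / P := by
    have h4 : ‖(2 * Real.pi * β * Complex.I : ℂ)‖ = 2 * Real.pi * |β| := by
      have : (2 * Real.pi * β * Complex.I : ℂ) = ((2 * Real.pi * β : ℝ) : ℂ) * Complex.I := by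
        push_cast; ring
      rw [this, norm_mul, Complex.norm_I, mul_one, Complex.norm_real, Real.norm_eq_abs,
        abs_mul (2 * Real.pi), abs_of_pos (by positivity : 0 < 2 * Real.pi)]
    rw [← h4, ← norm_mul, h1]
    refine (norm_add_le _ _).trans ?_
    have h5 := norm_sub_le (G (P + 0)) (G (P + P))
    rw [hGn, hGn] at h5
    have h6 := (norm_sum_le _ _).trans (sum_le_sum h2)
    rw [sum_const, card_range, nsmul_eq_mul] at h6
    have h7 : (P : ℝ) * (4 * P + 2 * (2 * Real.pi * β) ^ 2 / P ^ 2) =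
        4 * P ^ 2 + 2 * (2 * Real.pi * β) ^ 2 / P := by field_simp
    push_cast at h5
    nlinarith
  have hpi := Real.pi_gt_three
  have hpi4 := Real.pi_le_four
  have h8 : 12 * (P : ℝ) ^ 2 + 2 * (2 * Real.pi * β) ^ 2 / P ≤
      2 * Real.pi * |β| * (2 * P ^ 2 / |β| + 16 * (|β| / P)) := by
    have e1 : 2 * Real.pi * |β| * (2 * P ^ 2 / |β| + 16 * (|β| / P)) =
        4 * Real.pi * P ^ 2 + 32 * Real.pi * (|β| ^ 2 / P) := by field_simp; ring
    have e2 : 2 * (2 * Real.pi * β) ^ 2 / P = 8 * Real.pi * Real.pi * (|β| ^ 2 / P) := by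
      rw [sq_abs]; ring
    have e3 : 0 ≤ |β| ^ 2 / P := by positivity
    have e4 : 0 ≤ Real.pi * (|β| ^ 2 / P) := by positivity
    rw [e1, e2]
    nlinarith [sq_nonneg (P : ℝ)]
  exact le_of_mul_le_mul_left (h3.trans h8) (by positivity)

theorem osc_le_triv (β : ℝ) (P : ℕ) : ‖∑ i ∈ range P, ex (β / (P + i : ℕ))‖ ≤ P := by
  refine (norm_sum_le _ _).trans ?_
  simp

theorem twist_le {M P : ℕ} (hM : 1 ≤ M) (hP : 1 ≤ P) (κ : ℤ) (β : ℝ) :
    ‖∑ i ∈ range P, hh M κ (P + i) * ex (β / (P + i : ℕ))‖ ≤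
      ‖ram M κ‖ / M * ‖∑ i ∈ range P, ex (β / (P + i : ℕ))‖ + 2 * M * (1 + 8 * (|β| / P)) := by
  have hM0 : (0 : ℝ) < M := by exact_mod_cast hM
  have hMc : (M : ℂ) ≠ 0 := by exact_mod_cast hM0.ne'
  have hP0 : (1 : ℝ) ≤ P := by exact_mod_cast hP
  set u : ℕ → ℂ := fun n => hh M κ n - ram M κ / M with hu
  have hc : ‖ram M κ / M‖ = ‖ram M κ‖ / M := by rw [norm_div, Complex.norm_natCast]
  have hu1 : ∀ n, u (n + M) = u n := fun n => by simp only [hu, hh_add]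
  have hu0 : ∑ i ∈ range M, u i = 0 := by
    simp only [hu]
    rw [sum_sub_distrib, sum_const, card_range, nsmul_eq_mul, mul_div_cancel₀ _ hMc, ram, sub_self]
  have hu2 : ∀ n, ‖u n‖ ≤ 2 := fun n => by
    refine (norm_sub_le _ _).trans ?_
    have h1 := norm_hh_le M κ n
    have h2 : ‖ram M κ‖ / M ≤ 1 := (div_le_one hM0).2 (norm_ram_le_self M κ)
    rw [hc]; linarith
  have h1 : ∑ i ∈ range P, hh M κ (P + i) * ex (β / (P + i : ℕ)) =
      ram M κ / M * ∑ i ∈ range P, ex (β / (P + i : ℕ)) +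
        ∑ i ∈ range P, u (P + i) * ex (β / (P + i : ℕ)) := by
    rw [mul_sum, ← sum_add_distrib]
    exact sum_congr rfl fun i _ => by simp only [hu]; ring
  rw [h1]
  refine (norm_add_le _ _).trans (add_le_add (by rw [norm_mul, hc]) ?_)
  have h2 := abel_le (fun i => u (P + i)) (fun i => ex (β / (P + i : ℕ))) P
    (U := 2 * M) (V := 8 * (|β| / P ^ 2)) (zero_mean_le hM hu1 hu0 hu2 P) (by simp) (by
      intro i _
      refine (norm_ex_sub_ex _ _).trans ?_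
      have hi : (0 : ℝ) ≤ i := by positivity
      have e1 : β / ((P + (i + 1) : ℕ) : ℝ) - β / ((P + i : ℕ) : ℝ) =
          -β / ((P + i) * (P + i + 1)) := by
        push_cast; field_simp; ring
      have e2 : |β / ((P + (i + 1) : ℕ) : ℝ) - β / ((P + i : ℕ) : ℝ)| ≤ |β| / P ^ 2 := by
        rw [e1, abs_div, abs_neg, abs_of_pos (by positivity : (0 : ℝ) < (P + i) * (P + i + 1))]
        exact div_le_div_of_nonneg_left (abs_nonneg _) (by positivity) (by nlinarith)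
      have hpi4 := Real.pi_le_four
      exact mul_le_mul (by linarith) e2 (abs_nonneg _) (by norm_num))
  have h3 : (P : ℝ) * (8 * (|β| / P ^ 2)) = 8 * (|β| / P) := by field_simp
  rw [h3] at h2
  exact h2

theorem sq_expand (N ℬ : Finset ℕ) (β : ℕ → ℂ) (hβ : ∀ b ∈ ℬ, ‖β b‖ ≤ 1) (f : ℕ → ℕ → ℂ) :
    ∑ n ∈ N, ‖∑ b ∈ ℬ, β b * f n b‖ ^ 2 ≤
      ∑ b ∈ ℬ, ∑ b' ∈ ℬ, ‖∑ n ∈ N, f n b * (starRingEnd ℂ) (f n b')‖ := by
  have h1 : ((∑ n ∈ N, ‖∑ b ∈ ℬ, β b * f n b‖ ^ 2 : ℝ) : ℂ) = ∑ b ∈ ℬ, ∑ b' ∈ ℬ,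
      β b * (starRingEnd ℂ) (β b') * ∑ n ∈ N, f n b * (starRingEnd ℂ) (f n b') := by
    push_cast
    simp only [← Complex.mul_conj', map_sum, map_mul, sum_mul_sum]
    simp only [mul_sum]
    rw [sum_comm]
    refine sum_congr rfl fun b _ => ?_
    rw [sum_comm]
    exact sum_congr rfl fun b' _ => sum_congr rfl fun n _ => by ring
  have h2 : ∑ n ∈ N, ‖∑ b ∈ ℬ, β b * f n b‖ ^ 2 =
      ‖((∑ n ∈ N, ‖∑ b ∈ ℬ, β b * f n b‖ ^ 2 : ℝ) : ℂ)‖ := by
    rw [Complex.norm_real, Real.norm_eq_abs, abs_of_nonneg (by positivity)]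
  rw [h2, h1]
  refine (norm_sum_le _ _).trans (sum_le_sum fun b hb => ?_)
  refine (norm_sum_le _ _).trans (sum_le_sum fun b' hb' => ?_)
  rw [norm_mul, norm_mul, Complex.norm_conj]
  refine mul_le_of_le_one_left (norm_nonneg _) ?_
  exact mul_le_one₀ (hβ b hb) (norm_nonneg _) (hβ b' hb')

end Vale.Agent.P013.Bil
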