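import Vale.Agent.P013.LeafWX

/-! Total weight of the robust micro leaves.

Proof plan. `l = log D`, `λ = log (z^2/D) ≥ 0`, `D' = D e^t`.
* `Lam_lower` at `D'` and `Lam_upper` at `D` give
  `Lam D' z - Lam D z ≥ (c₀ t - C₀ (1 + λ))/l^2` (`l ≤ log D' ≤ 1.01 l`).
* `level_change`: the left side is a sum over `s = insert p s'`, `s'` odd and admissible at level
  `D`, `p < lo s'`, `D ≤ pr s' p^3 < D'`. Put `u = log (D / pr s') ≥ 0` (`ok_pr_le`),
  `v = log p`, so `u/3 ≤ v < (u+t)/3`, and `D ≤ pr s' (lo s')^3`, so that `T_le` bounds the weight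
  `∑ 1/pr s'` of the class `X_j ≤ pr s' < 2 X_j`, `X_j = D/2^j`, by `K (j+1)/l^2`; in the class
  `(j-1) log 2 < u ≤ j log 2`. Always `Lam (D'/pr s) p ≤ Vp p ≤ 1/v`.
* Small, `u ≤ t/C₂`: `∑_{v ≥ u/3} 1/(p v) ≤ C/(u+1)` (`mertensk 1` on
  `PI (max (3/2) (e^(u/3)/2)) z`), total `≤ C (t/C₂ + 1)/l^2`.
* Large, `u ≥ C₁ t`: `Δ = D'/pr s` satisfies `p^2 < Δ < p^3`, `log (Δ/p^2) ≤ t`,
  `log Δ ≥ 2u/3`, so `Lam_upper` gives `Lam Δ p ≤ C t/u^2`;
  `∑_{u/3 ≤ v < (u+t)/3} 1/p ≤ C t/u` (`mertens0`); total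
  `≤ ∑_{j ≥ C₁ t} C t^2/(j^2 l^2) ≤ C t/(C₁ l^2)`.
* Middle, `t/C₂ < u < C₁ t` (so `G ≤ u/30` and `u` is large): call a prime `p' < lo s'` good if
  `(u+G)/3 ≤ log p' ≤ u/2.5`; then `insert p' s' ∈ good D G t C z`, and `(s', p') ↦ insert p' s'`
  is injective. Claim `∑_{p < lo s', v ≥ u/3} 1/(p v) ≤ 14 ∑_{good p'} 1/(p' log p') + C (G+1)/u^2`.
  If `log (lo s') > u/2.5` every prime with `(u+G)/3 ≤ log p' ≤ u/2.5` is good, their sum is
  `≥ 3/(u+G) - 2.5/u - C/u^2 ≥ 0.3/u` and the left side is `≤ 3/u + C/u^2 ≤ 4/u`. Otherwise the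
  primes that are not good have `u/3 ≤ v < (u+G)/3` and contribute `≤ (3G + C)/u^2`.
  The error terms total `≤ ∑_j K (j+1) C (G+1)/(j^2 l^2) ≤ C(C₁, C₂) (G+1)/l^2` (at most
  `2 C₁ t + 2` classes, each with `j ≥ t/C₂`).
* Choose `C₁, C₂` so large that the small and large parts are `≤ c₀ t/(2 l^2) + C/l^2`. -/

open Finset

namespace Vale.Agent.P013

theorem lw_point : ∃ A U : ℝ, 0 < A ∧ 3 ≤ U ∧ ∀ (u t G R : ℝ) (m : ℕ) (P S : Finset ℕ), 0 ≤ u →
    0 ≤ G → 4 ≤ R → U * R * (1 + G) ≤ t →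
    (∀ p ∈ P, p.Prime ∧ p < m ∧ u / 3 ≤ Real.log p ∧ Real.log p ≤ (u + t) / 3) →
    (t / R < u → u < R * t → ∀ p : ℕ, p.Prime → p < m → (u + G) / 3 ≤ Real.log p →
      Real.log p ≤ 2 * u / 5 → p ∈ S) →
    ∑ p ∈ P, max 0 (Lam (Real.exp (u + t) / p) p) / p ≤ 14 * ∑ p ∈ S, 1 / (p * Real.log p) +
      A * ((t / R) ^ 2 * lwG u (t / R) + t ^ 2 * lwG u (R * t) +
        (G + 1) * (R + 2) ^ 5 * t * lwG u t) := by
  obtain ⟨A₁, a1, H1⟩ := lw_small
  obtain ⟨A₂, U₂, a2, u2, H2⟩ := lw_mid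
  obtain ⟨A₃, U₃, a3, u3, H3⟩ := lw_large
  refine ⟨9 * A₁ + A₂ + 27 * A₃, U₂ + U₃ + 1, by positivity, by linarith,
    fun u t G R m P S hu hG hR ht hP hS => ?_⟩
  have t1 : (U₂ + U₃ + 1) * (1 + G) ≤ t / R := by
    rw [le_div_iff₀ (by linarith), mul_right_comm]
    exact ht
  have t2 : U₂ + U₃ + 1 ≤ t / R := by nlinarith
  have t0 : 0 < t := le_trans (by positivity) ht |>.lt_of_ne' fun e => by
    rw [e, zero_div] at t2; linarith
  have t3 : t / R ≤ t := div_le_self t0.le (by linarith)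
  have g0 : ∀ a, 0 ≤ lwG u a := fun a => by unfold lwG; positivity
  have s0 : 0 ≤ ∑ p ∈ S, 1 / (p * Real.log p) := sum_nonneg fun _ _ => by positivity
  have b1 := mul_nonneg (sq_nonneg (t / R)) (g0 (t / R))
  have b2 := mul_nonneg (sq_nonneg t) (g0 (R * t))
  have b3 := mul_nonneg (show 0 ≤ (G + 1) * (R + 2) ^ 5 * t by positivity) (g0 t)
  have b4 : ∑ p ∈ P, max 0 (Lam (Real.exp (u + t) / p) p) / p ≤ ∑ p ∈ P, 1 / (p * Real.log p) :=
    sum_le_sum fun p hp => by
      rw [mul_comm, ← div_div]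
      exact div_le_div_of_nonneg_right (max_le (by positivity) ((Lam_le_Vp _ _).trans
        (Vp_le (hP p hp).1.two_le))) (by positivity)
  have b5 : ∀ {a x : ℝ}, a ≤ 9 * A₁ + A₂ + 27 * A₃ → 0 ≤ x → x ≤ (t / R) ^ 2 * lwG u (t / R) +
      t ^ 2 * lwG u (R * t) + (G + 1) * (R + 2) ^ 5 * t * lwG u t → a * x ≤ _ :=
    fun h1 h2 h3 => mul_le_mul h1 h3 h2 (by positivity)
  rcases le_or_gt u (t / R) with h | h
  · refine ((b4.trans (H1 u hu P fun p hp => ⟨(hP p hp).1, (hP p hp).2.2.1⟩)).trans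
      (le_trans ?_ (b5 (a := 9 * A₁) (by linarith) b1 (by linarith)))).trans (by linarith)
    rw [lwG, mul_one_div, ← mul_div_assoc, div_le_div_iff₀ (by positivity) (by positivity)]
    exact (mul_le_mul_of_nonneg_left (mul_le_mul_of_nonneg_left (pow_le_pow_left₀ (by positivity)
      (show _ ≤ 3 * (t / R) by linarith) 2) (by positivity)) a1.le).trans_eq (by ring)
  rcases lt_or_ge u (R * t) with h' | h'
  · refine (b4.trans (H2 u G hG (le_trans (le_trans (mul_le_mul_of_nonneg_right (by linarith)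
      (by positivity)) t1) h.le) m P S (fun p hp => ⟨(hP p hp).1, (hP p hp).2.1, (hP p hp).2.2.1⟩)
      (hS h h'))).trans (add_le_add le_rfl (le_trans ?_ (b5 (a := A₂) (by linarith) b3
        (by linarith))))
    have d1 : u + 1 + t ≤ (R + 2) * t := by linarith
    have d2 : t ≤ (R + 2) * u := by linarith [(div_lt_iff₀ (by linarith)).1 h]
    rw [lwG, mul_one_div, ← mul_div_assoc, div_le_div_iff₀ (pow_pos (by linarith) _) (by positivity)]
    exact (mul_le_mul_of_nonneg_left (mul_le_mul (show u + 1 ≤ (R + 2) * t by linarith)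
      (pow_le_pow_left₀ (by positivity) (d1.trans (mul_le_mul_of_nonneg_left d2 (by linarith))) 2)
        (by positivity) (by positivity)) (by positivity)).trans_eq (by ring)
  · have c0 : 4 * t ≤ u := (mul_le_mul_of_nonneg_right hR t0.le).trans h'
    refine ((H3 u t (by linarith) c0 P fun p hp => ⟨(hP p hp).1, (hP p hp).2.2⟩).trans
      (le_trans ?_ (b5 (a := 27 * A₃) (by linarith) b2 (by linarith)))).trans (by linarith)
    rw [lwG, mul_one_div, ← mul_div_assoc, div_le_div_iff₀ (pow_pos (by linarith) _) (by positivity)]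
    exact (mul_le_mul_of_nonneg_left (mul_le_mul (show u + 1 ≤ 3 * u by linarith)
      (pow_le_pow_left₀ (by positivity) (show u + 1 + R * t ≤ 3 * u by linarith) 2)
        (by positivity) (by positivity)) (by positivity)).trans_eq (by ring)

theorem lw_diff : ∃ c C D₀ : ℝ, 0 < c ∧ 0 < C ∧ ∀ (D t : ℝ) (z : ℕ), D₀ ≤ D →
    Real.log z ≤ 0.51 * Real.log D → D ≤ (z : ℝ) ^ 2 → 0 ≤ t → t ≤ Real.log D / 100 →
      (c * t - C * (1 + Real.log ((z : ℝ) ^ 2 / D))) / Real.log D ^ 2 ≤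
        Lam (D * Real.exp t) z - Lam D z := by
  obtain ⟨c, C₁, D₁, c0, c1, H1⟩ := Lam_lower
  obtain ⟨C₂, D₂, c2, H2⟩ := Lam_upper
  refine ⟨c / 4, c + C₁ + C₂, max (max D₁ D₂) 2, by positivity, by positivity,
    fun D t z hD hz hz' t1 ht' => ?_⟩
  simp only [max_le_iff] at hD
  have D0 : 0 < D := by linarith [hD.2]
  have l0 : 0 < Real.log D := Real.log_pos (by linarith [hD.2])
  have z0 : (0 : ℝ) < z := by nlinarith [z.cast_nonneg (α := ℝ)]
  have e1 : D ≤ D * Real.exp t := le_mul_of_one_le_right D0.le (Real.one_le_exp t1)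
  have e2 : Real.log (D * Real.exp t) = Real.log D + t := by
    rw [Real.log_mul D0.ne' (Real.exp_ne_zero _), Real.log_exp]
  obtain ⟨μ, hμ⟩ : ∃ μ, μ = 2 * Real.log z - Real.log D := ⟨_, rfl⟩
  have e3 : Real.log ((z : ℝ) ^ 2 / D) = μ := by
    rw [hμ, Real.log_div (by positivity) D0.ne', Real.log_pow, Nat.cast_ofNat]
  have m0 : 0 ≤ μ := e3 ▸ Real.log_nonneg ((one_le_div D0).2 hz')
  have a1 := H1 _ z (hD.1.1.trans e1) (by linarith) (by linarith)
  have a2 := H2 D z hD.1.2 hz (by linarith)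
  rw [Real.log_div (by positivity) (by positivity), Real.log_div (by positivity) (by positivity),
    Real.log_pow, Nat.cast_ofNat, e2] at a1
  rw [Real.log_div (by positivity) (by positivity), Real.log_pow, Nat.cast_ofNat,
    max_eq_left (by linarith), zero_add, mul_one] at a2
  have a3 : (c / 4 * t - (c * μ + C₁ * μ + C₁)) / Real.log D ^ 2 ≤ Lam (D * Real.exp t) z := by
    refine le_trans ?_ ((div_le_div_of_nonneg_right (show c * t - (c * μ + C₁ * μ + C₁) ≤ _ from ?_)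
      (by positivity)).trans a1)
    · rw [sub_div, sub_div]
      refine sub_le_sub ?_ (div_le_div_of_nonneg_left (by positivity) (by positivity)
        (pow_le_pow_left₀ l0.le (by linarith) 2))
      rw [div_le_div_iff₀ (by positivity) (by positivity)]
      exact (mul_le_mul_of_nonneg_left (pow_le_pow_left₀ (by positivity)
        (show _ ≤ 2 * Real.log D by linarith) 2) (by positivity)).trans_eq (by ring)
    · have b1 := mul_le_mul_of_nonneg_left (show t - μ ≤ max 0 (Real.log D + t - 2 * Real.log z) from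
        le_max_of_le_right (by linarith)) c0.le
      have b2 := mul_le_mul_of_nonneg_left (max_le m0
        (show 2 * Real.log z - (Real.log D + t) ≤ μ by linarith)) c1.le
      linarith
  refine le_trans ?_ (sub_le_sub a3 a2)
  rw [← sub_div, e3]
  exact div_le_div_of_nonneg_right (by linarith [mul_nonneg c2.le m0]) (by positivity)

open Classical in
/-- The admissible last primes. -/
noncomputable def lwR (u t : ℝ) (m : ℕ) : Finset ℕ :=
  m.primesBelow.filter fun p => u / 3 ≤ Real.log p ∧ Real.log p ≤ (u + t) / 3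

theorem lw_step1 {D t : ℝ} {z : ℕ} (D0 : 0 < D) (ht : 0 ≤ t) :
    Lam (D * Real.exp t) z - Lam D z ≤ ∑ s ∈ lwT D z, 1 / (pr s : ℝ) *
      ∑ p ∈ lwR (Real.log (D / pr s)) t (lo s),
        max 0 (Lam (Real.exp (Real.log (D / pr s) + t) / p) p) / p := by
  classical
  rw [level_change (le_mul_of_one_le_right D0.le (Real.one_le_exp ht))]
  simp only [mul_sum]
  rw [sum_sigma']
  refine sum_le_of_surj (fun x => insert x.2 x.1) (fun s hs => ?_) fun _ _ => by positivity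
  obtain ⟨h1, h2⟩ := mem_filter.1 hs
  obtain ⟨h3, h4⟩ := mem_leafS.1 h1
  obtain ⟨h5, h6, h7, h8⟩ := leaf_iff.1 h4
  have h9 := lo_mem h5
  have hp : ∀ p ∈ s, p.Prime := fun p a => Nat.prime_of_mem_primesBelow (h3 a)
  have p0 : (0 : ℝ) < lo s := by exact_mod_cast (hp _ h9).pos
  have q0 : (0 : ℝ) < pr (s.erase (lo s)) := by
    exact_mod_cast pr_pos fun p a => hp p (mem_of_mem_erase a)
  have b0 : ∀ r ∈ s.erase (lo s), lo s < r := fun r a =>
    (lo_le (mem_of_mem_erase a)).lt_of_ne (ne_of_mem_erase a).symm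
  rw [← card_erase_of_mem h9] at h7
  have b1 := b0 _ (lo_mem (card_pos.1 (by omega)))
  have b2 := ((ok_insert_iff b0).1 ((insert_erase h9).symm ▸ h2)).2 h7
  refine ⟨⟨s.erase (lo s), lo s⟩, mem_sigma.2 ⟨mem_filter.2 ⟨mem_okS.2
    ⟨(erase_subset _ _).trans h3, h6⟩, h7, h8.trans (by gcongr)⟩, mem_filter.2
      ⟨Nat.mem_primesBelow.2 ⟨b1, hp _ h9⟩, ?_, ?_⟩⟩, insert_erase h9, ?_⟩
  · have := Real.log_le_log (by positivity) ((div_le_iff₀' q0).2 h8)
    rw [Real.log_pow, Nat.cast_ofNat] at this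
    linarith
  · have := Real.log_le_log (by positivity) ((le_div_iff₀' q0).2 b2.le)
    rw [Real.log_pow, Nat.cast_ofNat, mul_div_right_comm, Real.log_mul (by positivity)
      (Real.exp_ne_zero _), Real.log_exp] at this
    linarith
  · dsimp only
    rw [Real.exp_add, Real.exp_log (by positivity), one_div_mul_eq_div, div_div, div_mul_eq_mul_div,
      div_div, mul_comm (pr _ : ℝ), ← Nat.cast_mul, ← pr_erase h9]
    exact div_le_div_of_nonneg_right (le_max_right _ _) (by positivity)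

theorem lw_good {D G t C : ℝ} {z p : ℕ} {s : Finset ℕ} (D0 : 0 < D) (hs : s ∈ lwT D z)
    (h1 : p.Prime) (h2 : p < lo s) (h3 : (Real.log (D / pr s) + G) / 3 ≤ Real.log p)
    (h4 : Real.log p ≤ 2 * Real.log (D / pr s) / 5) (h5 : t / C ≤ Real.log p)
    (h6 : Real.log p ≤ C * t) : insert p s ∈ good D G t C z := by
  classical
  obtain ⟨a1, a2, -⟩ := mem_filter.1 hs
  obtain ⟨a3, a4⟩ := mem_okS.1 a1
  have b0 : ∀ r ∈ s, p < r := fun r a => h2.trans_le (lo_le a)
  have b1 : p ∉ s := fun a => (b0 p a).false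
  have p0 : (0 : ℝ) < p := by exact_mod_cast h1.pos
  have q0 : (0 : ℝ) < pr s := by
    exact_mod_cast pr_pos fun p a => Nat.prime_of_mem_primesBelow (a3 a)
  rw [Real.log_div D0.ne' q0.ne'] at h3 h4
  refine mem_filter.2 ⟨mem_powerset.2 (insert_subset (Nat.mem_primesBelow.2 ⟨h2.trans
    (Nat.lt_of_mem_primesBelow (a3 (lo_mem (card_pos.1 (by omega))))), h1⟩) a3), ?_⟩
  rw [lo_insert b0, erase_insert b1, card_insert_of_notMem b1, pr_insert b1, Nat.cast_mul,
    ← Real.log_le_log_iff (by positivity) (by positivity),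
    ← Real.log_le_log_iff (x := _ ^ 2 * _) (by positivity) (by positivity)]
  simp (disch := positivity) only [Real.log_mul, Real.log_pow, Real.log_exp, Nat.cast_ofNat]
  exact ⟨insert_nonempty _ _, by omega, a4, by linarith, by linarith, h5, h6⟩

open Classical in
theorem lw_step2 (D G t C : ℝ) (z : ℕ) : ∑ s ∈ lwT D z, 1 / (pr s : ℝ) *
    ∑ p ∈ (lo s).primesBelow with insert p s ∈ good D G t C z, 1 / (p * Real.log p) ≤
      ∑ s ∈ good D G t C z, 1 / (pr s * Real.log (lo s)) := by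
  have h : ∀ x ∈ (lwT D z).sigma fun s => (lo s).primesBelow.filter
      fun p => insert p s ∈ good D G t C z, lo (insert x.2 x.1) = x.2 ∧ x.2 ∉ x.1 := fun x hx => by
    have := Nat.lt_of_mem_primesBelow (mem_filter.1 (mem_sigma.1 hx).2).1
    exact ⟨lo_insert fun r a => this.trans_le (lo_le a), fun a => (this.trans_le (lo_le a)).false⟩
  simp only [mul_sum]
  rw [sum_sigma']
  refine le_of_eq_of_le ((sum_congr rfl fun x hx => ?_).trans (sum_image
    (g := fun x : Σ _ : Finset ℕ, ℕ => insert x.2 x.1)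
    (f := fun s => 1 / (pr s * Real.log (lo s))) fun x hx y hy e => ?_).symm)
    (sum_le_sum_of_subset_of_nonneg (image_subset_iff.2 fun x hx =>
      (mem_filter.1 (mem_sigma.1 hx).2).2) fun _ _ _ => by positivity)
  · rw [(h x hx).1, pr_insert (h x hx).2, Nat.cast_mul, div_mul_div_comm]
    ring
  · have a : x.2 = y.2 := by rw [← (h x hx).1, ← (h y hy).1, show insert x.2 x.1 = _ from e]
    exact Sigma.ext (by rw [← erase_insert (h x hx).2, show insert x.2 x.1 = _ from e, a,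
      erase_insert (h y hy).2]) (heq_of_eq a)

theorem leaf_weight : ∃ c C D₀ : ℝ, 0 < c ∧ 1 ≤ C ∧ ∀ (D G t : ℝ) (z : ℕ), D₀ ≤ D →
    Real.log z ≤ 0.51 * Real.log D → D ≤ (z : ℝ) ^ 2 → 0 ≤ G → C * (1 + G) ≤ t →
    t ≤ Real.log D / 100 →
      (c * t - C * (1 + G + Real.log ((z : ℝ) ^ 2 / D))) / Real.log D ^ 2 ≤
        ∑ s ∈ good D G t C z, 1 / (pr s * Real.log (lo s)) := by
  classical
  obtain ⟨c, C₁, D₁, c0, c1, H1⟩ := lw_diff
  obtain ⟨K, D₃, k0, H3⟩ := lw_sum
  obtain ⟨A, U, a0, u0, H4⟩ := lw_point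
  obtain ⟨R, R1, R2⟩ : ∃ R : ℝ, 4 ≤ R ∧ 4 * K * A ≤ c * R :=
    ⟨max 4 (4 * K * A / c), le_max_left _ _, (div_le_iff₀' c0).1 (le_max_right _ _)⟩
  obtain ⟨C, C1, C2⟩ : ∃ C : ℝ, U * R ≤ C ∧ C₁ + K * A * (R + 2) ^ 5 ≤ C :=
    ⟨max _ _, le_max_left _ _, le_max_right _ _⟩
  have C3 : 3 * R ≤ C := le_trans (by gcongr) C1
  refine ⟨c / 28, C, max D₁ (max D₃ 2), by positivity, by linarith,
    fun D G t z hD hz hz' hG ht ht' => ?_⟩
  simp only [max_le_iff] at hD
  have D0 : 0 < D := by linarith [hD.2.2]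
  have l0 : 0 < Real.log D := Real.log_pos (by linarith [hD.2.2])
  have t1 : 0 < t := lt_of_lt_of_le (mul_pos (by linarith) (by linarith)) ht
  have a3 := H1 D t z hD.1 hz hz' t1.le ht'
  have m0 := Real.log_nonneg ((one_le_div D0).2 hz')
  generalize Real.log ((z : ℝ) ^ 2 / D) = μ at *
  have a4 := lw_step1 (z := z) D0 t1.le
  have a5 := lw_step2 D G t C z
  have a6 := sum_le_sum fun s (hs : s ∈ lwT D z) => mul_le_mul_of_nonneg_left (H4 (Real.log
    (D / pr s)) t G R (lo s) _ ((lo s).primesBelow.filter fun p => insert p s ∈ good D G t C z)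
    (Real.log_nonneg ((one_le_div (Nat.cast_pos.2 (okS_pr (by linarith) hz s
      (mem_filter.1 hs).1).1)).2 (okS_pr (by linarith) hz s (mem_filter.1 hs).1).2)) hG R1
    (le_trans (by gcongr) ht) (fun p (hp : p ∈ lwR _ t _) => ⟨Nat.prime_of_mem_primesBelow
      (mem_filter.1 hp).1, Nat.lt_of_mem_primesBelow (mem_filter.1 hp).1, (mem_filter.1 hp).2⟩)
    fun b1 b2 p b3 b4 b5 b6 => mem_filter.2 ⟨Nat.mem_primesBelow.2 ⟨b4, b3⟩, lw_good D0 hs b3 b4 b5 b6
      (by
        have : t / C ≤ t / R / 3 := by rw [div_div]; gcongr; linarith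
        linarith)
      (by linarith [mul_le_mul_of_nonneg_right C3 t1.le, mul_pos (show 0 < R by linarith) t1])⟩)
      (one_div_nonneg.2 (Nat.cast_nonneg (α := ℝ) (pr s)))
  simp only [mul_add, mul_left_comm (1 / (pr _ : ℝ)), sum_add_distrib, ← mul_sum] at a6
  have b1 := mul_le_mul_of_nonneg_left (H3 D z hD.2.1 hz (t / R) (by positivity))
    (show 0 ≤ A * (t / R) ^ 2 by positivity)
  have b2 := mul_le_mul_of_nonneg_left (H3 D z hD.2.1 hz (R * t) (by positivity))
    (show 0 ≤ A * t ^ 2 by positivity)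
  have b3 := mul_le_mul_of_nonneg_left (H3 D z hD.2.1 hz t t1)
    (show 0 ≤ A * ((G + 1) * (R + 2) ^ 5 * t) by positivity)
  have b4 : A * (t / R) ^ 2 * (K / (t / R * Real.log D ^ 2)) ≤ c / 4 * t / Real.log D ^ 2 := by
    refine le_of_eq_of_le (b := K * A / R * t / Real.log D ^ 2) (by field_simp) ?_
    gcongr ?_ * _ / _
    rw [div_le_div_iff₀ (by positivity) (by positivity)]
    linarith
  have b5 : A * t ^ 2 * (K / (R * t * Real.log D ^ 2)) =
    A * (t / R) ^ 2 * (K / (t / R * Real.log D ^ 2)) := by field_simp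
  have b6 : A * ((G + 1) * (R + 2) ^ 5 * t) * (K / (t * Real.log D ^ 2)) =
    K * A * (R + 2) ^ 5 * (G + 1) / Real.log D ^ 2 := by field_simp
  have b7 : (c / 28 * t - C * (1 + G + μ)) / Real.log D ^ 2 ≤
      ((c * t - C₁ * (1 + μ)) / Real.log D ^ 2 - 2 * (c / 4 * t / Real.log D ^ 2) -
        K * A * (R + 2) ^ 5 * (G + 1) / Real.log D ^ 2) / 14 := by
    rw [← mul_div_assoc, ← sub_div, ← sub_div, div_right_comm]
    refine div_le_div_of_nonneg_right ?_ (by positivity)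
    have : 0 ≤ K * A * (R + 2) ^ 5 := by positivity
    linarith [mul_le_mul_of_nonneg_right C2 (show 0 ≤ 1 + G + μ by positivity),
      mul_nonneg this m0, mul_nonneg c1.le hG,
      mul_nonneg (show 0 ≤ C by linarith) (show 0 ≤ 1 + G + μ by positivity)]
  linarith

end Vale.Agent.P013
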