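import Vale.Agent.P013.Gain
import Vale.Agent.P013.LeafW

/-! Survivors of the sieve by all primes below `√y (log y)^A`, and the bound for Jacobsthal's
function.

Proof plan. `core`: `L = log y`, `z = 2^Z`. Constants `ε` (`leaf_gain`), `c, C`
(`leaf_weight`), `C'` (`Lam_lower`), `K` (`okS_card_le`). Choose
`A₁ ≥ max C ((2 ε C A + 2 C' A + 1)/(ε c))`, `t = A₁ log L`, `B = ⌈C A₁⌉₊`, `G` from
`leaf_gain B`, `D = y exp (-G)`. `log (z^2/y) ≤ log 4 + 2 A log L`. `sift_tree` at level `y`,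
`Lam_lower` and `okS_card_le` at level `y`, `leaf_weight` at level `D` with `2 G`
(`log D ≤ L`, numerator non negative) give
`sift ≥ (y/L^2) (log L - O(1)) ≥ y/L^2`.
`jac_main`: apply `core (A + 3)` with `Z` minimal such that `√y L^(A+3) ≤ 2^Z`. If every
`N + v`, `v < y`, has a prime factor in common with `n`, each survivor is divisible by a prime
`q ∣ n`, `q ≥ z`, and such a prime divides at most `y/z + 1 ≤ 2 y/z` of the numbers; so
`y/L^2 ≤ √y L^A 2 √y/L^(A+3) = 2 y/L^3`, false for `L > 2`. -/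

open Finset

namespace Vale.Agent.P013

theorem core_big (M : ℝ) : ∃ y₀ : ℕ, ∀ y : ℕ, y₀ ≤ y → (1 : ℝ) ≤ y ∧ 1 ≤ Real.log y ∧
    M ≤ Real.log (Real.log y) ∧ M * Real.log (Real.log y) ≤ Real.log y := by
  have h1 := Real.tendsto_log_atTop.comp (tendsto_natCast_atTop_atTop (R := ℝ))
  have h2 := (Real.isLittleO_log_id_atTop.const_mul_left M).bound one_pos
  obtain ⟨y₀, h⟩ := Filter.eventually_atTop.1 (((h1.eventually h2).and
    ((Real.tendsto_log_atTop.comp h1).eventually_ge_atTop M)).and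
    ((h1.eventually_ge_atTop 1).and (Filter.eventually_ge_atTop 1)))
  refine ⟨y₀, fun y hy => ?_⟩
  obtain ⟨⟨h3, h4⟩, h5, h6⟩ := h y hy
  refine ⟨by exact_mod_cast h6, h5, h4, (le_abs_self _).trans (h3.trans_eq ?_)⟩
  exact (one_mul _).trans (abs_of_nonneg (zero_le_one.trans h5))

theorem core_log {y z : ℝ} {A : ℕ} (hy : 1 ≤ y) (hL : 1 ≤ Real.log y) (hz : 0 < z)
    (h : z ≤ 2 * (√y * Real.log y ^ A)) :
    Real.log z ≤ 1 + Real.log y / 2 + A * Real.log (Real.log y) := by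
  have h1 := Real.log_le_log hz h
  rw [Real.log_mul two_ne_zero (by positivity), Real.log_mul (by positivity) (by positivity),
    Real.log_sqrt (by linarith), Real.log_pow] at h1
  linarith [Real.log_two_lt_d9]

theorem core (A : ℕ) : ∃ y₀ : ℕ, ∀ (y Z : ℕ) (N : ℤ), y₀ ≤ y →
    √y * Real.log y ^ A ≤ 2 ^ Z → (2 : ℝ) ^ Z ≤ 2 * (√y * Real.log y ^ A) →
    y / Real.log y ^ 2 ≤ sift N y 1 (2 ^ Z) := by
  obtain ⟨ε, hε, h1⟩ := leaf_gain
  obtain ⟨c, C, D₁, hc, hC, h2⟩ := leaf_weight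
  obtain ⟨c', C', D₂, hc', hC', h3⟩ := Lam_lower
  obtain ⟨K, D₃, hK, h4⟩ := okS_card_le
  obtain ⟨a, ha0, ha⟩ : ∃ a : ℝ, C ≤ a ∧ ε * (c * a) = ε * (c * C + 2 * C * A) + 2 * C' * A + 1 :=
    ⟨C + (2 * C * A + (2 * C' * A + 1) / ε) / c, le_add_of_nonneg_right (by positivity),
      by field_simp; ring⟩
  obtain ⟨G, y₁, hG, h1⟩ := h1 ⌈C * a⌉₊
  obtain ⟨y₂, h5⟩ := core_big (100 * (2 + A + a + 2 * G + |D₁| + |D₂| + |D₃|) + 3 * C' + K + ε +
    ε * C * (3 + 3 * G))
  refine ⟨max y₁ y₂, fun y Z N hy hz1 hz2 => ?_⟩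
  obtain ⟨hy1, hL, hl, hlL⟩ := h5 y (le_of_max_le_right hy)
  have hz0 : (0 : ℝ) < 2 ^ Z := by positivity
  have hz3 := core_log hy1 hL hz0 hz2
  have hz4 : (y : ℝ) ≤ (2 ^ Z) ^ 2 := Real.sqrt_le_left hz0.le |>.1
    ((le_mul_of_one_le_right (Real.sqrt_nonneg _) (one_le_pow₀ hL)).trans hz1)
  have hz5 := Real.log_le_log (by linarith) hz4
  have hD : Real.log (y * Real.exp (-G)) = Real.log y - G := by
    rw [Real.log_mul (by linarith) (Real.exp_ne_zero _), Real.log_exp, sub_eq_add_neg]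
  have hD0 : 0 < y * Real.exp (-G) := by positivity
  have hyL := Real.log_le_sub_one_of_pos (show (0 : ℝ) < y by linarith)
  have hDL := Real.log_le_sub_one_of_pos hD0
  rw [Real.log_pow] at hz5
  have e1 := abs_nonneg D₁
  have e2 := abs_nonneg D₂
  have e3 := abs_nonneg D₃
  have e4 : (0 : ℝ) ≤ A := Nat.cast_nonneg A
  have e5 : 0 ≤ ε * C * (3 + 3 * G) := by positivity
  have hl1 : 1 ≤ Real.log (Real.log y) := by linarith
  have hlL' : 100 * (2 + A * Real.log (Real.log y) + a * Real.log (Real.log y) + 2 * G + |D₁| +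
      |D₂| + |D₃|) ≤ Real.log y := by
    have := mul_le_mul_of_nonneg_left hl1 (show 0 ≤ 100 * (2 + 2 * G + |D₁| + |D₂| + |D₃|) +
      3 * C' + K + ε + ε * C * (3 + 3 * G) by positivity)
    linarith
  have e6 : 0 ≤ A * Real.log (Real.log y) := by positivity
  have e7 : C * Real.log (Real.log y) ≤ a * Real.log (Real.log y) :=
    mul_le_mul_of_nonneg_right ha0 (by linarith)
  have e8 := mul_le_mul_of_nonneg_left (show 1 + 2 * G ≤ Real.log (Real.log y) by linarith)
    (zero_le_one.trans hC)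
  have e9 : 0 ≤ C * (1 + 2 * G) := by positivity
  have k1 := h1 y Z N (a * Real.log (Real.log y)) C (le_of_max_le_left hy) (by exact_mod_cast hz4)
    (by
      rw [← Real.log_le_log_iff (by positivity) (by positivity), Real.log_pow, Real.log_pow (n := 2),
        hD]
      push_cast
      linarith)
    (by rw [le_div_iff₀ (by linarith)]; linarith)
    (by rw [← mul_assoc]; exact mul_le_mul_of_nonneg_right (Nat.le_ceil _) (by linarith))
  have k2 := h2 (y * Real.exp (-G)) (2 * G) (a * Real.log (Real.log y)) (2 ^ Z)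
    (by linarith [le_abs_self D₁]) (by push_cast; linarith)
    (by
      push_cast
      exact (mul_le_of_le_one_right (by linarith) (Real.exp_le_one_iff.2 (by linarith))).trans hz4)
    (by linarith) (by linarith) (by linarith)
  have k3 := h3 y (2 ^ Z) (by linarith [le_abs_self D₂]) (by push_cast; linarith)
    (by push_cast at hz5 ⊢; linarith)
  have k4 := h4 y (2 ^ Z) (by linarith [le_abs_self D₃]) (by push_cast; linarith)
  have k5 := sift_tree N y (2 ^ Z) y
  push_cast at k2 k3 hz5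
  rw [Real.log_div (by positivity) hD0.ne', hD, Real.log_pow, Nat.cast_ofNat] at k2
  rw [Real.log_div (x := _ ^ 2) (by positivity) (by positivity), Real.log_pow, Nat.cast_ofNat,
    max_eq_right (sub_nonneg.2 hz5)] at k3
  generalize ∑ s ∈ good (y * Real.exp (-G)) (2 * G) (a * Real.log (Real.log y)) C (2 ^ Z),
    1 / (pr s * Real.log (lo s)) = S at k1 k2
  generalize Real.log (Real.log y) = l at *
  generalize Real.log y = L at *
  generalize Real.log (2 ^ Z) = w at *
  have f1 := mul_le_mul_of_nonneg_left hz3 (show 0 ≤ ε * C by positivity)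
  have f2 := mul_le_mul_of_nonneg_left hz3 hC'.le
  have f3 : 0 ≤ ε * c * C * l := by positivity
  have f4 : 1 + C' * (2 * w - L) + C' + K + ε ≤
      ε * (c * (a * l) - C * (1 + 2 * G + (2 * w - (L - G)))) := by
    have := congrArg (· * l) ha
    linarith
  have f5 := mul_nonneg hC'.le (sub_nonneg.2 hz5)
  have f6 := (div_le_div₀ (nonneg_of_mul_nonneg_right (le_trans (by linarith) f4) hε) le_rfl
    (by apply pow_pos; linarith) (pow_le_pow_left₀ (by linarith) (sub_le_self L hG) 2)).trans k2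
  have f7 : 1 / L ^ 3 ≤ 1 / L ^ 2 :=
    one_div_le_one_div_of_le (by positivity) (pow_le_pow_right₀ hL (by norm_num))
  have f8 := mul_nonneg hc'.le (le_max_left 0 (Real.log (y / (2 ^ Z) ^ 2)))
  have f9 : 0 < 1 / L ^ 2 := by positivity
  rw [div_eq_mul_one_div] at f6 k3 k4 ⊢
  have g1 := mul_le_mul_of_nonneg_left k3 (zero_le_one.trans hy1)
  have g2 := mul_le_mul_of_nonneg_left (sub_le_sub f6 f7) (show 0 ≤ ε * y by positivity)
  have g3 := mul_le_mul_of_nonneg_right f4 (show 0 ≤ y * (1 / L ^ 2) by positivity)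
  have g4 := mul_nonneg f8 (show 0 ≤ y * (1 / L ^ 2) by positivity)
  linarith

theorem core_count (N : ℤ) (y q : ℕ) :
    (((range y).filter fun v : ℕ => (q : ℤ) ∣ N + v).card : ℝ) ≤ y / q + 1 := by
  have h := card_le_card_of_injOn (s := (range y).filter fun v : ℕ => (q : ℤ) ∣ N + v)
    (t := range (y / q + 1)) (· / q) (fun v hv => ?_) fun v hv v' hv' (h : v / q = v' / q) => ?_
  · rw [card_range] at h
    exact (Nat.cast_le.2 h).trans (by push_cast; exact add_le_add_left Nat.cast_div_le 1)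
  · exact mem_coe.2 (mem_range.2 (Nat.lt_succ_of_le
      (Nat.div_le_div_right (mem_range.1 (mem_filter.1 hv).1).le)))
  · have h1 := (mem_filter.1 hv').2.sub (mem_filter.1 hv).2
    rw [add_sub_add_left_eq_sub, ← Nat.modEq_iff_dvd] at h1
    rw [← Nat.div_add_mod v q, h, h1, Nat.div_add_mod]

theorem jac_main (A : ℕ) : ∃ y₀ : ℕ, ∀ (y n : ℕ) (N : ℤ), y₀ ≤ y → 1 ≤ n →
    (n.primeFactors.card : ℝ) ≤ √y * Real.log y ^ A →
    ∃ v : ℕ, v < y ∧ IsCoprime (N + v) (n : ℤ) := by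
  obtain ⟨y₁, h1⟩ := core (A + 3)
  obtain ⟨y₂, h2⟩ := core_big (2 * (A + 4))
  refine ⟨max y₁ y₂, fun y n N hy hn hω => ?_⟩
  obtain ⟨hy1, hL, hl, hlL⟩ := h2 y (le_of_max_le_right hy)
  have h3 := Real.one_le_sqrt.2 hy1
  obtain ⟨Z, hZ1, hZ2⟩ := exists_nat_pow_near
    (one_le_mul_of_one_le_of_one_le h3 (one_le_pow₀ (n := A + 3) hL)) one_lt_two
  have hZ3 : (2 : ℝ) ^ (Z + 1) ≤ 2 * (√y * Real.log y ^ (A + 3)) := by linarith [pow_succ (2 : ℝ) Z]
  have h4 := h1 y (Z + 1) N (le_of_max_le_left hy) hZ2.le hZ3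
  have hz : (0 : ℝ) < 2 ^ (Z + 1) := by positivity
  have h5 := core_log hy1 hL hz hZ3
  have e1 : (0 : ℝ) ≤ A := Nat.cast_nonneg A
  have e2 := mul_nonneg e1 (show 0 ≤ Real.log (Real.log y) by linarith)
  have h6 : (2 : ℝ) ^ (Z + 1) ≤ y := by
    rw [← Real.log_le_log_iff hz (by linarith)]
    push_cast at h5
    linarith
  by_contra! hc
  have h7 : sift N y 1 (2 ^ (Z + 1)) ≤ ∑ q ∈ n.primeFactors.filter (2 ^ (Z + 1) ≤ ·),
      ((range y).filter fun v : ℕ => (q : ℤ) ∣ N + v).card := by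
    refine le_trans (card_le_card fun v hv => ?_) card_biUnion_le
    obtain ⟨hv1, -, hv2⟩ := mem_filter.1 hv
    obtain ⟨q, hq, hq1⟩ := Nat.exists_prime_and_dvd
      (mt Int.isCoprime_iff_gcd_eq_one.2 (hc v (mem_range.1 hv1)))
    have hq2 := (Int.natCast_dvd_natCast.2 hq1).trans (Int.gcd_dvd_left _ _)
    have hq3 := (Int.natCast_dvd_natCast.2 hq1).trans (Int.gcd_dvd_right _ _)
    exact mem_biUnion.2 ⟨q, mem_filter.2 ⟨Nat.mem_primeFactors.2 ⟨hq, by exact_mod_cast hq3,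
      by omega⟩, not_lt.1 fun h => hv2 q (Nat.mem_primesBelow.2 ⟨h, hq⟩) hq2⟩,
      mem_filter.2 ⟨hv1, hq2⟩⟩
  have h8 := sum_le_card_nsmul (n.primeFactors.filter (2 ^ (Z + 1) ≤ ·))
    (fun q => (((range y).filter fun v : ℕ => (q : ℤ) ∣ N + v).card : ℝ))
    (2 * (y / (√y * Real.log y ^ (A + 3)))) fun q hq => by
      have h9 : (2 : ℝ) ^ (Z + 1) ≤ q := by exact_mod_cast (mem_filter.1 hq).2
      have h10 : 0 < √y * Real.log y ^ (A + 3) := by positivity
      have h11 := (one_le_div h10).2 (hZ2.le.trans h6)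
      have h12 := div_le_div_of_nonneg_left (zero_le_one.trans hy1) h10 (hZ2.le.trans h9)
      linarith [core_count N y q]
  rw [← Nat.cast_sum, nsmul_eq_mul] at h8
  have h9 := (h4.trans ((Nat.cast_le.2 h7).trans h8)).trans (mul_le_mul_of_nonneg_right
    ((Nat.cast_le.2 (card_filter_le _ _)).trans hω) (by positivity))
  have h10 : √y * Real.log y ^ A * (2 * (y / (√y * Real.log y ^ (A + 3)))) =
      y / Real.log y ^ 2 * (2 / Real.log y) := by
    field_simp
    ring
  rw [h10, le_mul_iff_one_le_right (by positivity), one_le_div (by linarith)] at h9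
  linarith

end Vale.Agent.P013
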