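import Mathlib

/-! P013 (Jacobsthal): shared definitions and their basic lemmas. -/

open Finset

namespace Vale.Agent.P013

/-- Product of a finite set of naturals. -/
def pr (s : Finset ℕ) : ℕ := ∏ p ∈ s, p

/-- The elements of `s` above `p`. -/
def above (s : Finset ℕ) (p : ℕ) : Finset ℕ := s.filter fun q => p < q

/-- The elements of `s` below `p`. -/
def below (s : Finset ℕ) (p : ℕ) : Finset ℕ := s.filter fun q => q < p

/-- Rosser's condition with exponent `b`, level `D`, tested at the elements having a number of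
larger elements congruent to `par` mod 2 (`par = 1`: lower sieve, `par = 0`: upper sieve). -/
def Ok (b par : ℕ) (D : ℝ) (s : Finset ℕ) : Prop :=
  ∀ p ∈ s, (above s p).card % 2 = par → (pr (above s p) : ℝ) * (p : ℝ) ^ b < D

/-- The least element (zero for the empty set). -/
noncomputable def lo (s : Finset ℕ) : ℕ := sInf (s : Set ℕ)

/-- A leaf of the Rosser tree: the condition fails for the first time at the least element. -/
def Leaf (b par : ℕ) (D : ℝ) (s : Finset ℕ) : Prop :=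
  s.Nonempty ∧ Ok b par D (s.erase (lo s)) ∧ ¬ Ok b par D s

open Classical in
/-- The subsets of `P` satisfying Rosser's condition. -/
noncomputable def okS (b par : ℕ) (D : ℝ) (P : Finset ℕ) : Finset (Finset ℕ) :=
  P.powerset.filter (Ok b par D)

open Classical in
/-- The leaves contained in `P`. -/
noncomputable def leafS (b par : ℕ) (D : ℝ) (P : Finset ℕ) : Finset (Finset ℕ) :=
  P.powerset.filter (Leaf b par D)

/-- Main term of Rosser's lower sieve of level `D` for the primes below `z`. -/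
noncomputable def Lam (D : ℝ) (z : ℕ) : ℝ :=
  ∑ s ∈ okS 3 1 D z.primesBelow, (-1 : ℝ) ^ s.card / (pr s : ℝ)

/-- Mertens product over the primes below `z`. -/
noncomputable def Vp (z : ℕ) : ℝ := ∏ p ∈ z.primesBelow, (1 - 1 / (p : ℝ))

/-- Number of multiples of `d` in `[N, N + y)` with no prime factor below `z`. -/
def sift (N : ℤ) (y d z : ℕ) : ℕ :=
  ((range y).filter fun v : ℕ => (d : ℤ) ∣ N + v ∧ ∀ q ∈ z.primesBelow, ¬ (q : ℤ) ∣ N + v).card

/-- The primes in `(x, x']`. -/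
noncomputable def PI (x x' : ℝ) : Finset ℕ := (Ioc ⌊x⌋₊ ⌊x'⌋₊).filter Nat.Prime

/-- The primes in `[2^j, 2^(j+1))`. -/
def box (j : ℕ) : Finset ℕ := (Ico (2 ^ j) (2 ^ (j + 1))).filter Nat.Prime

/-- The additive character `e(x)`. -/
noncomputable def ex (x : ℝ) : ℂ := Complex.exp (2 * Real.pi * x * Complex.I)

/-- The entire function `(s - 1) ζ(s)`. -/
noncomputable def Zf : ℂ → ℂ := Function.update (fun s => (s - 1) * riemannZeta s) 1 1

/-- The entire function `ζ(s) - 1 / (s - 1)`. -/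
noncomputable def zeta0 : ℂ → ℂ := dslope Zf 1

open Classical in
/-- Weight of the admissible sets of parity `par` of primes in `(p, z)` with product in
`[X, 2 X)`. -/
noncomputable def Bw (D : ℝ) (z par : ℕ) (p X : ℝ) : ℝ :=
  ∑ s ∈ (okS 3 1 D (z.primesBelow.filter fun q : ℕ => p < q)).filter
    (fun s => s.card % 2 = par ∧ X ≤ (pr s : ℝ) ∧ (pr s : ℝ) < 2 * X), 1 / (pr s : ℝ)

open Classical in
/-- The robust micro leaves. -/
noncomputable def good (D G t C : ℝ) (z : ℕ) : Finset (Finset ℕ) :=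
  z.primesBelow.powerset.filter fun s => s.Nonempty ∧ s.card % 2 = 0 ∧
    Ok 3 1 D (s.erase (lo s)) ∧ Real.exp G * D ≤ (pr s : ℝ) * (lo s : ℝ) ^ 2 ∧
    (pr s : ℝ) ^ 2 * (lo s : ℝ) ^ 3 ≤ D ^ 2 ∧ t / C ≤ Real.log (lo s) ∧ Real.log (lo s) ≤ C * t

/-- Cofactor of the selection `σ` among the candidates `B`. -/
def cof {R n : ℕ} (B : Fin R → Fin n → ℕ) (σ : Fin R → Fin n) : ℕ :=
  ∏ i, ∏ t ∈ univ.erase (σ i), B i t

/-- Signed sum of `2 k` values of `c`. -/
def sgnSum {S : Type} {k : ℕ} (c : S → ℕ) (w : (Fin k → S) × (Fin k → S)) : ℤ :=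
  ∑ j, (c (w.1 j) : ℤ) - ∑ j, (c (w.2 j) : ℤ)

/-- The idealised count used when the interval is concurrent with the rational point `c / q`. -/
def ideal (N c : ℤ) (y q r m z : ℕ) : ℕ :=
  ((range y).filter fun v : ℕ => (m : ℤ) ∣ c + q * v ∧ (r : ℤ) ∣ N + v ∧
    ∀ l ∈ z.primesBelow, ¬ (l : ℤ) ∣ N + v).card

theorem mem_okS {b par : ℕ} {D : ℝ} {P s : Finset ℕ} :
    s ∈ okS b par D P ↔ s ⊆ P ∧ Ok b par D s := by
  simp [okS]

theorem mem_leafS {b par : ℕ} {D : ℝ} {P s : Finset ℕ} :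
    s ∈ leafS b par D P ↔ s ⊆ P ∧ Leaf b par D s := by
  simp [leafS]

theorem mem_above {s : Finset ℕ} {p q : ℕ} : q ∈ above s p ↔ q ∈ s ∧ p < q := by simp [above]

theorem mem_below {s : Finset ℕ} {p q : ℕ} : q ∈ below s p ↔ q ∈ s ∧ q < p := by simp [below]

theorem mem_box {j q : ℕ} : q ∈ box j ↔ q.Prime ∧ 2 ^ j ≤ q ∧ q < 2 ^ (j + 1) := by
  simp [box, and_comm]

theorem mem_box' {j q : ℕ} : q ∈ box j ↔ q.Prime ∧ Nat.log 2 q = j := by
  rw [mem_box]
  refine and_congr_right fun hq => ?_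
  rw [Nat.log_eq_iff (Or.inr ⟨by norm_num, hq.ne_zero⟩)]

theorem mem_PI {x x' : ℝ} (hx : 0 ≤ x) {p : ℕ} :
    p ∈ PI x x' ↔ p.Prime ∧ x < p ∧ (p : ℝ) ≤ x' := by
  simp only [PI, mem_filter, mem_Ioc, Nat.floor_lt hx]
  constructor
  · rintro ⟨⟨h1, h2⟩, h3⟩
    have h0 : 0 ≤ x' := by
      by_contra h
      rw [Nat.floor_of_nonpos (le_of_lt (not_le.1 h))] at h2
      exact absurd h3.pos (by omega)
    exact ⟨h3, h1, (Nat.le_floor_iff h0).1 h2⟩
  · rintro ⟨h1, h2, h3⟩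
    exact ⟨⟨h2, Nat.le_floor h3⟩, h1⟩

theorem lo_mem {s : Finset ℕ} (hs : s.Nonempty) : lo s ∈ s :=
  Nat.sInf_mem (s := (s : Set ℕ)) hs

theorem lo_le {s : Finset ℕ} {q : ℕ} (hq : q ∈ s) : lo s ≤ q := Nat.sInf_le hq

theorem lo_eq {s : Finset ℕ} {q : ℕ} (hq : q ∈ s) (h : ∀ r ∈ s, q ≤ r) : lo s = q :=
  le_antisymm (lo_le hq) (h _ (lo_mem ⟨q, hq⟩))

theorem lo_insert {s : Finset ℕ} {q : ℕ} (h : ∀ r ∈ s, q < r) : lo (insert q s) = q :=
  lo_eq (mem_insert_self _ _) fun r hr => by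
    rcases mem_insert.1 hr with rfl | hr
    · exact le_rfl
    · exact (h r hr).le

theorem above_lo (s : Finset ℕ) : above s (lo s) = s.erase (lo s) := by
  ext q
  rw [mem_above, mem_erase]
  constructor
  · rintro ⟨h1, h2⟩; exact ⟨by omega, h1⟩
  · rintro ⟨h1, h2⟩; exact ⟨h2, lt_of_le_of_ne (lo_le h2) (Ne.symm h1)⟩

@[simp] theorem pr_empty : pr ∅ = 1 := by simp [pr]

theorem pr_insert {s : Finset ℕ} {q : ℕ} (h : q ∉ s) : pr (insert q s) = q * pr s := by
  simp [pr, prod_insert h]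

theorem pr_union {s t : Finset ℕ} (h : Disjoint s t) : pr (s ∪ t) = pr s * pr t := by
  simp [pr, prod_union h]

theorem pr_erase {s : Finset ℕ} {q : ℕ} (h : q ∈ s) : pr s = q * pr (s.erase q) := by
  rw [pr, pr, mul_prod_erase s (fun p => p) h]

theorem pr_pos {s : Finset ℕ} (h : ∀ p ∈ s, p.Prime) : 0 < pr s :=
  prod_pos fun p hp => (h p hp).pos

theorem pr_cast (s : Finset ℕ) : (pr s : ℝ) = ∏ p ∈ s, (p : ℝ) := by simp [pr]

theorem primeFactors_pr {s : Finset ℕ} (h : ∀ p ∈ s, p.Prime) : (pr s).primeFactors = s :=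
  Nat.primeFactors_prod h

theorem pr_injOn : Set.InjOn pr {s : Finset ℕ | ∀ p ∈ s, p.Prime} := fun s hs t ht h => by
  rw [← primeFactors_pr hs, h, primeFactors_pr ht]

theorem pr_dvd_iff {s : Finset ℕ} (h : ∀ p ∈ s, p.Prime) {n : ℤ} :
    (pr s : ℤ) ∣ n ↔ ∀ p ∈ s, (p : ℤ) ∣ n := by
  constructor
  · intro hn p hp
    exact (Int.natCast_dvd_natCast.2 (dvd_prod_of_mem _ hp)).trans hn
  · intro hn
    rw [pr, Nat.cast_prod]
    refine prod_dvd_of_coprime (fun p hp q hq hpq => ?_) hn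
    exact Nat.isCoprime_iff_coprime.2 ((Nat.coprime_primes (h p hp) (h q hq)).2 hpq)

theorem prime_dvd_pr {s : Finset ℕ} (h : ∀ p ∈ s, p.Prime) {q : ℕ} (hq : q.Prime) :
    q ∣ pr s ↔ q ∈ s := by
  have h1 : q ∈ (pr s).primeFactors ↔ q.Prime ∧ q ∣ pr s :=
    Nat.mem_primeFactors_of_ne_zero (pr_pos h).ne'
  rw [primeFactors_pr h] at h1
  rw [h1]; simp [hq]

theorem two_pow_card_le_pr {s : Finset ℕ} (h : ∀ p ∈ s, p.Prime) : 2 ^ s.card ≤ pr s :=
  pow_card_le_prod _ _ _ fun p hp => (h p hp).two_le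

theorem ex_add (x y : ℝ) : ex (x + y) = ex x * ex y := by
  rw [ex, ex, ex, ← Complex.exp_add]; congr 1; push_cast; ring

@[simp] theorem ex_zero : ex 0 = 1 := by simp [ex]

@[simp] theorem norm_ex (x : ℝ) : ‖ex x‖ = 1 := by
  have : ex x = Complex.exp (((2 * Real.pi * x : ℝ) : ℂ) * Complex.I) := by
    rw [ex]; push_cast; rfl
  rw [this, Complex.norm_exp_ofReal_mul_I]

theorem ex_int (m : ℤ) : ex m = 1 := by
  rw [ex, ← Complex.exp_int_mul_two_pi_mul_I m]; congr 1; push_cast; ring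

theorem ex_add_int (x : ℝ) (m : ℤ) : ex (x + m) = ex x := by rw [ex_add, ex_int, mul_one]

theorem conj_ex (x : ℝ) : (starRingEnd ℂ) (ex x) = ex (-x) := by
  rw [ex, ex, ← Complex.exp_conj]; congr 1; simp [map_ofNat]

theorem ex_nat_mul (n : ℕ) (x : ℝ) : ex (n * x) = ex x ^ n := by
  rw [ex, ex, ← Complex.exp_nat_mul]; congr 1; push_cast; ring

theorem ex_sum {ι : Type*} (s : Finset ι) (f : ι → ℝ) : ex (∑ i ∈ s, f i) = ∏ i ∈ s, ex (f i) := by
  classical
  induction s using Finset.induction_on with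
  | empty => simp
  | insert a s ha ih => rw [sum_insert ha, prod_insert ha, ex_add, ih]

theorem norm_ex_sub_one (x : ℝ) : ‖ex x - 1‖ ≤ 2 * Real.pi * |x| := by
  have : ex x = Complex.exp (Complex.I * ((2 * Real.pi * x : ℝ) : ℂ)) := by
    rw [ex]; congr 1; push_cast; ring
  rw [this]
  refine (Real.norm_exp_I_mul_ofReal_sub_one_le).trans ?_
  rw [Real.norm_eq_abs, abs_mul, abs_of_pos (by positivity : 0 < 2 * Real.pi)]

theorem norm_ex_sub_ex (x y : ℝ) : ‖ex x - ex y‖ ≤ 2 * Real.pi * |x - y| := by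
  have : ex x - ex y = ex y * (ex (x - y) - 1) := by
    rw [mul_sub, ← ex_add]; simp
  rw [this, norm_mul, norm_ex, one_mul]
  exact norm_ex_sub_one _

theorem ex_eq_one_iff {x : ℝ} : ex x = 1 ↔ ∃ m : ℤ, x = m := by
  rw [ex, Complex.exp_eq_one_iff]
  refine exists_congr fun m => ?_
  have h : (2 * Real.pi * Complex.I : ℂ) ≠ 0 := Complex.two_pi_I_ne_zero
  constructor
  · intro hm
    have : (x : ℂ) = m := mul_right_cancel₀ h (by rw [← hm]; ring)
    exact_mod_cast this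
  · rintro rfl; push_cast; ring

/-- Orthogonality. -/
theorem sum_ex_range {M : ℕ} (hM : 0 < M) (m : ℤ) :
    ∑ j ∈ range M, ex (j * m / M) = if (M : ℤ) ∣ m then (M : ℂ) else 0 := by
  have hM' : (M : ℝ) ≠ 0 := by positivity
  have h1 : ∀ j : ℕ, ex (j * m / M) = ex (m / M) ^ j := fun j => by
    rw [← ex_nat_mul, mul_div_assoc]
  simp only [h1]
  split_ifs with h
  · obtain ⟨c, rfl⟩ := h
    have : (((M : ℤ) * c : ℤ) : ℝ) / M = (c : ℤ) := by push_cast; field_simp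
    rw [this, ex_int]; simp
  · have h2 : ex (m / M) ≠ 1 := by
      rw [Ne, ex_eq_one_iff]
      rintro ⟨c, hc⟩
      refine h ⟨c, ?_⟩
      have : (m : ℝ) = M * c := by rw [← hc]; field_simp
      exact_mod_cast this
    rw [geom_sum_eq h2, ← ex_nat_mul, mul_div_cancel₀ _ hM', ex_int]
    simp

end Vale.Agent.P013
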