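import Vale.Agent.P013.Tree
import Vale.Agent.P013.Mertens

/-! Combinatorial lemmas: points and lines, averaging over families, Rankin's trick.

Proof plan.
* `points_lemma`: for a finite `T ⊆ 𝓛` with `S = ∑_{τ ∈ T} |X ∩ τ| ≥ |T| θ |X|`, Cauchy-Schwarz on
  the degrees gives `S^2 ≤ |X| (S + |T|^2 K)`; `S ≥ 2|X|` would force `θ^2 |X| ≤ 2K`. So
  `|T| < 2/θ`, `𝓛` is finite (`Set.Infinite.exists_subset_card_eq`), and at most `4K/θ^2`
  elements `y` (exceptional) lie on two points. If the first alternative fails there is a non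
  exceptional `y` whose free set has fewer than `|X|/4` elements; it lies on exactly one point
  `τ`, which covers more than `3/4` of `X`; two such points meet in `≥ |X|/2 > K` elements, so
  `τ` is the same for all such `y` (`θ ≤ 1` since `𝓛` is non empty).
* `family_avg`: `n i s = #{q ∈ s | log₂ q ∈ I i}`, `sel s = piFinset (fun i => {q ∈ s | log₂ q ∈ I i})`
  has `∏ n i s` elements. For `x ∈ piFinset (box (j i) \ m)` with `j i ∈ I i`, `x` is injective and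
  `n i (m ∪ image x) = n i m + 1`. Weight `w m = 1/∏ (n i m + 1)`. With `𝓐` the image of the pairs
  `(s, x)`, `s ∈ G`, `x ∈ sel s` under `(s \ image x, log₂ ∘ x)`:
  `∑_G φ = ∑_{(s,x)} φ s/∏ n i s ≤ ∑_{(m,j) ∈ 𝓐} w m ∑_x φ ≤ ∑_𝓐 w m ∑_x f
  ≤ ∑_{s ∈ Lv} ∑_{x ∈ sel s} f s/∏ n i s ≤ ∑_Lv f` (both maps `(s,x) ↦ (m,j,x)` and
  `(m,j,x) ↦ (m ∪ image x, x)` are injective).
* `ok_family`: `ok_replace` with `φ (x i) = x' i`, `c (x i) = 2`, identity elsewhere.
* `rankin`: `1 ≤ (pr s_<)^β 2^(-β b/4)`, `β = 1/(a log 2)`, `q^β ≤ e` for `q < 2^a`,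
  `∑_s ∏_{q ∈ s} (e/q) = ∏ (1 + e/q) ≤ ∏ (1 + 1/q)^3`, `prod_one_add_le`.
* `gap_smooth`: `s = s_< ∪ s_≥`, `s_≥ = {q ≥ 2^b}`, `D ≤ pr s p^2`. If `s_≥ = ∅` use `2^b ≤ D^2`;
  otherwise `ladder` at `q = lo s_≥ ≥ 2^b` in `s.erase p`. -/

open Finset

namespace Vale.Agent.P013

open Classical in
theorem points_card {T : Type} (on : T → ℕ → Prop) (X : Finset ℕ) (hX : X.Nonempty) {θ K : ℝ}
    (hθ : 0 < θ) (L : Finset T) (h1 : ∀ τ ∈ L, θ * X.card ≤ (X.filter (on τ)).card)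
    (h2 : ∀ τ ∈ L, ∀ τ' ∈ L, τ ≠ τ' → ((X.filter fun x => on τ x ∧ on τ' x).card : ℝ) ≤ K)
    (hK : 0 ≤ K) (h3 : 16 * K ≤ θ ^ 2 * X.card) : L.card * θ < 2 := by
  have hn : (0 : ℝ) < X.card := by exact_mod_cast card_pos.2 hX
  set S : ℝ := ∑ τ ∈ L, ((X.filter (on τ)).card : ℝ) with hS
  have a1 : L.card * (θ * X.card) ≤ S := by
    rw [← nsmul_eq_mul]
    exact card_nsmul_le_sum _ _ _ h1
  have a2 : S = ∑ x ∈ X, ∑ τ ∈ L, if on τ x then (1 : ℝ) else 0 := by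
    rw [sum_comm]
    simp [hS]
  have a3 : ∑ x ∈ X, (∑ τ ∈ L, if on τ x then (1 : ℝ) else 0) ^ 2 =
      ∑ τ ∈ L, ∑ τ' ∈ L, ((X.filter fun x => on τ x ∧ on τ' x).card : ℝ) := by
    simp only [sq, sum_mul_sum]
    rw [sum_comm]
    refine sum_congr rfl fun τ _ => ?_
    rw [sum_comm]
    refine sum_congr rfl fun τ' _ => ?_
    rw [card_filter]
    push_cast
    refine sum_congr rfl fun x _ => ?_
    by_cases b1 : on τ x <;> by_cases b2 : on τ' x <;> simp [b1, b2]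
  have a4 : ∑ τ ∈ L, ∑ τ' ∈ L, ((X.filter fun x => on τ x ∧ on τ' x).card : ℝ) ≤
      S + L.card * (L.card * K) := by
    rw [← nsmul_eq_mul, ← sum_const, hS, ← sum_add_distrib]
    refine sum_le_sum fun τ hτ => ?_
    rw [← add_sum_erase _ _ hτ]
    refine add_le_add (le_of_eq ?_) ?_
    · simp
    · refine (sum_le_card_nsmul _ _ K fun τ' hτ' =>
        h2 τ hτ τ' (mem_of_mem_erase hτ') (ne_of_mem_erase hτ').symm).trans ?_
      rw [nsmul_eq_mul]
      exact mul_le_mul_of_nonneg_right (by exact_mod_cast card_erase_le) hK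
  have a5 := sq_sum_le_card_mul_sum_sq (s := X)
    (f := fun x => ∑ τ ∈ L, if on τ x then (1 : ℝ) else 0)
  rw [← a2, a3] at a5
  have a6 : S ^ 2 ≤ X.card * (S + L.card * (L.card * K)) :=
    a5.trans (mul_le_mul_of_nonneg_left a4 hn.le)
  by_contra hc
  rw [not_lt] at hc
  generalize (X.card : ℝ) = n at *
  generalize (L.card : ℝ) = t at *
  have b1 : 2 * n ≤ t * (θ * n) := by nlinarith
  have b2 : 2 * n ≤ S := b1.trans a1
  have b3 : (t * (θ * n)) ^ 2 ≤ S ^ 2 := pow_le_pow_left₀ (by linarith) a1 2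
  have b4 : 2 * (n * S) ≤ S ^ 2 := by nlinarith
  have b5 : n * (t * (t * (16 * K))) ≤ n * (t * (t * (θ ^ 2 * n))) := by
    have := mul_le_mul_of_nonneg_left h3 (mul_nonneg hn.le (mul_self_nonneg t))
    linarith
  have b6 : 0 < (t * (θ * n)) ^ 2 := pow_pos (by linarith) 2
  nlinarith

open Classical in
theorem points_lemma {T : Type} (𝓛 : Set T) (on : T → ℕ → Prop) (X Y : Finset ℕ)
    (hX : X.Nonempty) {θ K δ : ℝ} (hθ : 0 < θ) (hK : 0 ≤ K)
    (h1 : ∀ τ ∈ 𝓛, θ * X.card ≤ (X.filter (on τ)).card)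
    (h2 : ∀ τ ∈ 𝓛, ∀ τ' ∈ 𝓛, τ ≠ τ' → ((X.filter fun x => on τ x ∧ on τ' x).card : ℝ) ≤ K ∧
      ((Y.filter fun x => on τ x ∧ on τ' x).card : ℝ) ≤ K)
    (h3 : 16 * K ≤ θ ^ 2 * X.card) (h4 : δ + 4 * K / θ ^ 2 < Y.card) :
    δ ≤ (Y.filter fun y => (X.card : ℝ) ≤
        4 * (X.filter fun x => ¬ ∃ τ ∈ 𝓛, on τ y ∧ on τ x).card).card ∨
      ∃ τ ∈ 𝓛, 3 * (X.card : ℝ) ≤ 4 * (X.filter (on τ)).card ∧
        ((Y.filter fun y => ¬ on τ y).card : ℝ) ≤ δ + 4 * K / θ ^ 2 := by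
  have hn : (0 : ℝ) < X.card := by exact_mod_cast card_pos.2 hX
  have hfin : 𝓛.Finite := by
    by_contra hinf
    obtain ⟨L, hL, hc⟩ := Set.Infinite.exists_subset_card_eq hinf ⌈2 / θ⌉₊
    have h5 := points_card on X hX hθ L (fun τ hτ => h1 τ (hL hτ))
      (fun τ hτ τ' hτ' hne => (h2 τ (hL hτ) τ' (hL hτ') hne).1) hK h3
    rw [hc] at h5
    have h6 := Nat.le_ceil (2 / θ)
    rw [div_le_iff₀ hθ] at h6
    linarith
  set L := hfin.toFinset with hL
  have hmem : ∀ τ, τ ∈ L ↔ τ ∈ 𝓛 := fun τ => hfin.mem_toFinset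
  have h5 := points_card on X hX hθ L (fun τ hτ => h1 τ ((hmem τ).1 hτ))
    (fun τ hτ τ' hτ' hne => (h2 τ ((hmem τ).1 hτ) τ' ((hmem τ').1 hτ') hne).1) hK h3
  set E := L.offDiag.biUnion fun p => Y.filter fun x => on p.1 x ∧ on p.2 x with hE
  have hEc : (E.card : ℝ) ≤ 4 * K / θ ^ 2 := by
    have a1 : (E.card : ℝ) ≤ ∑ p ∈ L.offDiag, ((Y.filter fun x => on p.1 x ∧ on p.2 x).card : ℝ) := by
      exact_mod_cast card_biUnion_le
    have a2 : ∑ p ∈ L.offDiag, ((Y.filter fun x => on p.1 x ∧ on p.2 x).card : ℝ) ≤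
        L.offDiag.card • K := sum_le_card_nsmul _ _ _ fun p hp => by
      obtain ⟨b1, b2, b3⟩ := mem_offDiag.1 hp
      exact (h2 _ ((hmem _).1 b1) _ ((hmem _).1 b2) b3).2
    have a3 : (L.offDiag.card : ℝ) ≤ (L.card : ℝ) ^ 2 := by
      rw [offDiag_card, sq]
      exact_mod_cast Nat.sub_le _ _
    have a4 : (L.card : ℝ) ^ 2 * θ ^ 2 ≤ 4 := by
      rw [← mul_pow]
      have : (0 : ℝ) ≤ L.card * θ := by positivity
      nlinarith
    rw [nsmul_eq_mul] at a2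
    rw [le_div_iff₀ (by positivity)]
    have a5 := mul_le_mul_of_nonneg_right a3 hK
    have a6 := mul_le_mul_of_nonneg_right a4 hK
    nlinarith [mul_le_mul_of_nonneg_right (a1.trans (a2.trans a5)) (sq_nonneg θ)]
  by_contra hcon
  rw [not_or, not_le] at hcon
  obtain ⟨hG, hcon⟩ := hcon
  set Gd := Y.filter fun y => (X.card : ℝ) ≤
    4 * (X.filter fun x => ¬ ∃ τ ∈ 𝓛, on τ y ∧ on τ x).card with hGd
  have hU : ((Gd ∪ E).card : ℝ) ≤ δ + 4 * K / θ ^ 2 := by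
    have : ((Gd ∪ E).card : ℝ) ≤ Gd.card + E.card := by exact_mod_cast card_union_le _ _
    linarith
  have key : ∀ y ∈ Y, y ∉ Gd ∪ E → ∃ τ ∈ 𝓛, on τ y ∧
      3 * (X.card : ℝ) < 4 * (X.filter (on τ)).card := by
    intro y hy hn'
    rw [mem_union, not_or, hGd, mem_filter, not_and, not_le] at hn'
    have b1 := hn'.1 hy
    have b2 : ((X.filter fun x => ∃ τ ∈ 𝓛, on τ y ∧ on τ x).card : ℝ) +
        (X.filter fun x => ¬ ∃ τ ∈ 𝓛, on τ y ∧ on τ x).card = X.card := by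
      exact_mod_cast card_filter_add_card_filter_not _
    have b3 : (X.filter fun x => ∃ τ ∈ 𝓛, on τ y ∧ on τ x).Nonempty := by
      rw [← card_pos]
      have : (0 : ℝ) < (X.filter fun x => ∃ τ ∈ 𝓛, on τ y ∧ on τ x).card := by linarith
      exact_mod_cast this
    obtain ⟨x, hx⟩ := b3
    obtain ⟨τ, hτ, hτy, -⟩ := (mem_filter.1 hx).2
    refine ⟨τ, hτ, hτy, ?_⟩
    have b4 : (X.filter fun x => ∃ τ ∈ 𝓛, on τ y ∧ on τ x) ⊆ X.filter (on τ) := fun x hx => by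
      obtain ⟨c1, τ', c2, c3, c4⟩ := mem_filter.1 hx
      refine mem_filter.2 ⟨c1, ?_⟩
      by_cases e : τ' = τ
      · exact e ▸ c4
      · exact absurd (mem_biUnion.2 ⟨(τ', τ), mem_offDiag.2 ⟨(hmem _).2 c2, (hmem _).2 hτ, e⟩,
          mem_filter.2 ⟨hy, c3, hτy⟩⟩) hn'.2
    have b5 : ((X.filter fun x => ∃ τ ∈ 𝓛, on τ y ∧ on τ x).card : ℝ) ≤
        (X.filter (on τ)).card := by exact_mod_cast card_le_card b4
    linarith
  obtain ⟨y0, hy0, hy0'⟩ := exists_mem_notMem_of_card_lt_card (s := Gd ∪ E) (t := Y)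
    (by exact_mod_cast hU.trans_lt h4)
  obtain ⟨τ0, hτ0, -, hτ0'⟩ := key y0 hy0 hy0'
  refine hcon ⟨τ0, hτ0, hτ0'.le, le_trans ?_ hU⟩
  have hθ1 : θ ≤ 1 := by
    have c1 : ((X.filter (on τ0)).card : ℝ) ≤ X.card := by exact_mod_cast card_filter_le _ _
    have c2 := h1 τ0 hτ0
    by_contra c3
    nlinarith
  refine Nat.cast_le.2 (card_le_card fun y hy => ?_)
  by_contra hy'
  obtain ⟨τ, hτ, c1, c2⟩ := key y (mem_filter.1 hy).1 hy'
  have hne : τ ≠ τ0 := fun e => (mem_filter.1 hy).2 (e ▸ c1)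
  have c3 := (h2 τ hτ τ0 hτ0 hne).1
  have c4 : ((X.filter (on τ)).card : ℝ) + (X.filter (on τ0)).card ≤
      X.card + (X.filter fun x => on τ x ∧ on τ0 x).card := by
    have d1 := card_union_add_card_inter (X.filter (on τ)) (X.filter (on τ0))
    have d2 : (X.filter (on τ) ∪ X.filter (on τ0)).card ≤ X.card :=
      card_le_card (union_subset (filter_subset _ _) (filter_subset _ _))
    have d3 : (X.filter (on τ) ∩ X.filter (on τ0)).card ≤
        (X.filter fun x => on τ x ∧ on τ0 x).card := card_le_card fun x hx => by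
      simp only [mem_inter, mem_filter] at hx ⊢
      exact ⟨hx.1.1, hx.1.2, hx.2.2⟩
    exact_mod_cast (by omega)
  have c5 : θ ^ 2 * X.card ≤ X.card := mul_le_of_le_one_left hn.le (by nlinarith)
  linarith

theorem sum_le_of_inj {α β : Type*} {s : Finset α} {t : Finset β} (e : α → β)
    (he : ∀ a ∈ s, e a ∈ t) (hi : Set.InjOn e s) {f : α → ℝ} {g : β → ℝ}
    (hfg : ∀ a ∈ s, f a ≤ g (e a)) (hg : ∀ b ∈ t, 0 ≤ g b) : ∑ a ∈ s, f a ≤ ∑ b ∈ t, g b := by
  classical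
  refine (sum_le_sum hfg).trans ?_
  rw [← sum_image (f := g) hi]
  exact sum_le_sum_of_subset_of_nonneg (image_subset_iff.2 he) fun b hb _ => hg b hb

theorem family_avg {ι : Type} [Fintype ι] [DecidableEq ι] (I : ι → Finset ℕ)
    (hI : ∀ i i', i ≠ i' → Disjoint (I i) (I i')) (Lv G : Finset (Finset ℕ))
    (f φ : Finset ℕ → ℝ) (hf : ∀ s, 0 ≤ f s) (hφ : ∀ s, 0 ≤ φ s)
    (hG : ∀ s ∈ G, (∀ q ∈ s, q.Prime) ∧ ∀ i, ∃ q ∈ s, Nat.log 2 q ∈ I i)
    (H : ∀ (m : Finset ℕ) (j x : ι → ℕ), (∀ i, j i ∈ I i) →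
      x ∈ Fintype.piFinset (fun i => box (j i) \ m) → m ∪ univ.image x ∈ G →
      (∀ x' ∈ Fintype.piFinset (fun i => box (j i) \ m), m ∪ univ.image x' ∈ Lv) ∧
        ∑ x' ∈ Fintype.piFinset (fun i => box (j i) \ m), φ (m ∪ univ.image x') ≤
          ∑ x' ∈ Fintype.piFinset (fun i => box (j i) \ m), f (m ∪ univ.image x')) :
    ∑ s ∈ G, φ s ≤ ∑ s ∈ Lv, f s := by
  classical
  set nb : ι → Finset ℕ → Finset ℕ := fun i s => s.filter fun q => Nat.log 2 q ∈ I i with hnb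
  set sel : Finset ℕ → Finset (ι → ℕ) := fun s => Fintype.piFinset fun i => nb i s with hsel
  set W : Finset ℕ → ℝ := fun s => ∏ i, ((nb i s).card : ℝ) with hW
  set w : Finset ℕ → ℝ := fun m => ∏ i, (((nb i m).card : ℝ) + 1) with hw
  have hW0 : ∀ s, 0 ≤ W s := fun s => prod_nonneg fun i _ => Nat.cast_nonneg _
  have hw0 : ∀ s, 0 ≤ w s := fun s => prod_nonneg fun i _ => by positivity
  have hc : ∀ s, ((sel s).card : ℝ) = W s := fun s => by
    simp only [hsel, hW, Fintype.card_piFinset, Nat.cast_prod]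
  set Pj : Finset ℕ × (ι → ℕ) → Finset (ι → ℕ) :=
    fun a => Fintype.piFinset fun i => box (a.2 i) \ a.1 with hPj
  have hlog : ∀ a, ∀ x ∈ Pj a, ∀ i, Nat.log 2 (x i) = a.2 i ∧ x i ∉ a.1 := fun a x hx i => by
    have := mem_sdiff.1 (Fintype.mem_piFinset.1 hx i)
    exact ⟨(mem_box'.1 this.1).2, this.2⟩
  have hWw : ∀ a : Finset ℕ × (ι → ℕ), (∀ i, a.2 i ∈ I i) → ∀ x ∈ Pj a,
      W (a.1 ∪ univ.image x) = w a.1 ∧ x ∈ sel (a.1 ∪ univ.image x) := fun a ha x hx => by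
    have e : ∀ i, nb i (a.1 ∪ univ.image x) = insert (x i) (nb i a.1) := fun i => by
      ext q
      simp only [hnb, mem_filter, mem_union, mem_image, mem_univ, true_and, mem_insert]
      constructor
      · rintro ⟨h1 | ⟨i', rfl⟩, h2⟩
        · exact Or.inr ⟨h1, h2⟩
        · by_cases e : i' = i
          · exact Or.inl (by rw [e])
          · rw [(hlog a x hx i').1] at h2
            exact absurd h2 (disjoint_left.1 (hI i' i e) (ha i'))
      · rintro (rfl | h1)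
        · exact ⟨Or.inr ⟨i, rfl⟩, by rw [(hlog a x hx i).1]; exact ha i⟩
        · exact ⟨Or.inl h1.1, h1.2⟩
    refine ⟨prod_congr rfl fun i _ => ?_, Fintype.mem_piFinset.2 fun i => ?_⟩
    · rw [e, card_insert_of_notMem fun h => (hlog a x hx i).2 (mem_filter.1 h).1]
      push_cast
      rfl
    · rw [e]
      exact mem_insert_self _ _
  set e1 : (Σ _ : Finset ℕ, ι → ℕ) → Finset ℕ × (ι → ℕ) :=
    fun p => (p.1 \ univ.image p.2, fun i => Nat.log 2 (p.2 i)) with he1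
  have hP : ∀ p ∈ G.sigma sel, (∀ i, (e1 p).2 i ∈ I i) ∧ p.2 ∈ Pj (e1 p) ∧
      (e1 p).1 ∪ univ.image p.2 = p.1 := fun p hp => by
    obtain ⟨a1, a2⟩ := mem_sigma.1 hp
    have a3 := fun i => mem_filter.1 (Fintype.mem_piFinset.1 a2 i)
    refine ⟨fun i => (a3 i).2, Fintype.mem_piFinset.2 fun i => mem_sdiff.2
      ⟨mem_box'.2 ⟨(hG _ a1).1 _ (a3 i).1, rfl⟩, fun h => (mem_sdiff.1 h).2 ?_⟩,
      sdiff_union_of_subset (image_subset_iff.2 fun i _ => (a3 i).1)⟩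
    exact mem_image_of_mem _ (mem_univ i)
  set A := (G.sigma sel).image e1 with hA
  have hAm : ∀ a ∈ A, (∀ i, a.2 i ∈ I i) ∧ (∀ x' ∈ Pj a, a.1 ∪ univ.image x' ∈ Lv) ∧
      ∑ x' ∈ Pj a, φ (a.1 ∪ univ.image x') ≤ ∑ x' ∈ Pj a, f (a.1 ∪ univ.image x') := fun a ha => by
    obtain ⟨p, hp, rfl⟩ := mem_image.1 ha
    obtain ⟨b1, b2, b3⟩ := hP p hp
    exact ⟨b1, H _ _ p.2 b1 b2 (by rw [b3]; exact (mem_sigma.1 hp).1)⟩
  calc ∑ s ∈ G, φ s = ∑ s ∈ G, ∑ x ∈ sel s, φ s / W s := by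
        refine sum_congr rfl fun s hs => ?_
        have : 0 < W s := prod_pos fun i _ => by
          obtain ⟨q, h1, h2⟩ := (hG s hs).2 i
          exact_mod_cast card_pos.2 ⟨q, mem_filter.2 ⟨h1, h2⟩⟩
        rw [sum_const, nsmul_eq_mul, hc, mul_div_cancel₀ _ this.ne']
    _ = ∑ p ∈ G.sigma sel, φ p.1 / W p.1 := by rw [sum_sigma]
    _ ≤ ∑ p ∈ A.sigma Pj, φ (p.1.1 ∪ univ.image p.2) / w p.1.1 := by
        refine sum_le_of_inj (β := Σ _ : Finset ℕ × (ι → ℕ), ι → ℕ) (fun p => ⟨e1 p, p.2⟩)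
          (fun p hp => mem_sigma.2 ⟨mem_image_of_mem e1 hp, (hP p hp).2.1⟩)
          (fun p hp p' hp' h => ?_) (fun p hp => le_of_eq ?_)
          fun p _ => div_nonneg (hφ _) (hw0 _)
        · have b1 : e1 p = e1 p' := congrArg Sigma.fst h
          have b2 : p.2 = p'.2 := congrArg (fun q : (Σ _ : Finset ℕ × (ι → ℕ), ι → ℕ) => q.2) h
          refine Sigma.ext ?_ (heq_of_eq b2)
          rw [← (hP p hp).2.2, ← (hP p' hp').2.2, b1, b2]
        · obtain ⟨b1, b2, b3⟩ := hP p hp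
          simp only
          rw [← (hWw _ b1 _ b2).1, b3]
    _ = ∑ a ∈ A, (∑ x ∈ Pj a, φ (a.1 ∪ univ.image x)) / w a.1 := by
        rw [sum_sigma]
        simp only [sum_div]
    _ ≤ ∑ a ∈ A, (∑ x ∈ Pj a, f (a.1 ∪ univ.image x)) / w a.1 :=
        sum_le_sum fun a ha => div_le_div_of_nonneg_right (hAm a ha).2.2 (hw0 _)
    _ = ∑ p ∈ A.sigma Pj, f (p.1.1 ∪ univ.image p.2) / w p.1.1 := by
        rw [sum_sigma]
        simp only [sum_div]
    _ ≤ ∑ p ∈ Lv.sigma sel, f p.1 / W p.1 := by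
        refine sum_le_of_inj (β := Σ _ : Finset ℕ, ι → ℕ)
          (fun p => ⟨p.1.1 ∪ univ.image p.2, p.2⟩)
          (fun p hp => ?_) (fun p hp p' hp' h => ?_) (fun p hp => le_of_eq ?_)
          fun p _ => div_nonneg (hf _) (hW0 _)
        · obtain ⟨b1, b2⟩ := mem_sigma.1 hp
          exact mem_sigma.2 ⟨(hAm _ b1).2.1 _ b2, (hWw _ (hAm _ b1).1 _ b2).2⟩
        · have b1 : p.1.1 ∪ univ.image p.2 = p'.1.1 ∪ univ.image p'.2 := congrArg Sigma.fst h
          have b2 : p.2 = p'.2 := congrArg (fun q : (Σ _ : Finset ℕ, ι → ℕ) => q.2) h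
          have b3 := hlog _ _ (mem_sigma.1 hp).2
          have b4 := hlog _ _ (mem_sigma.1 hp').2
          have b5 : ∀ (m : Finset ℕ) (x : ι → ℕ), (∀ i, x i ∉ m) →
              (m ∪ univ.image x) \ univ.image x = m := fun m x hx =>
            union_sdiff_cancel_right (disjoint_right.2 fun q hq => by
              obtain ⟨i, -, rfl⟩ := mem_image.1 hq
              exact hx i)
          refine Sigma.ext (Prod.ext ?_ (funext fun i => ?_)) (heq_of_eq b2)
          · rw [← b5 _ _ fun i => (b3 i).2, b1, b2, b5 _ _ fun i => (b4 i).2]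
          · rw [← (b3 i).1, ← (b4 i).1, b2]
        · obtain ⟨b1, b2⟩ := mem_sigma.1 hp
          simp only
          rw [(hWw _ (hAm _ b1).1 _ b2).1]
    _ = ∑ s ∈ Lv, ∑ x ∈ sel s, f s / W s := by rw [sum_sigma]
    _ ≤ ∑ s ∈ Lv, f s := by
        refine sum_le_sum fun s _ => ?_
        rw [sum_const, nsmul_eq_mul, hc]
        rcases (hW0 s).eq_or_lt with h | h
        · rw [← h, zero_mul]
          exact hf s
        · rw [mul_div_cancel₀ _ h.ne']

theorem family_inj {ι : Type} [Fintype ι] [DecidableEq ι] {m : Finset ℕ} {j x : ι → ℕ}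
    (hj : Function.Injective j) (hx : x ∈ Fintype.piFinset (fun i => box (j i) \ m)) :
    Function.Injective x ∧ ∀ i, x i ∉ m := by
  have h := fun i => mem_sdiff.1 (Fintype.mem_piFinset.1 hx i)
  refine ⟨fun i k e => hj ?_, fun i => (h i).2⟩
  rw [← (mem_box'.1 (h i).1).2, ← (mem_box'.1 (h k).1).2, e]

theorem pr_family {ι : Type} [Fintype ι] [DecidableEq ι] {m : Finset ℕ} {j x : ι → ℕ}
    (hj : Function.Injective j) (hx : x ∈ Fintype.piFinset (fun i => box (j i) \ m)) :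
    pr (m ∪ univ.image x) = pr m * ∏ i, x i ∧
      (m ∪ univ.image x).card = m.card + Fintype.card ι := by
  obtain ⟨h1, h2⟩ := family_inj hj hx
  have hd : Disjoint m (univ.image x) := disjoint_right.2 fun q hq => by
    obtain ⟨i, -, rfl⟩ := mem_image.1 hq
    exact h2 i
  rw [pr_union hd, card_union_of_disjoint hd, card_image_of_injective _ h1, card_univ]
  refine ⟨?_, rfl⟩
  congr 1
  exact prod_image h1.injOn

theorem ok_family {ι : Type} [Fintype ι] [DecidableEq ι] {b par : ℕ} (hb : 1 ≤ b) {D : ℝ}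
    {m : Finset ℕ} (hm : ∀ q ∈ m, 1 ≤ q) {j x x' : ι → ℕ} (hj : Function.Injective j)
    (hx : x ∈ Fintype.piFinset (fun i => box (j i) \ m))
    (hx' : x' ∈ Fintype.piFinset (fun i => box (j i) \ m)) {p : ℕ} (hp : p ∈ m)
    (h : Ok b par D ((m ∪ univ.image x).erase p)) :
    Ok b par (D * (2 ^ Fintype.card ι) ^ b) ((m ∪ univ.image x').erase p) := by
  classical
  obtain ⟨h1, h2⟩ := family_inj hj hx
  obtain ⟨h1', h2'⟩ := family_inj hj hx'
  have f1 : ∀ i, Function.extend x x' id (x i) = x' i := fun i => h1.extend_apply x' id i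
  have f2 : ∀ q ∈ m, Function.extend x x' id q = q := fun q hq =>
    Function.extend_apply' x' id q fun ⟨i, hi⟩ => h2 i (hi ▸ hq)
  have hb1 := fun i => mem_box.1 (mem_sdiff.1 (Fintype.mem_piFinset.1 hx i)).1
  have hb2 := fun i => mem_box.1 (mem_sdiff.1 (Fintype.mem_piFinset.1 hx' i)).1
  have hcase : ∀ q ∈ (m ∪ univ.image x).erase p, (q ∈ m ∧ q ∉ univ.image x) ∨ ∃ i, x i = q :=
    fun q hq => by
      by_cases h3 : q ∈ univ.image x
      · obtain ⟨i, -, hi⟩ := mem_image.1 h3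
        exact Or.inr ⟨i, hi⟩
      · exact Or.inl ⟨(mem_union.1 (mem_of_mem_erase hq)).resolve_right h3, h3⟩
  have key := ok_replace hb h (fun q hq => by
      rcases hcase q hq with h3 | ⟨i, rfl⟩
      · exact hm q h3.1
      · exact (hb1 i).1.one_le) (Function.extend x x' id) (fun q hq r hr e => by
      rcases hcase q hq with h3 | ⟨i, rfl⟩ <;> rcases hcase r hr with h4 | ⟨k, rfl⟩
      · rwa [f2 q h3.1, f2 r h4.1] at e
      · rw [f2 q h3.1, f1] at e
        exact absurd (e ▸ h3.1) (h2' k)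
      · rw [f2 r h4.1, f1] at e
        exact absurd (e ▸ h4.1) (h2' i)
      · rw [f1, f1] at e
        rw [h1' e])
    (fun q => if q ∈ univ.image x then 2 else 1) (fun q hq => by
      rcases hcase q hq with h3 | ⟨i, rfl⟩
      · rw [if_neg h3.2, f2 q h3.1, one_mul]
        exact ⟨le_rfl, le_rfl⟩
      · rw [if_pos (mem_image_of_mem _ (mem_univ i)), f1]
        refine ⟨one_le_two, ?_⟩
        have a1 := (hb1 i).2.1
        have a2 := (hb2 i).2.2
        rw [pow_succ] at a2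
        exact_mod_cast (by omega))
  have e1 : ((m ∪ univ.image x).erase p).image (Function.extend x x' id) =
      (m ∪ univ.image x').erase p := by
    ext r
    simp only [mem_image, mem_erase, mem_union, mem_univ, true_and]
    constructor
    · rintro ⟨q, ⟨a1, a2 | ⟨i, rfl⟩⟩, rfl⟩
      · rw [f2 q a2]
        exact ⟨a1, Or.inl a2⟩
      · rw [f1]
        exact ⟨fun e => h2' i (e ▸ hp), Or.inr ⟨i, rfl⟩⟩
    · rintro ⟨a1, a2 | ⟨i, rfl⟩⟩
      · exact ⟨r, ⟨a1, Or.inl a2⟩, f2 r a2⟩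
      · exact ⟨x i, ⟨fun e => h2 i (e ▸ hp), Or.inr ⟨i, rfl⟩⟩, f1 i⟩
  have e2 : ∏ q ∈ (m ∪ univ.image x).erase p, (if q ∈ univ.image x then (2 : ℝ) else 1) =
      2 ^ Fintype.card ι := by
    rw [prod_ite_mem, prod_const, inter_eq_right.2, card_image_of_injective _ h1, card_univ]
    intro q hq
    obtain ⟨i, -, rfl⟩ := mem_image.1 hq
    exact mem_erase.2 ⟨fun e => h2 i (e ▸ hp), mem_union_right _ hq⟩
  rwa [e1, e2] at key

theorem sum_piFinset_roles {R : ℕ} (Q : Fin R ⊕ Fin 3 → Finset ℕ)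
    (F : (Fin R ⊕ Fin 3 → ℕ) → ℝ) :
    ∑ x ∈ Fintype.piFinset Q, F x = ∑ a ∈ Q (.inr 0), ∑ b ∈ Q (.inr 1),
      ∑ u ∈ Fintype.piFinset (fun i => Q (.inl i)), ∑ c ∈ Q (.inr 2),
        F (Sum.elim u ![a, b, c]) := by
  simp only [← sum_product']
  refine sum_nbij' (fun x => (x (.inr 0), x (.inr 1), fun i => x (.inl i), x (.inr 2)))
    (fun p => Sum.elim p.2.2.1 ![p.1, p.2.1, p.2.2.2]) (fun x hx => ?_) (fun p hp => ?_)
    (fun x _ => ?_) (fun p _ => rfl) (fun x _ => ?_)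
  · simp only [mem_product, Fintype.mem_piFinset] at hx ⊢
    exact ⟨hx _, hx _, fun i => hx _, hx _⟩
  · simp only [mem_product, Fintype.mem_piFinset] at hp ⊢
    rintro (i | i)
    · exact hp.2.2.1 i
    · fin_cases i
      · exact hp.1
      · exact hp.2.1
      · exact hp.2.2.2
  · funext i
    rcases i with i | i
    · rfl
    · fin_cases i <;> rfl
  · congr 1
    funext i
    rcases i with i | i
    · rfl
    · fin_cases i <;> rfl

theorem rankin : ∃ C : ℝ, 0 < C ∧ ∀ z a b : ℕ, 2 ≤ z → 1 ≤ a →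
    ∑ s ∈ z.primesBelow.powerset.filter (fun s => 2 ^ b ≤ pr (below s (2 ^ a)) ^ 4),
      1 / (pr s : ℝ) ≤ Real.exp (-(b / (4 * a))) * (C * Real.log z) ^ 3 := by
  obtain ⟨C, hC, h⟩ := prod_one_add_le
  refine ⟨C, hC, fun z a b hz ha => ?_⟩
  have h1 : ∀ s ∈ z.primesBelow.powerset.filter (fun s => 2 ^ b ≤ pr (below s (2 ^ a)) ^ 4),
      1 / (pr s : ℝ) ≤ Real.exp (-(b / (4 * a))) * ∏ q ∈ s, (3 * (1 / (q : ℝ))) := fun s hs => by
    have a1 := (mem_filter.1 hs).2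
    have a2 : pr (below s (2 ^ a)) ≤ (2 ^ a) ^ s.card :=
      (prod_le_pow_card _ _ _ fun q hq => (mem_below.1 hq).2.le).trans
        (Nat.pow_le_pow_right (by positivity) (card_filter_le _ _))
    have a3 : b ≤ a * s.card * 4 := by
      have := a1.trans (Nat.pow_le_pow_left a2 4)
      rw [← pow_mul, ← pow_mul] at this
      have := (Nat.pow_le_pow_iff_right (by norm_num)).1 this
      linarith
    have a4 : (b : ℝ) / (4 * a) ≤ s.card := by
      rw [div_le_iff₀ (by positivity)]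
      exact_mod_cast (by linarith)
    have a5 : Real.exp (b / (4 * a)) ≤ 3 ^ s.card := by
      refine (Real.exp_le_exp.2 a4).trans ?_
      rw [← mul_one (s.card : ℝ), Real.exp_nat_mul]
      exact pow_le_pow_left₀ (Real.exp_pos _).le (by linarith [Real.exp_one_lt_d9]) _
    rw [prod_mul_distrib, prod_const, prod_div_distrib, prod_const_one, ← pr_cast, ← mul_assoc]
    refine le_mul_of_one_le_left (by positivity) ?_
    rw [Real.exp_neg, ← div_eq_inv_mul, one_le_div (Real.exp_pos _)]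
    exact a5
  refine (sum_le_sum h1).trans ?_
  rw [← mul_sum]
  refine mul_le_mul_of_nonneg_left ?_ (Real.exp_pos _).le
  refine (sum_le_sum_of_subset_of_nonneg (filter_subset _ _)
    fun s _ _ => prod_nonneg fun q _ => by positivity).trans ?_
  rw [← prod_one_add]
  refine le_trans ?_ (pow_le_pow_left₀ (prod_nonneg fun q _ => by positivity) (h z hz) 3)
  rw [← prod_pow]
  refine prod_le_prod (fun q _ => by positivity) fun q _ => ?_
  have := one_add_mul_le_pow (a := 1 / (q : ℝ)) (le_trans (by norm_num) (by positivity : (0 : ℝ) ≤ _)) 3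
  exact_mod_cast this

theorem gap_smooth {D G t C : ℝ} {z a b : ℕ} (hz : (z : ℝ) ^ 3 ≤ D ^ 2) (hD : 1 ≤ D)
    (hG : 0 ≤ G) {s : Finset ℕ} (hs : s ∈ good D G t C z) (hab : a ≤ b)
    (h1 : lo s < 2 ^ a) (h2 : lo s ^ 8 ≤ 2 ^ b) (h3 : (2 : ℝ) ^ b ≤ D ^ 2)
    (hgap : ∀ q ∈ s, Nat.log 2 q ∉ Ico a b) : 2 ^ b ≤ pr (below s (2 ^ a)) ^ 4 := by
  simp only [good, mem_filter, mem_powerset] at hs
  obtain ⟨hsub, hne, -, hok, hGD, -⟩ := hs
  have hp : ∀ q ∈ s, q.Prime := fun q hq => Nat.prime_of_mem_primesBelow (hsub hq)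
  have hab' : 2 ^ a ≤ 2 ^ b := Nat.pow_le_pow_right (by norm_num) hab
  set u := s.filter fun q => ¬ q < 2 ^ a with hu
  have hub : ∀ q ∈ u, 2 ^ b ≤ q := fun q hq => by
    obtain ⟨a1, a2⟩ := mem_filter.1 hq
    have a3 := hgap q a1
    rw [mem_Ico, not_and, not_lt] at a3
    have a4 := (hp q a1).ne_zero
    exact (Nat.le_log_iff_pow_le (by norm_num) a4).1
      (a3 ((Nat.le_log_iff_pow_le (by norm_num) a4).2 (not_lt.1 a2)))
  have e1 : pr s = pr (below s (2 ^ a)) * pr u := by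
    rw [pr, pr, pr, below, hu, prod_filter_mul_prod_filter_not]
  have e2 : (pr u : ℝ) ^ 2 * 2 ^ b ≤ D ^ 2 := by
    rcases u.eq_empty_or_nonempty with he | hne'
    · simpa [he] using h3
    · have a1 := lo_mem hne'
      have a2 := hub _ a1
      have a3 := ladder hz hD ((erase_subset _ _).trans hsub) hok (q := lo u)
        (mem_erase.2 ⟨by omega, (mem_filter.1 a1).1⟩)
      have a4 : ((s.erase (lo s)).filter fun r => lo u ≤ r) = u := by
        ext r
        simp only [mem_filter, mem_erase]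
        constructor
        · rintro ⟨⟨-, b1⟩, b2⟩
          exact mem_filter.2 ⟨b1, by omega⟩
        · intro b1
          have b2 := hub r b1
          exact ⟨⟨by omega, (mem_filter.1 b1).1⟩, lo_le b1⟩
      rw [a4] at a3
      refine le_trans (mul_le_mul_of_nonneg_left ?_ (by positivity)) a3
      exact_mod_cast a2
  have e3 : D ≤ (pr s : ℝ) * (lo s : ℝ) ^ 2 :=
    le_trans (le_mul_of_one_le_left (by linarith) (Real.one_le_exp hG)) hGD
  have e4 : (0 : ℝ) < pr u := by exact_mod_cast pr_pos fun q hq => hp q (mem_filter.1 hq).1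
  have e5 := e2.trans (pow_le_pow_left₀ (by linarith) e3 2)
  rw [e1] at e5
  push_cast at e5
  have e6 : (2 : ℝ) ^ b ≤ (pr (below s (2 ^ a)) : ℝ) ^ 2 * (lo s : ℝ) ^ 4 := by
    refine le_of_mul_le_mul_left (e5.trans (le_of_eq ?_)) (pow_pos e4 2)
    ring
  have e7 : 2 ^ b ≤ pr (below s (2 ^ a)) ^ 2 * lo s ^ 4 := by exact_mod_cast e6
  refine Nat.le_of_mul_le_mul_right ?_ (by positivity : 0 < 2 ^ b)
  calc 2 ^ b * 2 ^ b ≤ (pr (below s (2 ^ a)) ^ 2 * lo s ^ 4) * (pr (below s (2 ^ a)) ^ 2 * lo s ^ 4) :=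
        Nat.mul_le_mul e7 e7
    _ = pr (below s (2 ^ a)) ^ 4 * lo s ^ 8 := by ring
    _ ≤ _ := Nat.mul_le_mul_left _ h2

end Vale.Agent.P013
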