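import Vale.Agent.P013.Tree
import Vale.Agent.P013.Mertens

/-! The fundamental lemma of the sieve (dimension at most two, constants `1/2` and `2`).

Proof plan. Use the Rosser trees with `b = 30`, `D = w^s₀`, `par = 1` (lower) and `par = 0`
(upper), `s₀ ≥ 30` large. Put `u s = log D - log (pr s)`, `ϑ = 1 - 1/29`.
* Invariant, by induction on `s` adding a new least element (`Finset.induction_on_min`,
  `ok_insert_iff`): if `Ok s` then `u s ≥ ϑ^|s| log D`, and if moreover the next position is not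
  tested (`|s| % 2 ≠ par`) then `u s ≥ 29 log q` for every `q ≤ w` below all elements of `s`
  (for `s = ∅` since `s₀ ≥ 29`; otherwise since the last position was tested). In particular
  `pr s ≤ D`, and the number of admissible sets is at most `D` (`pr_injOn`).
* A leaf of size `r` with `q = lo s` has `30 log q ≥ u (s.erase q) ≥ ϑ^(r-1) s₀ log w`, so
  `log q ≥ ϑ^r log w`, and `w^(r-1+30) ≥ D`, so `r ≥ s₀ - 29`.
* Let `P_r = {p ∈ P | log p ≥ ϑ^r log w}`, `σ_r = ∑_{P_r} g ≤ 2 (r/28 + C)` (`mertens0` on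
  `PI x w`, `x = max (3/2) (w^(ϑ^r/2))`, `log (1/ϑ) ≤ 1/28`). For a leaf of size `r`:
  `∏_{below P q} (1-g) ≤ V exp (2 σ_r)` (`1/(1-a) ≤ exp (2a)` on `[0, 1/2]`), and
  `∑_{s ⊆ P_r, |s| = r} ∏ g ≤ 4^(-r) ∏_{P_r} (1 + 4 g) ≤ 4^(-r) exp (4 σ_r)`. So the leaves of size
  `r` weigh at most `V e^(12 C) (e^(12/28)/4)^r ≤ V e^(12 C) 2^(-r)`, in total `≤ V/2`.
* `g_tree` and `sieve_tree`; leaves have sign `+` for `par = 1` and `-` for `par = 0`
  (`leaf_iff`). -/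

open Finset

namespace Vale.Agent.P013

theorem fund_inv {par s₀ : ℕ} (hpar : par < 2) (hs₀ : 30 ≤ s₀) {w : ℝ} (hw : 2 ≤ w)
    (s : Finset ℕ) (hs : ∀ p ∈ s, p.Prime ∧ (p : ℝ) ≤ w) (h : Ok 30 par (w ^ s₀) s) :
    (28 / 29) ^ s.card * (s₀ * Real.log w) ≤ s₀ * Real.log w - Real.log (pr s) ∧
      (s.card % 2 ≠ par → ∀ q : ℕ, 1 ≤ q → (q : ℝ) ≤ w → (∀ r ∈ s, q < r) →
        29 * Real.log q ≤ s₀ * Real.log w - Real.log (pr s)) := by
  have hL : 0 < Real.log w := Real.log_pos (by linarith)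
  have h30 : (30 : ℝ) ≤ s₀ := by exact_mod_cast hs₀
  induction s using Finset.induction_on_min with
  | empty =>
    refine ⟨by simp, fun _ q h1 h2 _ => ?_⟩
    have := Real.log_le_log (by exact_mod_cast h1) h2
    simp only [pr_empty, Nat.cast_one, Real.log_one, sub_zero]
    nlinarith
  | insert q s hq ih =>
    obtain ⟨h1, h2⟩ := (ok_insert_iff hq).1 h
    have hs' := fun p hp => hs p (mem_insert_of_mem hp)
    obtain ⟨h3, h4⟩ := ih hs' h1
    obtain ⟨hq1, hq2⟩ := hs q (mem_insert_self _ _)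
    have hqs : q ∉ s := fun h => lt_irrefl _ (hq q h)
    have hq0 : (0 : ℝ) < q := by exact_mod_cast hq1.pos
    have hp0 : (0 : ℝ) < pr s := by exact_mod_cast pr_pos fun p hp => (hs' p hp).1
    have h5 : 0 ≤ (28 / 29 : ℝ) ^ s.card * (s₀ * Real.log w) := by positivity
    rw [card_insert_of_notMem hqs, pr_insert hqs, Nat.cast_mul, Real.log_mul hq0.ne' hp0.ne',
      pow_succ]
    by_cases hc : s.card % 2 = par
    · have h6 := Real.log_lt_log (by positivity) (h2 hc)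
      rw [Real.log_mul hp0.ne' (by positivity), Real.log_pow, Real.log_pow] at h6
      push_cast at h6
      refine ⟨by linarith, fun _ q' h7 _ h8 => ?_⟩
      have := Real.log_le_log (by exact_mod_cast h7)
        (show (q' : ℝ) ≤ q by exact_mod_cast (h8 q (mem_insert_self _ _)).le)
      linarith
    · have h6 := h4 hc q hq1.one_le hq2 hq
      exact ⟨by linarith, fun h7 => absurd h7 (by omega)⟩

theorem fund_pr_le {par s₀ : ℕ} (hpar : par < 2) (hs₀ : 30 ≤ s₀) {w : ℝ} (hw : 2 ≤ w)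
    (s : Finset ℕ) (hs : ∀ p ∈ s, p.Prime ∧ (p : ℝ) ≤ w) (h : Ok 30 par (w ^ s₀) s) :
    (pr s : ℝ) ≤ w ^ s₀ := by
  have h1 := (fund_inv hpar hs₀ hw s hs h).1
  have hL : 0 < Real.log w := Real.log_pos (by linarith)
  have h2 : 0 ≤ (28 / 29 : ℝ) ^ s.card * (s₀ * Real.log w) := by positivity
  rw [← Real.log_le_log_iff (by exact_mod_cast pr_pos fun p hp => (hs p hp).1) (by positivity),
    Real.log_pow]
  linarith

theorem fund_card {par s₀ : ℕ} (hpar : par < 2) (hs₀ : 30 ≤ s₀) {w : ℝ} (hw : 2 ≤ w)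
    {P : Finset ℕ} (hP : ∀ p ∈ P, p.Prime ∧ (p : ℝ) ≤ w) :
    ((okS 30 par (w ^ s₀) P).card : ℝ) ≤ w ^ s₀ := by
  refine le_trans ?_ (Nat.floor_le (by positivity))
  have h := card_le_card_of_injOn (s := okS 30 par (w ^ s₀) P) (t := Icc 1 ⌊w ^ s₀⌋₊) pr
    (fun s hs => by
      obtain ⟨h1, h2⟩ := mem_okS.1 hs
      exact mem_Icc.2 ⟨pr_pos fun p hp => (hP p (h1 hp)).1,
        Nat.le_floor (fund_pr_le hpar hs₀ hw s (fun p hp => hP p (h1 hp)) h2)⟩)
    (pr_injOn.mono fun s hs p hp => (hP p ((mem_okS.1 hs).1 hp)).1)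
  simpa using h

theorem fund_leaf {par s₀ : ℕ} (hpar : par < 2) (hs₀ : 30 ≤ s₀) {w : ℝ} (hw : 2 ≤ w)
    (s : Finset ℕ) (hs : ∀ p ∈ s, p.Prime ∧ (p : ℝ) ≤ w) (h : Leaf 30 par (w ^ s₀) s) :
    (28 / 29) ^ s.card * Real.log w ≤ Real.log (lo s) ∧ s₀ ≤ s.card + 29 := by
  obtain ⟨h1, h2, -, h3⟩ := leaf_iff.1 h
  have hs' := fun p (hp : p ∈ s.erase (lo s)) => hs p (mem_of_mem_erase hp)
  have h4 := (fund_inv hpar hs₀ hw _ hs' h2).1
  obtain ⟨hq1, hq2⟩ := hs _ (lo_mem h1)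
  have hq0 : (0 : ℝ) < lo s := by exact_mod_cast hq1.pos
  have hp0 : (0 : ℝ) < pr (s.erase (lo s)) := by exact_mod_cast pr_pos fun p hp => (hs' p hp).1
  have hL : 0 < Real.log w := Real.log_pos (by linarith)
  have h30 : (30 : ℝ) ≤ s₀ := by exact_mod_cast hs₀
  have hc := card_erase_add_one (lo_mem h1)
  constructor
  · have h5 := Real.log_le_log (by positivity) h3
    rw [Real.log_mul hp0.ne' (by positivity), Real.log_pow, Real.log_pow] at h5
    push_cast at h5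
    have h6 : 0 ≤ (28 / 29 : ℝ) ^ (s.erase (lo s)).card * Real.log w := by positivity
    rw [← hc, pow_succ]
    nlinarith
  · have h5 : (pr (s.erase (lo s)) : ℝ) ≤ w ^ (s.erase (lo s)).card := by
      rw [pr_cast, ← prod_const]
      exact prod_le_prod (fun _ _ => Nat.cast_nonneg _) fun p hp => (hs' p hp).2
    have h6 := h3.trans (mul_le_mul h5 (pow_le_pow_left₀ hq0.le hq2 30) (by positivity)
      (by positivity))
    rw [← pow_add, pow_le_pow_iff_right₀ (by linarith)] at h6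
    omega

theorem fund_sigma : ∃ C : ℝ, ∀ (w : ℝ) (T : Finset ℕ) (r : ℕ), 2 ≤ w →
    (∀ p ∈ T, p.Prime ∧ (p : ℝ) ≤ w ∧ (28 / 29) ^ r * Real.log w ≤ Real.log p) →
    ∑ p ∈ T, 1 / (p : ℝ) ≤ r / 28 + C := by
  obtain ⟨C, hC0, hC⟩ := mertens0
  refine ⟨C / Real.log (3 / 2) + 1, fun w T r hw hT => ?_⟩
  have hL : 0 < Real.log w := Real.log_pos (by linarith)
  have h1 : 0 < (28 / 29 : ℝ) ^ r * Real.log w := by positivity
  have h2 : (28 / 29 : ℝ) ^ r * Real.log w ≤ Real.log w :=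
    mul_le_of_le_one_left hL.le (pow_le_one₀ (by norm_num) (by norm_num))
  obtain ⟨x, hx⟩ : ∃ x, x = max (3 / 2) (Real.exp ((28 / 29 : ℝ) ^ r * Real.log w / 2)) := ⟨_, rfl⟩
  have h3 : 3 / 2 ≤ x := hx ▸ le_max_left _ _
  have h4 : x ≤ w := hx ▸ max_le (by linarith)
    ((Real.le_log_iff_exp_le (by linarith)).1 (by linarith))
  have h5 : (28 / 29 : ℝ) ^ r * Real.log w / 2 ≤ Real.log x :=
    (Real.le_log_iff_exp_le (by linarith)).2 (hx ▸ le_max_right _ _)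
  have h6 := Real.log_le_log (by positivity) h5
  rw [Real.log_div h1.ne' two_ne_zero, Real.log_mul (by positivity) hL.ne', Real.log_pow] at h6
  have h7 : -(1 / 28 : ℝ) ≤ Real.log (28 / 29) := by
    have := Real.one_sub_inv_le_log_of_pos (x := 28 / 29) (by norm_num)
    linarith
  have h8 := mul_le_mul_of_nonneg_left h7 (Nat.cast_nonneg (α := ℝ) r)
  have h9 : C / Real.log x ≤ C / Real.log (3 / 2) :=
    div_le_div_of_nonneg_left hC0.le (Real.log_pos (by norm_num))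
      (Real.log_le_log (by norm_num) h3)
  have h10 := (abs_le.1 (hC x w h3 h4)).2
  have h11 : ∑ p ∈ T, 1 / (p : ℝ) ≤ ∑ p ∈ PI x w, 1 / (p : ℝ) := by
    refine sum_le_sum_of_subset_of_nonneg (fun p hp => ?_) fun _ _ _ => by positivity
    obtain ⟨e1, e2, e3⟩ := hT p hp
    have e4 : (2 : ℝ) ≤ p := by exact_mod_cast e1.two_le
    refine (mem_PI (by linarith)).2 ⟨e1, hx ▸ max_lt (by linarith) ?_, e2⟩
    exact (Real.lt_log_iff_exp_lt (by linarith)).1 (by linarith)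
  linarith [Real.log_two_lt_d9]

theorem fund_below {P T : Finset ℕ} {g : ℕ → ℝ} (hg : ∀ p ∈ P, 0 ≤ g p ∧ g p ≤ 1 / 2) {q : ℕ}
    (hT : T ⊆ P) (h : ∀ p ∈ P, q ≤ p → p ∈ T) :
    ∏ p ∈ below P q, (1 - g p) ≤ (∏ p ∈ P, (1 - g p)) * Real.exp (2 * ∑ p ∈ T, g p) := by
  rw [← prod_filter_mul_prod_filter_not P (· < q), mul_assoc]
  refine le_mul_of_one_le_right (prod_nonneg fun p hp => by
    linarith [(hg p (mem_below.1 hp).1).2]) ?_
  have h1 : ∑ p ∈ P.filter (¬ · < q), g p ≤ ∑ p ∈ T, g p :=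
    sum_le_sum_of_subset_of_nonneg (fun p hp => h p (mem_filter.1 hp).1
      (not_lt.1 (mem_filter.1 hp).2)) fun p hp _ => (hg p (hT hp)).1
  refine le_trans ?_ (mul_le_mul_of_nonneg_left (Real.exp_le_exp.2
    (mul_le_mul_of_nonneg_left h1 zero_le_two)) (prod_nonneg fun p hp => by
      linarith [(hg p (mem_filter.1 hp).1).2]))
  rw [mul_sum, Real.exp_sum, ← prod_mul_distrib]
  refine (prod_const_one.symm.trans_le (prod_le_prod (fun _ _ => zero_le_one) fun p hp => ?_))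
  obtain ⟨h2, h3⟩ := hg p (mem_filter.1 hp).1
  nlinarith [Real.add_one_le_exp (2 * g p)]

theorem fund_esymm {T : Finset ℕ} {g : ℕ → ℝ} (hg : ∀ p ∈ T, 0 ≤ g p) (r : ℕ)
    {S : Finset (Finset ℕ)} (hS : ∀ s ∈ S, s ⊆ T ∧ s.card = r) :
    ∑ s ∈ S, ∏ p ∈ s, g p ≤ (1 / 4) ^ r * Real.exp (4 * ∑ p ∈ T, g p) := by
  have h1 : ∏ p ∈ T, (1 + 4 * g p) ≤ Real.exp (4 * ∑ p ∈ T, g p) := by
    rw [mul_sum, Real.exp_sum]
    exact prod_le_prod (fun p hp => by linarith [hg p hp]) fun p _ => by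
      linarith [Real.add_one_le_exp (4 * g p)]
  refine le_trans ?_ (mul_le_mul_of_nonneg_left h1 (by positivity))
  rw [prod_one_add]
  refine le_trans (le_of_eq ?_) (mul_le_mul_of_nonneg_left (sum_le_sum_of_subset_of_nonneg
    (fun s hs => mem_powerset.2 (hS s hs).1) fun s hs _ => prod_nonneg fun p hp => by
      linarith [hg p (mem_powerset.1 hs hp)]) (by positivity))
  rw [mul_sum]
  refine sum_congr rfl fun s hs => ?_
  rw [prod_mul_distrib, prod_const, (hS s hs).2, ← mul_assoc, ← mul_pow]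
  norm_num

theorem fund_weight : ∃ s₀ : ℕ, 30 ≤ s₀ ∧ ∀ (par : ℕ) (w : ℝ) (P : Finset ℕ) (g : ℕ → ℝ),
    par < 2 → 2 ≤ w → (∀ p ∈ P, p.Prime ∧ (p : ℝ) ≤ w) →
    (∀ p ∈ P, 0 ≤ g p ∧ g p ≤ 1 / 2 ∧ g p ≤ 2 / p) →
    ∑ s ∈ leafS 30 par (w ^ s₀) P, (∏ p ∈ s, g p) * ∏ p ∈ below P (lo s), (1 - g p) ≤
      (∏ p ∈ P, (1 - g p)) / 2 := by
  obtain ⟨C, hC⟩ := fund_sigma
  obtain ⟨m, hm⟩ := exists_pow_lt_of_lt_one (x := 1 / (4 * Real.exp (12 * C))) (y := 1 / 2)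
    (by positivity) (by norm_num)
  refine ⟨m + 30, by omega, fun par w P g hpar hw hP hg => ?_⟩
  have hV : 0 ≤ ∏ p ∈ P, (1 - g p) := prod_nonneg fun p hp => by linarith [(hg p hp).2.1]
  have hl := fun s (hs : s ∈ leafS 30 par (w ^ (m + 30)) P) => fund_leaf hpar (by omega) hw s
    (fun p hp => hP p ((mem_leafS.1 hs).1 hp)) (mem_leafS.1 hs).2
  rw [← sum_fiberwise_of_maps_to (t := Ico m (P.card + 1)) (g := card) fun s hs => mem_Ico.2
    ⟨by have := (hl s hs).2; omega, Nat.lt_succ_of_le (card_le_card (mem_leafS.1 hs).1)⟩]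
  refine (sum_le_sum (g := fun r => (∏ p ∈ P, (1 - g p)) * Real.exp (12 * C) * (1 / 2) ^ r)
    fun r _ => ?_).trans ?_
  · obtain ⟨T, hT⟩ : ∃ T, T = P.filter fun p : ℕ => (28 / 29) ^ r * Real.log w ≤ Real.log p :=
      ⟨_, rfl⟩
    have hTP : T ⊆ P := hT ▸ filter_subset _ _
    have h1 : ∑ p ∈ T, g p ≤ 2 * (r / 28 + C) := by
      refine le_trans ?_ (mul_le_mul_of_nonneg_left (hC w T r hw fun p hp => ⟨(hP p (hTP hp)).1,
        (hP p (hTP hp)).2, by rw [hT] at hp; exact (mem_filter.1 hp).2⟩) zero_le_two)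
      rw [mul_sum]
      exact sum_le_sum fun p hp => (hg p (hTP hp)).2.2.trans_eq (by ring)
    have h2 : ∀ s ∈ (leafS 30 par (w ^ (m + 30)) P).filter (card · = r), ∀ p ∈ P, lo s ≤ p →
        p ∈ T := fun s hs p hp h => by
      obtain ⟨e1, e2⟩ := mem_filter.1 hs
      refine hT ▸ mem_filter.2 ⟨hp, (e2 ▸ (hl s e1).1).trans (Real.log_le_log ?_ (by
        exact_mod_cast h))⟩
      exact_mod_cast (hP _ ((mem_leafS.1 e1).1 (lo_mem (mem_leafS.1 e1).2.1))).1.pos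
    refine (sum_le_sum fun s hs => mul_le_mul_of_nonneg_left (fund_below
      (fun p hp => ⟨(hg p hp).1, (hg p hp).2.1⟩) hTP (h2 s hs)) (prod_nonneg fun p hp =>
        (hg p ((mem_leafS.1 (mem_filter.1 hs).1).1 hp)).1)).trans ?_
    rw [← sum_mul]
    refine (mul_le_mul_of_nonneg_right (fund_esymm (fun p hp => (hg p (hTP hp)).1) r fun s hs =>
      ⟨fun p hp => h2 s hs p ((mem_leafS.1 (mem_filter.1 hs).1).1 hp) (lo_le hp),
        (mem_filter.1 hs).2⟩) (by positivity)).trans ?_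
    have h3 : Real.exp (4 * ∑ p ∈ T, g p) * Real.exp (2 * ∑ p ∈ T, g p) ≤
        Real.exp (12 * C) * 2 ^ r := by
      rw [← Real.exp_log (x := 2 ^ r) (by positivity), ← Real.exp_add, ← Real.exp_add,
        Real.exp_le_exp, Real.log_pow]
      nlinarith [Real.log_two_gt_d9, Nat.cast_nonneg (α := ℝ) r]
    have h4 : (1 / 2 : ℝ) ^ r = (1 / 4) ^ r * 2 ^ r := by rw [← mul_pow]; norm_num
    rw [h4]
    have h5 := mul_le_mul_of_nonneg_left h3
      (mul_nonneg hV (pow_nonneg (by norm_num : (0 : ℝ) ≤ 1 / 4) r))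
    linarith
  · rw [← mul_sum, mul_assoc]
    refine (mul_le_mul_of_nonneg_left (c := 1 / 2) ?_ hV).trans_eq (by ring)
    have h1 := geom_sum_Ico_le_of_lt_one (m := m) (n := P.card + 1) (x := (1 / 2 : ℝ))
      (by norm_num) (by norm_num)
    have h2 := Real.exp_pos (12 * C)
    rw [lt_div_iff₀ (by positivity)] at hm
    have h3 := mul_le_mul_of_nonneg_left (h1.trans_eq (c := 2 * (1 / 2) ^ m) (by ring)) h2.le
    linarith

open Classical in
theorem fund_lemma : ∃ s₀ : ℕ, 1 ≤ s₀ ∧ ∀ (w : ℝ) (P : Finset ℕ) (g : ℕ → ℝ), 2 ≤ w →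
    (∀ p ∈ P, p.Prime ∧ (p : ℝ) ≤ w) → (∀ p ∈ P, 0 ≤ g p ∧ g p ≤ 1 / 2 ∧ g p ≤ 2 / p) →
    ∀ {α : Type} (A : Finset α) (a : α → ℝ) (bad : ℕ → α → Prop) (X r : ℝ), 0 ≤ X →
    (∀ x ∈ A, 0 ≤ a x) →
    (∀ s ⊆ P, (pr s : ℝ) ≤ w ^ s₀ →
      |∑ x ∈ A.filter (fun x => ∀ p ∈ s, bad p x), a x - X * ∏ p ∈ s, g p| ≤ r) →
    X * (∏ p ∈ P, (1 - g p)) / 2 - w ^ s₀ * r ≤
        ∑ x ∈ A.filter (fun x => ∀ p ∈ P, ¬ bad p x), a x ∧
      ∑ x ∈ A.filter (fun x => ∀ p ∈ P, ¬ bad p x), a x ≤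
        2 * X * (∏ p ∈ P, (1 - g p)) + w ^ s₀ * r := by
  obtain ⟨s₀, hs₀, hW⟩ := fund_weight
  refine ⟨s₀, by omega, fun w P g hw hP hg α A a bad X r hX ha h => ?_⟩
  have hr : 0 ≤ r := (abs_nonneg _).trans
    (h ∅ (empty_subset _) (by simpa using one_le_pow₀ (by linarith : 1 ≤ w)))
  have hV : 0 ≤ ∏ p ∈ P, (1 - g p) := prod_nonneg fun p hp => by linarith [(hg p hp).2.1]
  have key : ∀ par, par < 2 → |∑ s ∈ okS 30 par (w ^ s₀) P, (-1 : ℝ) ^ s.card *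
      ∑ x ∈ A.filter (fun x => ∀ p ∈ s, bad p x), a x - X * ∏ p ∈ P, (1 - g p)| ≤
      w ^ s₀ * r + X * ((∏ p ∈ P, (1 - g p)) / 2) := by
    intro par hpar
    refine (abs_sub_le _ (X * ∑ s ∈ okS 30 par (w ^ s₀) P, (-1 : ℝ) ^ s.card * ∏ p ∈ s, g p)
      _).trans (add_le_add ?_ ?_)
    · rw [mul_sum, ← sum_sub_distrib]
      refine (abs_sum_le_sum_abs _ _).trans ((sum_le_card_nsmul _ _ r fun s hs => ?_).trans ?_)
      · obtain ⟨h1, h2⟩ := mem_okS.1 hs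
        rw [mul_left_comm, ← mul_sub, abs_mul, abs_pow, abs_neg, abs_one, one_pow, one_mul]
        exact h s h1 (fund_pr_le hpar hs₀ hw s (fun p hp => hP p (h1 hp)) h2)
      · rw [nsmul_eq_mul]
        exact mul_le_mul_of_nonneg_right (fund_card hpar hs₀ hw hP) hr
    · rw [← mul_sub, abs_mul, abs_of_nonneg hX]
      refine mul_le_mul_of_nonneg_left (le_trans ?_ (hW par w P g hpar hw hP hg)) hX
      rw [g_tree 30 par (w ^ s₀) P g, sub_add_cancel_left, abs_neg]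
      refine (abs_sum_le_sum_abs _ _).trans (sum_le_sum fun s hs => le_of_eq ?_)
      rw [abs_mul, abs_pow, abs_neg, abs_one, one_pow, one_mul, abs_of_nonneg]
      exact mul_nonneg (prod_nonneg fun p hp => (hg p ((mem_leafS.1 hs).1 hp)).1)
        (prod_nonneg fun p hp => by linarith [(hg p (mem_below.1 hp).1).2.1])
  have h0 := mul_nonneg hX hV
  constructor
  · rw [sieve_tree 30 1 (w ^ s₀) P A a bad]
    refine le_add_of_le_of_nonneg (by linarith [(abs_le.1 (key 1 one_lt_two)).1])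
      (sum_nonneg fun s hs => ?_)
    obtain ⟨h1, -, h2, -⟩ := leaf_iff.1 (mem_leafS.1 hs).2
    rw [Even.neg_one_pow (Nat.even_iff.2 (by have := h1.card_pos; omega)), one_mul]
    exact sum_nonneg fun x hx => ha x (mem_filter.1 hx).1
  · rw [sieve_tree 30 0 (w ^ s₀) P A a bad]
    refine (add_le_of_nonpos_right (sum_nonpos fun s hs => ?_)).trans
      (by linarith [(abs_le.1 (key 0 two_pos)).2])
    obtain ⟨h1, -, h2, -⟩ := leaf_iff.1 (mem_leafS.1 hs).2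
    rw [Odd.neg_one_pow (Nat.odd_iff.2 (by have := h1.card_pos; omega)), neg_one_mul, neg_nonpos]
    exact sum_nonneg fun x hx => ha x (mem_filter.1 hx).1

end Vale.Agent.P013
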