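import Vale.Agent.P013.Family

/-! Auxiliary lemmas for the leaf gain: ranges of box indices, active families, bad sets. -/

open Finset

namespace Vale.Agent.P013

namespace GainX

/-- exponent attached to a role -/
def ee (R : ℕ) : Fin R ⊕ Fin 3 → ℕ := Sum.elim (fun _ => 6) ![18, 2, 12]

/-- position of a role among those with the same exponent -/
def kk (R : ℕ) : Fin R ⊕ Fin 3 → ℕ := Sum.elim Fin.val fun _ => 0

theorem ee_bd {R : ℕ} (i : Fin R ⊕ Fin 3) : 2 ≤ ee R i ∧ ee R i ≤ 18 := by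
  rcases i with i | i
  · simp [ee]
  · fin_cases i <;> simp [ee]

theorem tri {R : ℕ} {i i' : Fin R ⊕ Fin 3} (h : i ≠ i') :
    ee R i + 2 ≤ ee R i' ∨ ee R i' + 2 ≤ ee R i ∨ (ee R i = ee R i' ∧ kk R i ≠ kk R i') := by
  rcases i with i | i <;> rcases i' with i' | i'
  · exact Or.inr (Or.inr ⟨rfl, fun h1 => h (congrArg _ (Fin.ext h1))⟩)
  · fin_cases i' <;> simp [ee]
  · fin_cases i <;> simp [ee]
  · fin_cases i <;> fin_cases i' <;> simp [ee] at h ⊢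

theorem ranges (R : ℕ) : ∃ ω₁ : ℝ, ∀ ω, ω₁ ≤ ω → ∃ (ϱ : ℕ) (A : Fin R ⊕ Fin 3 → ℕ),
    1000 * Real.log ω ≤ ϱ ∧ 1 ≤ ϱ ∧
      (∀ i, ω ^ ee R i ≤ A i ∧ 2 * ((A i * ϱ : ℕ) : ℝ) ≤ ω ^ (ee R i + 2)) ∧
      ∀ i i', i ≠ i' → Disjoint (Ico (A i) (A i * ϱ)) (Ico (A i') (A i' * ϱ)) := by
  have h1 := (Real.isLittleO_pow_log_id_atTop (n := R + 1)).bound
    (c := 1 / 1001 ^ (R + 1)) (by positivity)
  obtain ⟨ω₁, hω₁⟩ := Filter.eventually_atTop.1 (h1.and (Filter.eventually_ge_atTop 4))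
  refine ⟨ω₁, fun ω hω => ?_⟩
  obtain ⟨h2, h4⟩ := hω₁ ω hω
  have hl : 1 ≤ Real.log ω := by
    rw [Real.le_log_iff_exp_le (by linarith)]
    linarith [Real.exp_one_lt_d9]
  have hω1 : 1 ≤ ω := by linarith
  set ϱ := ⌈1000 * Real.log ω⌉₊ with hϱ
  have hϱ1 : 1 ≤ ϱ := Nat.one_le_iff_ne_zero.2 (Nat.ceil_pos.2 (by linarith)).ne'
  have hϱ2 : (ϱ : ℝ) ^ (R + 1) ≤ ω := by
    have h5 : (ϱ : ℝ) ≤ 1001 * Real.log ω := by
      linarith [Nat.ceil_lt_add_one (show 0 ≤ 1000 * Real.log ω by linarith)]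
    rw [Real.norm_of_nonneg (by positivity), id, Real.norm_of_nonneg (by linarith), one_div,
      inv_mul_eq_div, le_div_iff₀ (by positivity), ← mul_pow, mul_comm] at h2
    exact (pow_le_pow_left₀ (by positivity) h5 _).trans h2
  have hk : ∀ i, kk R i + 1 ≤ R + 1 := by
    rintro (i | i)
    · simp [kk]
    · simp [kk]
  have hb : ∀ i, ω ^ ee R i ≤ ((⌈ω ^ ee R i⌉₊ * ϱ ^ kk R i : ℕ) : ℝ) ∧
      2 * ((⌈ω ^ ee R i⌉₊ * ϱ ^ kk R i * ϱ : ℕ) : ℝ) ≤ ω ^ (ee R i + 2) := by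
    intro i
    have hϱ1' : (1 : ℝ) ≤ ϱ := by exact_mod_cast hϱ1
    have h5 : 1 ≤ ω ^ ee R i := one_le_pow₀ hω1
    have h6 : (⌈ω ^ ee R i⌉₊ : ℝ) ≤ 2 * ω ^ ee R i := by
      linarith [Nat.ceil_lt_add_one (show 0 ≤ ω ^ ee R i by linarith)]
    have h7 : (ϱ : ℝ) ^ (kk R i + 1) ≤ ω := (pow_le_pow_right₀ hϱ1' (hk i)).trans hϱ2
    push_cast
    refine ⟨(Nat.le_ceil _).trans (le_mul_of_one_le_right (by positivity) (one_le_pow₀ hϱ1')), ?_⟩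
    calc 2 * ((⌈ω ^ ee R i⌉₊ : ℝ) * ϱ ^ kk R i * ϱ) = 2 * (⌈ω ^ ee R i⌉₊ * ϱ ^ (kk R i + 1)) := by
          ring
      _ ≤ 2 * (2 * ω ^ ee R i * ω) := by gcongr
      _ = 4 * (ω ^ ee R i * ω) := by ring
      _ ≤ ω * (ω ^ ee R i * ω) := by gcongr
      _ = _ := by ring
  refine ⟨ϱ, fun i => ⌈ω ^ ee R i⌉₊ * ϱ ^ kk R i, Nat.le_ceil _, hϱ1, hb, ?_⟩
  have key : ∀ i i', (ee R i + 2 ≤ ee R i' ∨ (ee R i = ee R i' ∧ kk R i < kk R i')) →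
      Disjoint (Ico (⌈ω ^ ee R i⌉₊ * ϱ ^ kk R i) (⌈ω ^ ee R i⌉₊ * ϱ ^ kk R i * ϱ))
        (Ico (⌈ω ^ ee R i'⌉₊ * ϱ ^ kk R i') (⌈ω ^ ee R i'⌉₊ * ϱ ^ kk R i' * ϱ)) := by
    intro i i' h
    have h5 : ⌈ω ^ ee R i⌉₊ * ϱ ^ kk R i * ϱ ≤ ⌈ω ^ ee R i'⌉₊ * ϱ ^ kk R i' := by
      rcases h with h | ⟨h, h'⟩
      · have h6 := (hb i).2
        have h7 := (hb i').1
        have h8 := pow_le_pow_right₀ hω1 h
        have h9 : (0 : ℝ) ≤ ((⌈ω ^ ee R i⌉₊ * ϱ ^ kk R i * ϱ : ℕ) : ℝ) := Nat.cast_nonneg _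
        exact Nat.cast_le (α := ℝ).1 (by linarith)
      · rw [h, mul_assoc, ← pow_succ]
        exact Nat.mul_le_mul_left _ (Nat.pow_le_pow_right hϱ1 h')
    rw [disjoint_left]
    intro x hx hx'
    rw [mem_Ico] at hx hx'
    omega
  intro i i' h
  rcases tri h with h | h | ⟨h, h'⟩
  · exact key i i' (Or.inl h)
  · exact (key i' i (Or.inl h)).symm
  · rcases lt_or_gt_of_ne h' with h' | h'
    · exact key i i' (Or.inr ⟨h, h'⟩)
    · exact (key i' i (Or.inr ⟨h.symm, h'⟩)).symm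

theorem mem_good {D G t C : ℝ} {z : ℕ} {s : Finset ℕ} : s ∈ good D G t C z ↔
    s ⊆ z.primesBelow ∧ s.Nonempty ∧ s.card % 2 = 0 ∧
    Ok 3 1 D (s.erase (lo s)) ∧ Real.exp G * D ≤ (pr s : ℝ) * (lo s : ℝ) ^ 2 ∧
    (pr s : ℝ) ^ 2 * (lo s : ℝ) ^ 3 ≤ D ^ 2 ∧ t / C ≤ Real.log (lo s) ∧
    Real.log (lo s) ≤ C * t := by
  simp only [good, mem_filter, mem_powerset]

theorem prod_bd {ι : Type} [Fintype ι] [DecidableEq ι] {m : Finset ℕ} {j x : ι → ℕ}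
    (hx : x ∈ Fintype.piFinset (fun i => box (j i) \ m)) :
    2 ^ (∑ i, j i) ≤ ∏ i, x i ∧ ∏ i, x i ≤ 2 ^ (∑ i, j i + Fintype.card ι) := by
  have h : ∀ i, 2 ^ j i ≤ x i ∧ x i < 2 ^ (j i + 1) := fun i =>
    (mem_box.1 (mem_sdiff.1 (Fintype.mem_piFinset.1 hx i)).1).2
  refine ⟨?_, ?_⟩
  · rw [← prod_pow_eq_pow_sum]
    exact prod_le_prod' fun i _ => (h i).1
  · have e : ∑ i, j i + Fintype.card ι = ∑ i, (j i + 1) := by simp [sum_add_distrib]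
    rw [e, ← prod_pow_eq_pow_sum]
    exact prod_le_prod' fun i _ => (h i).2.le

/-- the members of an active family are leaves -/
theorem fam {ι : Type} [Fintype ι] [DecidableEq ι] {D G t C : ℝ} {y Z : ℕ} {m : Finset ℕ}
    {j x : ι → ℕ} (hD : D * (2 ^ Fintype.card ι) ^ 3 = y)
    (hG : Real.exp G * D = y * (2 ^ Fintype.card ι) ^ 3) (hj : Function.Injective j)
    (hZ : ∀ i, j i < Z) (hx : x ∈ Fintype.piFinset (fun i => box (j i) \ m))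
    (hs : m ∪ univ.image x ∈ good D G t C (2 ^ Z)) {p : ℕ} (hp : lo (m ∪ univ.image x) = p)
    (hpj : ∀ i, p < 2 ^ j i) :
    (∀ q ∈ m, q.Prime ∧ p ≤ q) ∧ (pr m * 2 ^ (∑ i, j i + Fintype.card ι)) ^ 2 * p ^ 3 ≤ y ^ 2 ∧
      y ≤ pr m * 2 ^ (∑ i, j i) * p ^ 2 ∧ ∀ x' ∈ Fintype.piFinset (fun i => box (j i) \ m),
        lo (m ∪ univ.image x') = p ∧ m ∪ univ.image x' ∈ leafS 3 1 y (2 ^ Z).primesBelow := by
  obtain ⟨h1, h2, h3, h4, h5, h6, -⟩ := mem_good.1 hs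
  have hb : ∀ x' ∈ Fintype.piFinset (fun i => box (j i) \ m), ∀ i,
      (x' i).Prime ∧ 2 ^ j i ≤ x' i ∧ x' i < 2 ^ (j i + 1) := fun x' hx' i =>
    mem_box.1 (mem_sdiff.1 (Fintype.mem_piFinset.1 hx' i)).1
  have hm : ∀ q ∈ m, q.Prime ∧ p ≤ q := fun q hq =>
    ⟨Nat.prime_of_mem_primesBelow (h1 (mem_union_left _ hq)), hp ▸ lo_le (mem_union_left _ hq)⟩
  have hpm : p ∈ m := by
    rcases mem_union.1 (hp ▸ lo_mem h2) with h | h
    · exact h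
    · obtain ⟨i, -, hi⟩ := mem_image.1 h
      have := (hb x hx i).2.1
      have := hpj i
      omega
  rw [hp] at h4
  rw [hp, (pr_family hj hx).1] at h5 h6
  set ρ : ℝ := 2 ^ Fintype.card ι with hρ
  have hρ1 : 1 ≤ ρ := one_le_pow₀ one_le_two
  have hx1 : (2 : ℝ) ^ (∑ i, j i) ≤ (∏ i, x i : ℕ) := by exact_mod_cast (prod_bd hx).1
  have hx2 : ((∏ i, x i : ℕ) : ℝ) ≤ 2 ^ (∑ i, j i) * ρ := by
    rw [hρ, ← pow_add]
    exact_mod_cast (prod_bd hx).2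
  rw [Nat.cast_mul] at h5 h6
  have h7 : y ≤ pr m * 2 ^ (∑ i, j i) * p ^ 2 := by
    refine Nat.cast_le (α := ℝ).1 (le_of_mul_le_mul_right ?_ (show 0 < ρ by linarith))
    push_cast
    calc y * ρ ≤ y * ρ ^ 3 := by
          gcongr
          exact le_self_pow₀ hρ1 (by norm_num)
      _ ≤ _ := hG ▸ h5
      _ ≤ pr m * (2 ^ (∑ i, j i) * ρ) * (p : ℝ) ^ 2 := by gcongr
      _ = _ := by ring
  refine ⟨hm, Nat.cast_le (α := ℝ).1 ?_, h7, fun x' hx' => ?_⟩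
  · push_cast
    rw [pow_add, ← hρ, ← hD]
    calc (pr m * (2 ^ (∑ i, j i) * ρ)) ^ 2 * (p : ℝ) ^ 3
        = (pr m * 2 ^ (∑ i, j i)) ^ 2 * (p : ℝ) ^ 3 * ρ ^ 2 := by ring
      _ ≤ (pr m * (∏ i, x i : ℕ)) ^ 2 * (p : ℝ) ^ 3 * ρ ^ 6 := by
          gcongr
          norm_num
      _ ≤ D ^ 2 * ρ ^ 6 := by gcongr
      _ = _ := by ring
  have hlo : lo (m ∪ univ.image x') = p := by
    refine lo_eq (mem_union_left _ hpm) fun r hr => ?_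
    rcases mem_union.1 hr with h | h
    · exact (hm r h).2
    · obtain ⟨i, -, rfl⟩ := mem_image.1 h
      exact (hpj i).le.trans (hb x' hx' i).2.1
  refine ⟨hlo, mem_leafS.2 ⟨fun r hr => ?_, leaf_iff.2 ⟨⟨p, mem_union_left _ hpm⟩, ?_, ?_, ?_⟩⟩⟩
  · rcases mem_union.1 hr with h | h
    · exact h1 (mem_union_left _ h)
    · obtain ⟨i, -, rfl⟩ := mem_image.1 h
      exact Nat.mem_primesBelow.2 ⟨(hb x' hx' i).2.2.trans_le
        (Nat.pow_le_pow_right two_pos (hZ i)), (hb x' hx' i).1⟩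
  · rw [hlo, ← hD]
    exact ok_family (by norm_num) (fun q hq => (hm q hq).1.one_le) hj hx hx' hpm h4
  · have h8 := card_pos.2 h2
    rw [(pr_family hj hx').2, ← (pr_family hj hx).2]
    omega
  · have h8 := pr_erase (mem_union_left (univ.image x') hpm)
    rw [(pr_family hj hx').1] at h8
    have h9 : y ≤ pr ((m ∪ univ.image x').erase p) * p ^ 3 := by
      calc y ≤ pr m * 2 ^ (∑ i, j i) * p ^ 2 := h7
        _ ≤ pr m * (∏ i, x' i) * p ^ 2 := by gcongr; exact (prod_bd hx').1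
        _ = _ := by rw [h8]; ring
    rw [hlo]
    exact_mod_cast h9

/-- the weight of the sets missing one of the ranges -/
theorem bad_le {ι : Type} [Fintype ι] {D G t C : ℝ} {z ϱ : ℕ} (hz : (z : ℝ) ^ 3 ≤ D ^ 2)
    (hD : 1 ≤ D) (hG : 0 ≤ G) (hϱ : 1 ≤ ϱ) (A : ι → ℕ) (hA : ∀ i, (2 : ℝ) ^ (A i * ϱ) ≤ D ^ 2)
    (hp : ∀ s ∈ good D G t C z, 1 ≤ Real.log (lo s) ∧ ∀ i, lo s ^ 8 < 2 ^ A i) {W : ℝ}
    (hW : ∀ i, ∑ s ∈ z.primesBelow.powerset.filter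
      (fun s => 2 ^ (A i * ϱ) ≤ pr (below s (2 ^ A i)) ^ 4), 1 / (pr s : ℝ) ≤ W) :
    ∑ s ∈ (good D G t C z).filter
      (fun s => ¬ ∀ i, ∃ q ∈ s, Nat.log 2 q ∈ Ico (A i) (A i * ϱ)),
        1 / (pr s * Real.log (lo s)) ≤ Fintype.card ι * W := by
  calc _ ≤ ∑ s ∈ (good D G t C z).filter
          (fun s => ¬ ∀ i, ∃ q ∈ s, Nat.log 2 q ∈ Ico (A i) (A i * ϱ)), ∑ i,
          if 2 ^ (A i * ϱ) ≤ pr (below s (2 ^ A i)) ^ 4 then 1 / (pr s : ℝ) else 0 := by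
        refine sum_le_sum fun s hs => ?_
        obtain ⟨hs, h⟩ := mem_filter.1 hs
        push Not at h
        obtain ⟨i, hi⟩ := h
        obtain ⟨h1, h2⟩ := hp s hs
        have h3 : A i ≤ A i * ϱ := Nat.le_mul_of_pos_right _ hϱ
        have h4 := gap_smooth hz hD hG hs h3
          ((Nat.le_self_pow (by norm_num) _).trans_lt (h2 i))
          ((h2 i).le.trans (Nat.pow_le_pow_right two_pos h3)) (hA i) hi
        refine le_trans ?_ (single_le_sum (f := fun i =>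
          if 2 ^ (A i * ϱ) ≤ pr (below s (2 ^ A i)) ^ 4 then 1 / (pr s : ℝ) else 0)
          (fun i _ => by positivity) (mem_univ i))
        rw [if_pos h4, ← div_div]
        exact div_le_self (by positivity) h1
    _ ≤ ∑ s ∈ z.primesBelow.powerset, ∑ i,
          if 2 ^ (A i * ϱ) ≤ pr (below s (2 ^ A i)) ^ 4 then 1 / (pr s : ℝ) else 0 :=
        sum_le_sum_of_subset_of_nonneg
          (fun s hs => mem_powerset.2 (mem_good.1 (mem_filter.1 hs).1).1)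
          fun s _ _ => by positivity
    _ ≤ ∑ _i : ι, W := by
        rw [sum_comm]
        exact sum_le_sum fun i _ => (sum_filter _ _).symm.trans_le (hW i)
    _ = _ := by simp

theorem lo_bd {ω : ℝ} {B p : ℕ} (hω : 320 * B + 3 ≤ ω) (h5 : (0 : ℝ) < p)
    (h6 : Real.log (ω ^ 20) ≤ Real.log p) (h7 : Real.log p ≤ B * Real.log (ω ^ 20)) :
    ω ^ 20 ≤ p ∧ p ≤ ω ^ (20 * B) ∧ 1 ≤ Real.log p ∧ ∀ a : ℕ, ω ^ 2 ≤ a → p ^ 8 < 2 ^ a := by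
  have hB0 : (0 : ℝ) ≤ B := Nat.cast_nonneg B
  have hω0 : 0 < ω := by linarith
  have hlω : 1 ≤ Real.log ω := by
    rw [Real.le_log_iff_exp_le hω0]
    linarith [Real.exp_one_lt_d9]
  refine ⟨(Real.log_le_log_iff (by positivity) h5).1 h6,
    (Real.log_le_log_iff h5 (by positivity)).1 (by rwa [mul_comm, pow_mul', Real.log_pow]),
    ?_, fun a ha => Nat.cast_lt (α := ℝ).1 ?_⟩
  · rw [Real.log_pow] at h6
    push_cast at h6
    linarith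
  · rw [Real.log_pow] at h7
    push_cast at h7 ⊢
    rw [← Real.log_lt_log_iff (by positivity) (by positivity), Real.log_pow, Real.log_pow]
    have h8 : B * Real.log ω ≤ B * ω := mul_le_mul_of_nonneg_left (Real.log_le_self hω0.le) hB0
    have h9 : (320 * B + 3) * ω ≤ ω * ω := mul_le_mul_of_nonneg_right hω hω0.le
    have h10 : (a : ℝ) * (1 / 2) ≤ a * Real.log 2 :=
      mul_le_mul_of_nonneg_left (by linarith [Real.log_two_gt_d9]) (Nat.cast_nonneg _)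
    push_cast
    nlinarith

theorem exp_bd {ω : ℝ} {a ϱ : ℕ} (hω : 0 < ω) (ha : 1 ≤ a) (hϱ : 1000 * Real.log ω ≤ ϱ) :
    Real.exp (-(((a * ϱ : ℕ) : ℝ) / (4 * a))) ≤ 1 / ω ^ 250 := by
  have h1 : (0 : ℝ) < a := by exact_mod_cast ha
  rw [← Real.exp_log (show 0 < 1 / ω ^ 250 by positivity), one_div, Real.log_inv,
    Real.log_pow, Real.exp_le_exp, neg_le_neg_iff, le_div_iff₀ (by positivity)]
  push_cast
  nlinarith

theorem num_bd {ω n K : ℝ} (hω : 1 ≤ ω) (h : n * K ^ 3 ≤ ω) :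
    n * (1 / ω ^ 250 * (K * ω ^ 20) ^ 3) ≤ 1 / (ω ^ 20) ^ 3 := by
  calc n * (1 / ω ^ 250 * (K * ω ^ 20) ^ 3) = n * K ^ 3 / ω ^ 190 := by field_simp
    _ ≤ ω ^ 130 / ω ^ 190 := by
        gcongr
        exact h.trans (le_self_pow₀ hω (by norm_num))
    _ = _ := by field_simp

theorem log_le_Z {y Z : ℕ} (hy : (0 : ℝ) < y) (h : y ≤ (2 ^ Z) ^ 2) : Real.log y ≤ 2 * Z := by
  have h1 : (y : ℝ) ≤ 2 ^ (2 * Z) := by
    rw [mul_comm, pow_mul]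
    exact_mod_cast h
  have h2 := Real.log_le_log hy h1
  rw [Real.log_pow] at h2
  push_cast at h2
  nlinarith [Nat.cast_nonneg (α := ℝ) Z, Real.log_two_lt_d9]

end GainX

end Vale.Agent.P013
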