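import Vale.Agent.P013.PropG
import Vale.Agent.P013.GainX

/-! The gain from the leaves of the lower sieve.

Proof plan. `ε` from `propG`; given `B` take `R, ω₀` from `propG (20 B)`, `ρ = 2^(R+3)`,
`G = 3 (R+3) log 2` (so `exp G = ρ^3`), `L = log y`, `ω = L^(1/20)`, `z = 2^Z`,
`D = y exp (-G)`. Roles `ι = Fin R ⊕ Fin 3` with ranges of box indices
`I (inr 0) = Ico ⌈ω^18⌉₊ Z`, `I (inr 1) = Ico ⌈ω^2⌉₊ ⌊ω^4⌋₊`, `I (inr 2) = Ico ⌈ω^12⌉₊ ⌊ω^14⌋₊`,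
`I (inl i) = Ico (a ϱ^i) (a ϱ^(i+1))`, `a = ⌈ω^6⌉₊`, `ϱ = ⌈1000 log ω⌉₊`, `a ϱ^R ≤ ω^10`; they are
pairwise disjoint for large `ω`, and `Z ≥ ω^20/2`. Let `G₀` be the elements of
`good D (2G) t C z` having a prime in each range. For `s` in `good`, `p = lo s` satisfies
`ω^20 ≤ p ≤ ω^(20 B)`. The others satisfy the conclusion of `gap_smooth` for some range
`Ico a' b'` with `b'/(4 a') ≥ 250 log ω`, so by `rankin` (`log z ≤ L`, `1/log p ≤ 1`) they weigh at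
most `(R+3) ω^(-250) (C L)^3 ≤ L^(-3)`. Apply `family_avg` with `Lv` the leaves at level `y`,
`f s = sift N y (pr s) (lo s)`, `φ s = ε y/(pr s log (lo s))` (non negative). For an active
`(m, j, x)`, `s = m ∪ image x ∈ G₀`: `j` is injective, `p = lo s ∈ m` (as `p < 2^(j i)`), every
member `s'` has `lo s' = p`, the same size as `s`, `pr s' = pr m ∏ x' i` (`pr_family`),
`pr s ≤ ρ pr m 2^(∑ j) ≤ ρ pr s'`; `s' ⊆ z.primesBelow` since `j i < Z`; `ok_family` gives `Ok`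
at level `D ρ^3 = y`; `y ≤ pr s' p^2`; so `s'` is a leaf (`leaf_iff`, `pr_erase`). The sum
inequality is `propG` after `sum_piFinset_roles` (`Fintype.prod_sum_type`,
`Fin.prod_univ_three`). -/

open Finset

namespace Vale.Agent.P013

open GainX in
theorem leaf_gain : ∃ ε : ℝ, 0 < ε ∧ ∀ B : ℕ, ∃ (G : ℝ) (y₀ : ℕ), 0 ≤ G ∧
    ∀ (y Z : ℕ) (N : ℤ) (t C : ℝ), y₀ ≤ y → y ≤ (2 ^ Z) ^ 2 →
    ((2 : ℝ) ^ Z) ^ 3 ≤ (y * Real.exp (-G)) ^ 2 → Real.log (Real.log y) ≤ t / C →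
    C * t ≤ B * Real.log (Real.log y) →
    ε * y * (∑ s ∈ good (y * Real.exp (-G)) (2 * G) t C (2 ^ Z),
        1 / (pr s * Real.log (lo s)) - 1 / Real.log y ^ 3) ≤
      ∑ s ∈ leafS 3 1 y (2 ^ Z).primesBelow, (sift N y (pr s) (lo s) : ℝ) := by
  classical
  obtain ⟨ε, hε, hP⟩ := propG
  obtain ⟨K, hK, hR⟩ := rankin
  refine ⟨ε, hε, fun B => ?_⟩
  obtain ⟨R, ω₀, hP⟩ := hP (20 * B)
  obtain ⟨ω₁, hω₁⟩ := ranges R
  have hc : Fintype.card (Fin R ⊕ Fin 3) = R + 3 := by simp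
  set ρ : ℝ := 2 ^ Fintype.card (Fin R ⊕ Fin 3) with hρ
  have hρ1 : 1 ≤ ρ := one_le_pow₀ one_le_two
  have hG := Real.log_nonneg (one_le_pow₀ (n := 3) hρ1)
  refine ⟨Real.log (ρ ^ 3), ⌈Real.exp ((|ω₀| + |ω₁| + 320 * B + (R + 3) * K ^ 3 + 3) ^ 20)⌉₊, hG,
    fun y Z N t C hy hZ1 hZ2 ht1 ht2 => ?_⟩
  have hy1 := Nat.ceil_le.1 hy
  have hy0 : (0 : ℝ) < y := (Real.exp_pos _).trans_le hy1
  rw [← Real.le_log_iff_exp_le hy0] at hy1
  obtain ⟨ω, hω0, hω⟩ : ∃ ω : ℝ, 0 ≤ ω ∧ ω ^ 20 = Real.log y := by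
    have h := (by positivity : (0 : ℝ) ≤ _).trans hy1
    exact ⟨Real.log y ^ ((20 : ℕ) : ℝ)⁻¹, Real.rpow_nonneg h _,
      Real.rpow_inv_natCast_pow h (by norm_num)⟩
  rw [← hω] at hy1 ht1 ht2 ⊢
  have hbig := le_of_pow_le_pow_left₀ (by norm_num) hω0 hy1
  clear hy hy1
  have hB0 : (0 : ℝ) ≤ B := Nat.cast_nonneg B
  have hK0 : (0 : ℝ) ≤ (R + 3) * K ^ 3 := by positivity
  have ha0 := abs_nonneg ω₀
  have ha1 := abs_nonneg ω₁
  have hω3 : 3 ≤ ω := by linarith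
  have hω1 : 1 ≤ ω := by linarith
  obtain ⟨ϱ, A, hϱ, hϱ1, hA, hdis⟩ := hω₁ ω (by linarith [le_abs_self ω₁])
  have heG : Real.exp (Real.log (ρ ^ 3)) = ρ ^ 3 := Real.exp_log (by positivity)
  set D : ℝ := y * Real.exp (-Real.log (ρ ^ 3)) with hD
  have hD1 : D * ρ ^ 3 = y := by
    rw [hD, Real.exp_neg, heG]
    field_simp
  have hD0 : 0 < D := by positivity
  have hD2 : Real.exp (2 * Real.log (ρ ^ 3)) * D = y * ρ ^ 3 := by
    rw [two_mul, Real.exp_add, heG, ← hD1]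
    ring
  have hz1 : (1 : ℝ) ≤ 2 ^ Z := one_le_pow₀ one_le_two
  have hz2 : (2 : ℝ) ^ Z ≤ D ^ 2 := (le_self_pow₀ hz1 (by norm_num)).trans hZ2
  have hZ3 : ω ^ 20 ≤ 2 * Z := hω ▸ log_le_Z hy0 hZ1
  have hAZ : ∀ i, A i * ϱ ≤ Z := fun i => Nat.cast_le (α := ℝ).1 (by
    linarith [(hA i).2, pow_le_pow_right₀ hω1 (show ee R i + 2 ≤ 20 by linarith [(ee_bd i).2])])
  have hA2 : ∀ i, ω ^ 2 ≤ A i := fun i => (pow_le_pow_right₀ hω1 (ee_bd i).1).trans (hA i).1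
  have hp : ∀ s ∈ good D (2 * Real.log (ρ ^ 3)) t C (2 ^ Z), ω ^ 20 ≤ lo s ∧
      lo s ≤ ω ^ (20 * B) ∧ 1 ≤ Real.log (lo s) ∧ ∀ i, lo s ^ 8 < 2 ^ A i := by
    intro s hs
    obtain ⟨h1, h2, -, -, -, -, h3, h4⟩ := mem_good.1 hs
    obtain ⟨h5, h6, h7, h8⟩ := lo_bd (B := B) (by linarith)
      (Nat.cast_pos.2 (Nat.prime_of_mem_primesBelow (h1 (lo_mem h2))).pos) (ht1.trans h3)
      (h4.trans ht2)
    exact ⟨h5, h6, h7, fun i => h8 _ (hA2 i)⟩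
  have hbad := bad_le (z := 2 ^ Z) (t := t) (C := C) (by exact_mod_cast hZ2)
    (le_of_pow_le_pow_left₀ two_ne_zero hD0.le (by linarith)) (show 0 ≤ 2 * Real.log (ρ ^ 3) by linarith) hϱ1 A
    (fun i => (pow_le_pow_right₀ one_le_two (hAZ i)).trans hz2)
    (fun s hs => (hp s hs).2.2) (W := 1 / ω ^ 250 * (K * ω ^ 20) ^ 3) fun i => by
      have h1 : (0 : ℝ) < A i := lt_of_lt_of_le (by positivity) (hA2 i)
      have h2 : 1 ≤ A i := by exact_mod_cast h1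
      have h3 : 1 ≤ Z := le_trans (Nat.mul_pos h2 hϱ1) (hAZ i)
      refine (hR (2 ^ Z) _ _ (Nat.le_self_pow (by omega) 2) h2).trans ?_
      have h4 : Real.log (2 ^ Z : ℕ) ≤ ω ^ 20 := by
        rw [hω]
        refine Real.log_le_log (by positivity) ?_
        have h5 : D ≤ y := hD1 ▸ le_mul_of_one_le_right hD0.le (one_le_pow₀ hρ1)
        refine le_trans (le_of_pow_le_pow_left₀ two_ne_zero hD0.le ?_) h5
        push_cast
        exact (pow_le_pow_right₀ hz1 (by norm_num)).trans hZ2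
      have h5 := exp_bd (by linarith) h2 hϱ
      have h6 := Real.log_natCast_nonneg (2 ^ Z)
      gcongr
  replace hbad := hbad.trans (num_bd hω1 (by rw [hc]; push_cast; linarith))
  have hmain := family_avg (fun i => Ico (A i) (A i * ϱ)) hdis (leafS 3 1 y (2 ^ Z).primesBelow)
    ((good D (2 * Real.log (ρ ^ 3)) t C (2 ^ Z)).filter
      fun s => ∀ i, ∃ q ∈ s, Nat.log 2 q ∈ Ico (A i) (A i * ϱ))
    (fun s => (sift N y (pr s) (lo s) : ℝ)) (fun s => ε * y * (1 / (pr s * Real.log (lo s))))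
    (fun s => Nat.cast_nonneg _) (fun s => by have := Real.log_natCast_nonneg (lo s); positivity)
    (fun s hs => ⟨fun q hq => Nat.prime_of_mem_primesBelow ((mem_good.1 (mem_filter.1 hs).1).1 hq),
      (mem_filter.1 hs).2⟩) ?_
  · rw [← mul_sum] at hmain
    refine le_trans (mul_le_mul_of_nonneg_left ?_ (by positivity)) hmain
    rw [← sum_filter_add_sum_filter_not _
      fun s => ∀ i, ∃ q ∈ s, Nat.log 2 q ∈ Ico (A i) (A i * ϱ)]
    linarith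
  intro m j x hj hx hs
  replace hs := (mem_filter.1 hs).1
  have hj' : ∀ i, ω ^ ee R i ≤ j i ∧ j i ≤ ω ^ (ee R i + 2) := fun i => by
    have h1 : (A i : ℝ) ≤ j i := by exact_mod_cast (mem_Ico.1 (hj i)).1
    have h2 : (j i : ℝ) ≤ (A i * ϱ : ℕ) := by exact_mod_cast (mem_Ico.1 (hj i)).2.le
    exact ⟨(hA i).1.trans h1, by linarith [(hA i).2, Nat.cast_nonneg (α := ℝ) (j i)]⟩
  have hinj : Function.Injective j := fun i i' h => by
    by_contra h1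
    exact disjoint_left.1 (hdis i i' h1) (hj i) (h ▸ hj i')
  obtain ⟨p, hpe⟩ : ∃ p, lo (m ∪ univ.image x) = p := ⟨_, rfl⟩
  obtain ⟨hp1, hp2, -, hp3⟩ := hp _ hs
  rw [hpe] at hp1 hp2 hp3
  obtain ⟨h1, h2, h3, h4⟩ := fam hD1 hD2 hinj (fun i => (mem_Ico.1 (hj i)).2.trans_le (hAZ i))
    hx hs hpe fun i => ((Nat.le_self_pow (by norm_num) _).trans_lt (hp3 i)).trans_le
      (Nat.pow_le_pow_right two_pos (mem_Ico.1 (hj i)).1)
  refine ⟨fun x' hx' => (h4 x' hx').2, ?_⟩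
  have e1 : ∑ i, j i = j (.inr 0) + j (.inr 1) + ∑ i, j (.inl i) + j (.inr 2) := by
    rw [Fintype.sum_sum_type, Fin.sum_univ_three]
    ring
  rw [e1] at h2 h3
  rw [hc] at h2
  have h5 := hP y ω N p m (j (.inr 0)) (j (.inr 1)) (j (.inr 2)) (fun i => j (.inl i))
    (by linarith [le_abs_self ω₀]) hω hp1 hp2 h1 (hj' (.inr 1)).1 (hj' (.inr 1)).2
    (fun i => ⟨(hj' (.inl i)).1, (hj' (.inl i)).2.trans
      (pow_le_pow_right₀ hω1 (show 6 + 2 ≤ 10 by norm_num))⟩)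
    (hinj.comp Sum.inl_injective) (hj' (.inr 2)).1 (hj' (.inr 2)).2 (hj' (.inr 0)).1 h2 h3
  have e2 : ∀ (u : Fin R → ℕ) (a b c : ℕ), pr m * ∏ i, Sum.elim u ![a, b, c] i =
      pr m * a * b * (∏ i, u i) * c := fun u a b c => by
    rw [Fintype.prod_sum_type, Fin.prod_univ_three]
    simp only [Sum.elim_inl, Sum.elim_inr, Matrix.cons_val_zero, Matrix.cons_val_one,
      Matrix.cons_val]
    ring
  refine (sum_congr rfl
    (g := fun x' => ε * y / Real.log p * (1 / ((pr m * ∏ i, x' i : ℕ) : ℝ)))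
    fun x' hx' => ?_).trans_le (le_trans ?_ (sum_congr rfl
      (f := fun x' => (sift N y (pr m * ∏ i, x' i) p : ℝ)) fun x' hx' => ?_).le)
  · rw [(h4 x' hx').1, (pr_family hinj hx').1]
    ring
  · rw [← mul_sum, sum_piFinset_roles, sum_piFinset_roles]
    simpa only [e2] using h5
  · rw [(h4 x' hx').1, (pr_family hinj hx').1]

end Vale.Agent.P013
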