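import Vale.Agent.P013.Defs

/-! Growth bounds for `ζ` and Dirichlet `L`-functions slightly to the left of `Re s = 1`.

Proof plan.
* `Zf` is entire: compare with `DirichletCharacter.LFunctionTrivChar₁ 1`
  (`differentiable_LFunctionTrivChar₁`, `LFunction_modOne_eq`), or use
  `riemannZeta_residue_one` and a removable singularity.
* For `χ ≠ 1` mod `Q` put `b n = Q * (n / Q + 1)` (end of the block of `n`) and
  `T n s = χ n * (n^(-s) - (b n)^(-s))`, `n ≥ 1`. Then `‖T n s‖ ≤ 2 n^(-σ)` and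
  `‖T n s‖ ≤ Q ‖s‖ n^(-σ-1)` (mean value inequality for `u ↦ u^(-s)` on `[n, n+Q]`), hence
  `‖T n s‖ ≤ 2 (Q ‖s‖)^θ n^(-σ-θ)` for `0 ≤ θ ≤ 1` (`min a b ≤ a^(1-θ) b^θ`). With `θ = 1` the
  series is locally uniformly convergent on `Re s > 0` (`differentiableOn_tsum_of_summable_norm`
  on `{δ < re s, ‖s‖ < R}`); for `Re s > 1` it equals `LSeries χ s` because
  `∑ χ n (b n)^(-s) = - χ 0 * Q^(-s) = 0` (sum over full blocks, `MulChar.sum_eq_zero_of_ne_one`;
  `χ 0 = 0` as `Q ≠ 1`); identity theorem on the half plane `Re s > 0`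
  (`AnalyticOnNhd.eqOn_of_preconnected_of_eventuallyEq`). Take `θ = 2 ε`:
  `∑ n^(-1-ε)` converges.
* For `ζ`: terms `U n s = (s-1) n^(-s) - n^(1-s) + (n+1)^(1-s)`, `n ≥ 1`, entire in `s`, with
  `‖U n s‖ ≤ ‖s-1‖ * min (2 n^(-σ)) (‖s‖ n^(-σ-1))` (it is `(s-1) ∫_n^(n+1) (n^(-s) - u^(-s)) du`;
  or apply the mean value inequality to `u ↦ (s-1) n^(-s) (u-n) + u^(1-s)`); the sum is
  `(s-1) ζ(s) - 1 = Zf s - 1` for `Re s > 1` (telescoping). So
  `‖Zf s - 1‖ ≤ C ‖s-1‖ (‖s‖+1)^(2ε)`, and `zeta0 s = (Zf s - 1)/(s-1)` for `s ≠ 1`; at `s = 1`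
  enlarge the constant by `‖zeta0 1‖`. -/

open Finset

namespace Vale.Agent.P013

theorem Zf_one : Zf 1 = 1 := by simp [Zf]

theorem Zf_eq {s : ℂ} (hs : s ≠ 1) : Zf s = (s - 1) * riemannZeta s := by
  simp [Zf, Function.update_of_ne hs]

theorem differentiable_Zf : Differentiable ℂ Zf := by
  have := DirichletCharacter.differentiable_LFunctionTrivChar₁ 1
  unfold Zf
  simpa [DirichletCharacter.LFunctionTrivChar₁, DirichletCharacter.LFunctionTrivChar] using this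

theorem differentiable_zeta0 : Differentiable ℂ zeta0 :=
  differentiableOn_univ.1 ((Complex.differentiableOn_dslope Filter.univ_mem).2
    differentiable_Zf.differentiableOn)

theorem zeta0_eq {s : ℂ} (hs : s ≠ 1) : zeta0 s = riemannZeta s - 1 / (s - 1) := by
  have := sub_ne_zero.2 hs
  rw [zeta0, dslope_of_ne _ hs, slope_def_field, Zf_one, Zf_eq hs]
  field_simp

theorem Zf_eq_zeta0 (s : ℂ) : Zf s = 1 + (s - 1) * zeta0 s := by
  have := sub_smul_dslope Zf 1 s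
  rw [smul_eq_mul, Zf_one] at this
  rw [zeta0, this, add_sub_cancel]

theorem growth_deriv {u : ℝ} (hu : 0 < u) (r : ℂ) :
    HasDerivAt (fun y : ℝ => (y : ℂ) ^ r) (r * (u : ℂ) ^ (r - 1)) u :=
  (Complex.hasStrictDerivAt_cpow_const (Complex.ofReal_mem_slitPlane.2 hu)).hasDerivAt.comp_ofReal

theorem growth_diff {a b D θ : ℝ} (ha : 0 < a) (hab : a ≤ b) (hD : b - a ≤ D) {s : ℂ}
    (hs : 0 < s.re) (h0 : 0 ≤ θ) (h1 : θ ≤ 1) :
    ‖(a : ℂ) ^ (-s) - (b : ℂ) ^ (-s)‖ ≤ 2 * (D * (‖s‖ + 1)) ^ θ * a ^ (-s.re - θ) := by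
  have hD0 : 0 ≤ D := by linarith
  have p : 0 < a ^ (-s.re) := by positivity
  have k1 : ‖(a : ℂ) ^ (-s) - (b : ℂ) ^ (-s)‖ ≤ 2 * a ^ (-s.re) := by
    refine (norm_sub_le _ _).trans ?_
    rw [Complex.norm_cpow_eq_rpow_re_of_pos ha, Complex.norm_cpow_eq_rpow_re_of_pos (by linarith),
      Complex.neg_re]
    linarith [Real.rpow_le_rpow_of_nonpos ha hab (neg_nonpos.2 hs.le)]
  have k2 : ‖(a : ℂ) ^ (-s) - (b : ℂ) ^ (-s)‖ ≤ D * (‖s‖ + 1) / a * a ^ (-s.re) := by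
    have := norm_image_sub_le_of_norm_deriv_le_segment' (C := ‖s‖ * a ^ (-s.re - 1))
      (fun u hu => (growth_deriv (ha.trans_le hu.1) (-s)).hasDerivWithinAt) (fun u hu => by
        rw [norm_mul, norm_neg, Complex.norm_cpow_eq_rpow_re_of_pos (ha.trans_le hu.1)]
        exact mul_le_mul_of_nonneg_left (Real.rpow_le_rpow_of_nonpos ha hu.1
          (by simp; linarith)) (norm_nonneg _)) b (Set.right_mem_Icc.2 hab)
    rw [norm_sub_rev, Real.rpow_sub_one ha.ne'] at this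
    calc _ ≤ _ := this
      _ ≤ (‖s‖ + 1) * (a ^ (-s.re) / a) * D := by gcongr <;> linarith
      _ = _ := by ring
  rw [Real.rpow_sub ha, mul_div_assoc', mul_right_comm, mul_div_assoc,
    ← Real.div_rpow (by positivity) ha.le]
  generalize ht : D * (‖s‖ + 1) / a = t at k2
  have t0 : 0 ≤ t := by rw [← ht]; positivity
  rcases le_total t 1 with h | h
  · nlinarith [Real.self_le_rpow_of_le_one t0 h h1]
  · nlinarith [Real.one_le_rpow h h0]

theorem growth_summable {δ : ℝ} (hδ : 0 < δ) : Summable fun n : ℕ => ((n : ℝ) + 1) ^ (-δ - 1) := by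
  exact_mod_cast (summable_nat_add_iff 1).2
    (Real.summable_nat_rpow.2 (show -δ - 1 < -1 by linarith))

theorem growth_main {F : ℂ → ℂ} (hF : Differentiable ℂ F) {T : ℕ → ℂ → ℂ}
    (hT : ∀ n, Differentiable ℂ (T n)) {w : ℂ → ℝ} (w0 : ∀ s, 0 ≤ w s) (w1 : ∀ s, w s ≤ ‖s‖ + 1)
    {D : ℝ} (hD : 0 ≤ D) (hb : ∀ n s θ, 0 < s.re → 0 ≤ θ → θ ≤ 1 →
      ‖T n s‖ ≤ w s * (2 * (D * (‖s‖ + 1)) ^ θ * ((n : ℝ) + 1) ^ (-s.re - θ)))
    (he : ∀ s, 1 < s.re → Summable (T · s) → F s = ∑' n, T n s) {ε : ℝ} (hε : 0 < ε)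
    (hε' : ε ≤ 1 / 2) {s : ℂ} (hs : 1 - ε ≤ s.re) :
    ‖F s‖ ≤ w s * (2 * (D * (‖s‖ + 1)) ^ (2 * ε)) * ∑' n : ℕ, ((n : ℝ) + 1) ^ (-ε - 1) := by
  have n1 : ∀ n : ℕ, (1 : ℝ) ≤ n + 1 := fun n => le_add_of_nonneg_left n.cast_nonneg
  let U : Set ℂ := {z | 1 / 4 < z.re} ∩ Metric.ball 0 (‖s‖ + 3)
  have hU : IsOpen U := (isOpen_lt continuous_const Complex.continuous_re).inter Metric.isOpen_ball
  have k1 : ∀ n, ∀ z ∈ U, ‖T n z‖ ≤
      (‖s‖ + 4) * (2 * (D * (‖s‖ + 4))) * ((n : ℝ) + 1) ^ (-(1 / 4 : ℝ) - 1) := fun n z hz => by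
    have h1 : 1 / 4 < z.re := hz.1
    have h2 : ‖z‖ + 1 ≤ ‖s‖ + 4 := by linarith [mem_ball_zero_iff.1 hz.2]
    refine (hb n z 1 (by linarith) zero_le_one le_rfl).trans ?_
    rw [Real.rpow_one, mul_assoc (‖s‖ + 4)]
    have := (w1 z).trans h2
    have := Real.rpow_le_rpow_of_exponent_le (n1 n)
      (show -z.re - 1 ≤ -(1 / 4 : ℝ) - 1 by linarith)
    gcongr
  have k2 := (growth_summable (show (0 : ℝ) < 1 / 4 by norm_num)).mul_left
    ((‖s‖ + 4) * (2 * (D * (‖s‖ + 4))))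
  have k3 := Complex.differentiableOn_tsum_of_summable_norm k2
    (fun n => (hT n).differentiableOn) hU k1
  have k4 : (2 : ℂ) ∈ U := ⟨by norm_num, mem_ball_zero_iff.2 (by
    rw [Complex.norm_two]; linarith [norm_nonneg s])⟩
  have k5 := (hF.differentiableOn.analyticOnNhd hU).eqOn_of_preconnected_of_eventuallyEq
    (k3.analyticOnNhd hU) ((convex_halfSpace_re_gt _).inter (convex_ball _ _)).isPreconnected k4
    (Filter.eventually_of_mem ((hU.inter (isOpen_lt continuous_const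
      Complex.continuous_re)).mem_nhds ⟨k4, show (1 : ℝ) < (2 : ℂ).re by norm_num⟩)
      fun z hz => he z hz.2 (k2.of_norm_bounded fun n => k1 n z hz.1))
  rw [k5 ⟨show 1 / 4 < s.re by linarith, mem_ball_zero_iff.2 (by linarith)⟩]
  refine tsum_of_norm_bounded ((growth_summable hε).hasSum.mul_left _) fun n =>
    (hb n s (2 * ε) (by linarith) (by linarith) (by linarith)).trans ?_
  rw [mul_assoc (w s)]
  have := w0 s
  have := Real.rpow_le_rpow_of_exponent_le (n1 n) (show -s.re - 2 * ε ≤ -ε - 1 by linarith)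
  gcongr

theorem growth_cpow (a : ℕ) {f : ℂ → ℂ} (hf : Differentiable ℂ f) :
    Differentiable ℂ fun s => (((a : ℝ) + 1 : ℝ) : ℂ) ^ f s :=
  hf.const_cpow (Or.inl (Complex.ofReal_ne_zero.2 (by positivity)))

theorem growth_pos {ε : ℝ} (hε : 0 < ε) : 0 < ∑' n : ℕ, ((n : ℝ) + 1) ^ (-ε - 1) :=
  (growth_summable hε).tsum_pos (fun _ => by positivity) 0 (by positivity)

theorem growth_Zf {ε : ℝ} (hε : 0 < ε) (hε' : ε ≤ 1 / 2) {s : ℂ} (hs : 1 - ε ≤ s.re) :
    ‖Zf s - 1‖ ≤ ‖s - 1‖ * (2 * (1 * (‖s‖ + 1)) ^ (2 * ε)) *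
      ∑' n : ℕ, ((n : ℝ) + 1) ^ (-ε - 1) := by
  let e : ℕ → ℂ → ℂ := fun n s => (((n : ℝ) + 1 : ℝ) : ℂ) ^ s
  refine growth_main (F := fun s => Zf s - 1) (differentiable_Zf.sub_const 1)
    (T := fun n s => (s - 1) * e n (-s) + (e (n + 1) (1 - s) - e n (1 - s)))
    (fun n => ((differentiable_id.sub_const 1).mul (growth_cpow n differentiable_neg)).add
      ((growth_cpow (n + 1) (by fun_prop)).sub (growth_cpow n (by fun_prop))))
    (w := fun s => ‖s - 1‖) (fun _ => norm_nonneg _) (fun s => by simpa using norm_sub_le s 1)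
    zero_le_one (fun n s θ h h0 h1 => ?_) (fun s h hS => ?_) hε hε' hs
  · have p : (0 : ℝ) < n + 1 := by positivity
    have := norm_image_sub_le_of_norm_deriv_le_segment' (a := (n : ℝ) + 1) (b := n + 1 + 1)
      (f := fun u : ℝ => (s - 1) * e n (-s) * u + (u : ℂ) ^ (1 - s))
      (fun u hu => ((Complex.ofRealCLM.hasDerivAt.const_mul _).add
        (growth_deriv (p.trans_le hu.1) (1 - s))).hasDerivWithinAt)
      (C := ‖s - 1‖ * (2 * (1 * (‖s‖ + 1)) ^ θ * ((n : ℝ) + 1) ^ (-s.re - θ))) (fun u hu => by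
        refine le_of_eq_of_le ?_ (mul_le_mul_of_nonneg_left
          (growth_diff p hu.1 (by linarith [hu.2]) h h0 h1) (norm_nonneg _))
        rw [← norm_mul, sub_sub_cancel_left]
        congr 1
        simp only [e, Complex.ofRealCLM_apply, Complex.ofReal_one]
        ring) _ (Set.right_mem_Icc.2 (by linarith))
    rw [add_sub_cancel_left, mul_one] at this
    refine le_of_eq_of_le (congrArg _ ?_) this
    simp only [e]
    push_cast
    ring
  · have k1 : Summable fun n => (s - 1) * e n (-s) := by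
      have := ((summable_nat_add_iff 1).2 (Complex.summable_one_div_nat_cpow.2 h)).mul_left (s - 1)
      simpa [e, Complex.cpow_neg] using this
    have k2 : Summable fun n => e (n + 1) (1 - s) - e n (1 - s) := by simpa using hS.sub k1
    have k3 : Filter.Tendsto (fun n => e n (1 - s)) Filter.atTop (nhds 0) := by
      refine tendsto_zero_iff_norm_tendsto_zero.2 ?_
      have := (tendsto_rpow_neg_atTop (sub_pos.2 h)).comp
        (Filter.tendsto_atTop_add_const_right _ 1 tendsto_natCast_atTop_atTop)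
      refine this.congr fun n => ?_
      simp only [e]
      rw [Complex.norm_cpow_eq_rpow_re_of_pos (by positivity)]
      simp
    have k4 := k2.hasSum.tendsto_sum_nat
    simp only [sum_range_sub fun n => e n (1 - s)] at k4
    rw [k1.tsum_add k2, tendsto_nhds_unique k4 (k3.sub_const _), tsum_mul_left,
      Zf_eq (by rintro rfl; simp at h), zeta_eq_tsum_one_div_nat_add_one_cpow h]
    simp [e, Complex.cpow_neg, sub_eq_add_neg]

theorem zeta0_growth {ε : ℝ} (hε : 0 < ε) (hε' : ε ≤ 1 / 2) : ∃ C : ℝ, 0 < C ∧ ∀ s : ℂ,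
    1 - ε ≤ s.re → ‖zeta0 s‖ ≤ C * (‖s‖ + 1) ^ (2 * ε) := by
  have p := growth_pos hε
  refine ⟨2 * ∑' n : ℕ, ((n : ℝ) + 1) ^ (-ε - 1) + ‖zeta0 1‖, by positivity, fun s hs => ?_⟩
  have k0 := Real.one_le_rpow (le_add_of_nonneg_left (norm_nonneg s) : 1 ≤ ‖s‖ + 1)
    (show 0 ≤ 2 * ε by linarith)
  rcases eq_or_ne s 1 with rfl | h
  · nlinarith [norm_nonneg (zeta0 1)]
  · have k := growth_Zf hε hε' hs
    rw [Zf_eq_zeta0, add_sub_cancel_left, norm_mul, mul_assoc, one_mul] at k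
    have := le_of_mul_le_mul_left k (norm_pos_iff.2 (sub_ne_zero.2 h))
    nlinarith [norm_nonneg (zeta0 1)]

theorem Lfun_growth {ε : ℝ} (hε : 0 < ε) (hε' : ε ≤ 1 / 2) : ∃ C : ℝ, 0 < C ∧
    ∀ (Q : ℕ) [NeZero Q] (χ : DirichletCharacter ℂ Q), χ ≠ 1 → ∀ s : ℂ, 1 - ε ≤ s.re →
      ‖DirichletCharacter.LFunction χ s‖ ≤ C * (Q * (‖s‖ + 1)) ^ (2 * ε) := by
  have p := growth_pos hε
  refine ⟨2 * ∑' n : ℕ, ((n : ℝ) + 1) ^ (-ε - 1), by positivity, fun Q _ χ hχ s hs => ?_⟩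
  have hQ := NeZero.pos Q
  let e : ℕ → ℂ → ℂ := fun n s => (((n : ℝ) + 1 : ℝ) : ℂ) ^ (-s)
  refine (growth_main (χ.differentiable_LFunction hχ)
    (T := fun n s => χ (n + 1) * (e n s - e (Q * (n / Q) + (Q - 1)) s))
    (fun n => ((growth_cpow n differentiable_neg).sub (growth_cpow _ differentiable_neg)).const_mul _)
    (w := fun _ => 1) (fun _ => zero_le_one) (fun s => le_add_of_nonneg_left (norm_nonneg s))
    Q.cast_nonneg (fun n s θ h h0 h1 => ?_) (fun s h hS => ?_) hε hε' hs).trans_eq (by ring)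
  · have k1 := Nat.div_add_mod n Q
    have k2 := Nat.mod_lt n hQ
    rw [norm_mul]
    refine mul_le_mul (χ.norm_le_one _) (growth_diff (by positivity) ?_ ?_ h h0 h1) (norm_nonneg _)
      zero_le_one
    · exact_mod_cast (by omega : n + 1 ≤ Q * (n / Q) + (Q - 1) + 1)
    · rw [sub_le_iff_le_add]
      exact_mod_cast (by omega : Q * (n / Q) + (Q - 1) + 1 ≤ Q + (n + 1))
  · have k0 := χ.LSeriesSummable_of_one_lt_re h
    have e1 : ∀ n : ℕ, LSeries.term (fun n : ℕ => χ n) s (n + 1) = χ (n + 1) * e n s := fun n => by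
      simp [e, Complex.cpow_neg, div_eq_mul_inv]
    have k1 : Summable fun n : ℕ => χ (n + 1) * e n s :=
      ((summable_nat_add_iff 1).2 k0).congr e1
    have k2 : Summable fun n : ℕ => χ (n + 1) * e (Q * (n / Q) + (Q - 1)) s := by
      simpa [mul_sub] using k1.sub hS
    simp only [mul_sub]
    rw [k1.tsum_sub k2, Nat.sumByResidueClasses k2 Q, χ.LFunction_eq_LSeries h, LSeries,
      k0.tsum_eq_zero_add, LSeries.term_zero, zero_add, tsum_congr e1]
    have e2 : ∀ (j : ZMod Q) (m : ℕ), (j.val + Q * m) / Q = m := fun j m => by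
      rw [Nat.add_mul_div_left _ _ hQ, Nat.div_eq_of_lt j.val_lt, zero_add]
    simp only [e2, Nat.cast_add, Nat.cast_mul, ZMod.natCast_self, zero_mul, add_zero,
      ZMod.natCast_zmod_val, tsum_mul_left, ← sum_mul]
    rw [Fintype.sum_equiv (Equiv.addRight 1) (fun j => χ (j + 1)) χ fun _ => rfl,
      χ.sum_eq_zero_of_ne_one hχ, zero_mul, sub_zero]

end Vale.Agent.P013
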