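import Vale.Agent.P013.Defs

/-! Inverse theorem, part A: choice of the candidates (Schwartz-Zippel).

Proof plan. Average over all `B ∈ 𝔅 = piFinset (fun i => piFinset (fun _ : Fin n => Q i))`.
* For fixed `σ`, `∑_{B ∈ 𝔅} Φ (fun i => B i (σ i)) = (∏ |Q i|^(n-1)) ∑_{u ∈ piFinset Q} Φ u`.
  Hence the mean over `B` of `Y B = (∑_c ‖∑_σ F c (B σ)‖)/(|Cs| n^R) ∈ [0,1]` is at least `η`.
* The mean over `B` of `Z B = #{w | sgnSum (cof B) w = 0}/(n^R)^(2k)` is at most
  `z = (k/n^R)^k + n R/m > 0`: for fixed `w = (σ, σ')` consider the polynomial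
  `∑_j mon (σ j) - ∑_j mon (σ' j)` over `ℤ`, `mon σ = ∏_i ∏_{t ≠ σ i} X (i,t)`. The monomials
  `mon σ` are distinct for distinct `σ`, so if the polynomial vanishes every `σ j` equals some
  `σ' j'`; there are at most `(n^R)^k k^k` such `w`. Otherwise
  `MvPolynomial.schwartz_zippel_sum_degreeOf` (variables `Fin (R*n) ≃ Fin R × Fin n`, every
  degree `≤ 1`, sets `(Q i).image Nat.cast`) bounds the proportion of zeros by `n R / m`
  (a direct induction for multilinear polynomials is an alternative).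
* So some `B` has `Y B - (η/4) Z B / z ≥ 3η/4`, which gives both claims. -/

open Finset

namespace Vale.Agent.P013

open MvPolynomial in
theorem invA_sz {ι : Type} [Fintype ι] [DecidableEq ι] {p : MvPolynomial ι ℤ} (hp : p ≠ 0)
    (hd : ∀ i, p.degreeOf i ≤ 1) (Q : ι → Finset ℕ) {m : ℕ} (hm : 1 ≤ m)
    (hQ : ∀ i, m ≤ (Q i).card) :
    (((Fintype.piFinset Q).filter fun x => eval (fun i => (x i : ℤ)) p = 0).card : ℝ) ≤
      Fintype.card ι / m * (Fintype.piFinset Q).card := by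
  let e := Fintype.equivFin ι
  have h1 := schwartz_zippel_sum_degreeOf (p := rename e p)
    (fun h => hp (rename_injective e e.injective (h.trans (map_zero _).symm)))
    fun j => (Q (e.symm j)).map Nat.castEmbedding
  have h2 : ((Fintype.piFinset Q).filter fun x => eval (fun i => (x i : ℤ)) p = 0).card ≤
      ((Fintype.piFinset fun j => (Q (e.symm j)).map (Nat.castEmbedding (R := ℤ))).filter
        fun x => eval x (rename e p) = 0).card := by
    refine card_le_card_of_injOn (fun x j => (x (e.symm j) : ℤ)) (fun x hx => ?_)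
      fun x _ y _ h => funext fun i => by simpa using congrFun h (e i)
    obtain ⟨h3, h4⟩ := mem_filter.1 hx
    refine mem_filter.2 ⟨Fintype.mem_piFinset.2 fun j =>
      mem_map_of_mem _ (Fintype.mem_piFinset.1 h3 _), ?_⟩
    rw [eval_rename, ← h4]
    congr 2
    ext i
    simp
  have h3 : ∑ j, (((rename e p).degreeOf j : ℚ≥0) /
      (((Q (e.symm j)).map (Nat.castEmbedding (R := ℤ))).card : ℚ≥0)) ≤ Fintype.card ι / m := by
    refine (sum_le_card_nsmul _ _ ((1 : ℚ≥0) / m) fun j _ => ?_).trans_eq (by simp [div_eq_mul_inv])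
    rw [card_map, ← e.apply_symm_apply j, degreeOf_rename_of_injective e.injective,
      e.symm_apply_apply]
    gcongr
    · exact_mod_cast hd _
    · exact hQ _
  have h4 := h1.trans h3
  simp only [card_map] at h4
  rw [e.symm.prod_comp fun i => ((Q i).card : ℚ≥0), div_le_iff₀ (prod_pos fun i _ => by
    have := hQ i
    exact_mod_cast (by omega : 0 < (Q i).card))] at h4
  have h5 := (NNRat.cast_le (K := ℝ)).2 h4
  push_cast at h5
  rw [Fintype.card_piFinset, Nat.cast_prod]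
  exact le_trans (by exact_mod_cast h2) h5

open MvPolynomial in
theorem invA_good {R n k m : ℕ} (hm : 1 ≤ m) (Q : Fin R → Finset ℕ) (hQ : ∀ i, m ≤ (Q i).card)
    (w : (Fin k → Fin R → Fin n) × (Fin k → Fin R → Fin n)) (hw : ¬ ∀ j, ∃ j', w.1 j = w.2 j') :
    (((Fintype.piFinset fun v : Fin R × Fin n => Q v.1).filter
      fun x => sgnSum (cof fun i t => x (i, t)) w = 0).card : ℝ) ≤
      n * R / m * (Fintype.piFinset fun v : Fin R × Fin n => Q v.1).card := by
  let mon : (Fin R → Fin n) → MvPolynomial (Fin R × Fin n) ℤ := fun σ =>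
    ∏ i, ∏ t ∈ univ.erase (σ i), X (i, t)
  have h1 : ∀ x : Fin R × Fin n → ℕ, eval (fun v => (x v : ℤ)) (∑ j, mon (w.1 j) -
      ∑ j, mon (w.2 j)) = sgnSum (cof fun i t => x (i, t)) w := fun x => by
    simp [mon, sgnSum, cof]
  have h2 : ∀ σ v, (mon σ).degreeOf v ≤ 1 := fun σ v => by
    refine (degreeOf_prod_le _ _ _).trans ((sum_le_sum fun i _ => (degreeOf_prod_le _ _ _).trans
      (sum_le_sum_of_subset (subset_univ _))).trans ?_)
    rw [← Fintype.sum_prod_type' (fun i t => degreeOf v (X (i, t) : MvPolynomial _ ℤ))]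
    simp [degreeOf_X]
  have h3 := invA_sz (p := ∑ j, mon (w.1 j) - ∑ j, mon (w.2 j)) (fun h => ?_) (fun v =>
    (degreeOf_sub_le _ _ _).trans (max_le ((degreeOf_sum_le _ _ _).trans
      (Finset.sup_le fun j _ => h2 _ _)) ((degreeOf_sum_le _ _ _).trans
      (Finset.sup_le fun j _ => h2 _ _)))) (fun v : Fin R × Fin n => Q v.1) hm fun v => hQ _
  · simpa [h1, mul_comm (R : ℝ)] using h3
  push Not at hw
  obtain ⟨j, hj⟩ := hw
  have h4 := h1 fun v => if v.2 = w.1 j v.1 then 0 else 1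
  have h5 : ∀ j', cof (fun i t => if t = w.1 j i then 0 else 1) (w.2 j') = 0 := fun j' => by
    obtain ⟨i, hi⟩ := Function.ne_iff.1 (hj j')
    exact prod_eq_zero (mem_univ i) (prod_eq_zero (mem_erase.2 ⟨hi, mem_univ _⟩) (if_pos rfl))
  have h6 : cof (fun i t => if t = w.1 j i then 0 else 1) (w.1 j) = 1 :=
    prod_eq_one fun i _ => prod_eq_one fun t ht => if_neg (ne_of_mem_erase ht)
  rw [h, map_zero, sgnSum] at h4
  simp only [h5, Nat.cast_zero, sum_const_zero, sub_zero] at h4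
  have h7 := (sum_eq_zero_iff_of_nonneg fun _ _ => by positivity).1 h4.symm j (mem_univ _)
  rw [h6] at h7
  exact one_ne_zero h7

theorem invA_bad {S : Type} [Fintype S] [DecidableEq S] (k : ℕ) :
    (univ.filter fun w : (Fin k → S) × (Fin k → S) => ∀ j, ∃ j', w.1 j = w.2 j').card ≤
      k ^ k * Fintype.card S ^ k := by
  refine (card_le_card_of_surjOn (s := univ)
    (fun u : (Fin k → Fin k) × (Fin k → S) => (fun j => u.2 (u.1 j), u.2)) fun w hw => ?_).trans_eq
    (by simp)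
  choose f hf using (mem_filter.1 hw).2
  exact ⟨(f, w.2), by simp, Prod.ext (funext fun j => (hf j).symm) rfl⟩

theorem invA_fiber {R n : ℕ} (Q : Fin R → Finset ℕ) (σ : Fin R → Fin n) (Φ : (Fin R → ℕ) → ℂ) :
    ∑ x ∈ Fintype.piFinset fun v : Fin R × Fin n => Q v.1, Φ (fun i => x (i, σ i)) =
      (∏ i, (Q i).card ^ (n - 1) : ℕ) * ∑ u ∈ Fintype.piFinset Q, Φ u := by
  rw [← sum_fiberwise_of_maps_to (t := Fintype.piFinset Q) (g := fun x i => x (i, σ i))
    fun x hx => Fintype.mem_piFinset.2 fun i => Fintype.mem_piFinset.1 hx (i, σ i), mul_sum]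
  refine sum_congr rfl fun u hu => ?_
  rw [sum_congr rfl (g := fun _ => Φ u) fun x hx => by rw [(mem_filter.1 hx).2], sum_const,
    nsmul_eq_mul]
  congr 2
  have h : ((Fintype.piFinset fun v : Fin R × Fin n => Q v.1).filter
      fun x => (fun i => x (i, σ i)) = u) =
      Fintype.piFinset fun v : Fin R × Fin n => if v.2 = σ v.1 then {u v.1} else Q v.1 := by
    ext x
    simp only [mem_filter, Fintype.mem_piFinset, funext_iff]
    refine ⟨fun h v => ?_, fun h => ⟨fun v => ?_, fun i => by simpa using h (i, σ i)⟩⟩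
    · split_ifs with h1
      · rw [mem_singleton, ← h.2, ← h1]
      · exact h.1 v
    · have h1 := h v
      split_ifs at h1
      · rw [mem_singleton.1 h1]
        exact Fintype.mem_piFinset.1 hu _
      · exact h1
  rw [h, Fintype.card_piFinset, Fintype.prod_prod_type]
  refine prod_congr rfl fun i _ => ?_
  rw [← mul_prod_erase _ _ (mem_univ (σ i)), if_pos rfl, card_singleton, one_mul,
    prod_congr rfl (g := fun _ => (Q i).card) fun t ht => by rw [if_neg (ne_of_mem_erase ht)]]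
  simp

theorem invA_first {R n : ℕ} (hn : 1 ≤ n) {γ : Type} (Cs : Finset γ) (Q : Fin R → Finset ℕ)
    (F : γ → (Fin R → ℕ) → ℂ) {η : ℝ} (hb : η * (Cs.card * ∏ i, ((Q i).card : ℝ)) ≤
      ‖∑ c ∈ Cs, ∑ u ∈ Fintype.piFinset Q, F c u‖) :
    η * (Cs.card * (n : ℝ) ^ R) * (Fintype.piFinset fun v : Fin R × Fin n => Q v.1).card ≤
      ∑ x ∈ Fintype.piFinset fun v : Fin R × Fin n => Q v.1,
        ∑ c ∈ Cs, ‖∑ σ : Fin R → Fin n, F c (fun i => x (i, σ i))‖ := by
  have hcard : ((Fintype.piFinset fun v : Fin R × Fin n => Q v.1).card : ℝ) =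
      (∏ i, (Q i).card ^ (n - 1) : ℕ) * ∏ i, ((Q i).card : ℝ) := by
    rw [Fintype.card_piFinset, Fintype.prod_prod_type]
    push_cast
    rw [← prod_mul_distrib]
    refine prod_congr rfl fun i _ => ?_
    rw [← pow_succ, Nat.sub_add_cancel hn]
    simp
  refine le_trans ?_ ((norm_sum_le _ _).trans (sum_le_sum fun x _ => norm_sum_le _ _))
  rw [sum_comm, sum_congr rfl fun c _ => sum_comm, hcard]
  simp only [invA_fiber, sum_const, nsmul_eq_mul, ← mul_sum, norm_mul, Complex.norm_natCast]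
  generalize (∏ i, (Q i).card ^ (n - 1) : ℕ) = K
  have h2 := mul_le_mul_of_nonneg_left hb
    (mul_nonneg (pow_nonneg (Nat.cast_nonneg (α := ℝ) n) R) (Nat.cast_nonneg K))
  simp only [card_univ, Fintype.card_pi, Fintype.card_fin, prod_const, Nat.cast_pow]
  linarith

theorem invA_second {R n k m : ℕ} (hn : 1 ≤ n) (hm : 1 ≤ m) (Q : Fin R → Finset ℕ)
    (hQ : ∀ i, m ≤ (Q i).card) :
    ∑ x ∈ Fintype.piFinset fun v : Fin R × Fin n => Q v.1,
      ((univ.filter fun w : (Fin k → Fin R → Fin n) × (Fin k → Fin R → Fin n) =>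
        sgnSum (cof fun i t => x (i, t)) w = 0).card : ℝ) ≤
      ((k / (n : ℝ) ^ R) ^ k + n * R / m) * ((n : ℝ) ^ R) ^ (2 * k) *
        (Fintype.piFinset fun v : Fin R × Fin n => Q v.1).card := by
  simp only [card_filter, Nat.cast_sum]
  rw [sum_comm]
  refine (sum_le_sum (g := fun w => ((if ∀ j, ∃ j', w.1 j = w.2 j' then 1 else 0) + n * R / m) *
    ((Fintype.piFinset fun v : Fin R × Fin n => Q v.1).card : ℝ)) fun w _ => ?_).trans ?_
  · rw [← Nat.cast_sum, ← card_filter]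
    split_ifs with hw
    · exact (Nat.cast_le.2 (card_filter_le _ _)).trans
        (le_mul_of_one_le_left (Nat.cast_nonneg _) (le_add_of_nonneg_right (by positivity)))
    · rw [zero_add]
      exact invA_good hm Q hQ w hw
  rw [← sum_mul, sum_add_distrib, sum_boole]
  refine mul_le_mul_of_nonneg_right ?_ (Nat.cast_nonneg _)
  rw [add_mul]
  refine add_le_add ((Nat.cast_le.2 (invA_bad k)).trans_eq ?_) (le_of_eq ?_)
  · simp only [Fintype.card_pi, Fintype.card_fin, prod_const, card_univ]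
    push_cast
    rw [div_pow, two_mul, pow_add]
    field_simp
  · simp
    ring

theorem invA_pick {β : Type} {s : Finset β} (hs : s.Nonempty) (y z : β → ℝ) {η Y Z : ℝ}
    (hη : 0 < η) (hY : 0 < Y) (hZ : 0 < Z) (h1 : η * Y * s.card ≤ ∑ x ∈ s, y x)
    (h2 : ∑ x ∈ s, z x ≤ Z * s.card) (hy : ∀ x, y x ≤ Y) (hz : ∀ x, 0 ≤ z x) :
    ∃ x ∈ s, η / 2 * Y ≤ y x ∧ z x ≤ 4 / η * Z := by
  obtain ⟨x, hx, h3⟩ := exists_le_of_sum_le hs (f := fun _ => 3 / 4 * η)
    (g := fun x => y x / Y - η / 4 * (z x / Z)) (by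
      rw [sum_const, nsmul_eq_mul, sum_sub_distrib, ← sum_div, ← mul_sum, ← sum_div]
      have h3 : η * s.card ≤ (∑ x ∈ s, y x) / Y := by rw [le_div_iff₀ hY]; linarith
      have h4 : (∑ x ∈ s, z x) / Z ≤ s.card := by rw [div_le_iff₀ hZ]; linarith
      nlinarith)
  have h4 := (div_le_one hY).2 (hy x)
  have h5 : 0 ≤ η / 4 * (z x / Z) := by have := hz x; positivity
  refine ⟨x, hx, (le_div_iff₀ hY).1 (by linarith), ?_⟩
  rw [← div_le_iff₀ hZ, le_div_iff₀ hη]
  linarith

theorem exists_cands {R n k m : ℕ} (hR : 1 ≤ R) (hn : 1 ≤ n) (hm : 1 ≤ m) {γ : Type}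
    (Cs : Finset γ) (hC : Cs.Nonempty) (Q : Fin R → Finset ℕ) (hQ : ∀ i, m ≤ (Q i).card)
    (F : γ → (Fin R → ℕ) → ℂ) (hF : ∀ c u, ‖F c u‖ ≤ 1) {η : ℝ} (hη : 0 < η)
    (hb : η * (Cs.card * ∏ i, ((Q i).card : ℝ)) ≤
      ‖∑ c ∈ Cs, ∑ u ∈ Fintype.piFinset Q, F c u‖) :
    ∃ B : Fin R → Fin n → ℕ, (∀ i t, B i t ∈ Q i) ∧
      η / 2 * (Cs.card * (n : ℝ) ^ R) ≤
        ∑ c ∈ Cs, ‖∑ σ : Fin R → Fin n, F c (fun i => B i (σ i))‖ ∧
      ((univ.filter fun w : (Fin k → Fin R → Fin n) × (Fin k → Fin R → Fin n) =>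
          sgnSum (cof B) w = 0).card : ℝ) ≤
        4 / η * ((k / (n : ℝ) ^ R) ^ k + n * R / m) * ((n : ℝ) ^ R) ^ (2 * k) := by
  have hn0 : (0 : ℝ) < (n : ℝ) ^ R := pow_pos (by exact_mod_cast hn) _
  have hz : (0 : ℝ) < (k / (n : ℝ) ^ R) ^ k + n * R / m := by
    clear hb
    positivity
  obtain ⟨x, hx, h1, h2⟩ := invA_pick
    (Fintype.piFinset_nonempty.2 fun v => card_pos.1 (hm.trans (hQ _))) _ _ hη
    (mul_pos (by exact_mod_cast hC.card_pos) hn0) (mul_pos hz (pow_pos hn0 _))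
    (invA_first hn Cs Q F hb) (invA_second (k := k) hn hm Q hQ) (fun x => by
      rw [← nsmul_eq_mul]
      refine sum_le_card_nsmul _ _ _ fun c _ => (norm_sum_le _ _).trans ?_
      exact (sum_le_card_nsmul _ _ _ fun σ _ => hF _ _).trans_eq (by simp))
    fun _ => Nat.cast_nonneg _
  exact ⟨fun i t => x (i, t), fun i t => Fintype.mem_piFinset.1 hx (i, t), h1,
    h2.trans_eq (mul_assoc _ _ _).symm⟩

end Vale.Agent.P013
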