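import Vale.Agent.P013.InvC

/-! Inverse theorem, part D: choice of the parameters. -/

open Finset

namespace Vale.Agent.P013

theorem id_h4 {a t k H V d c js : ℕ} {η y1 y2 y3 Qs : ℝ} (hη : 0 < η) (hH : 8 / η ≤ 2 ^ H)
    (h1 : 0 ≤ y1) (h1' : y1 ≤ 1 / 2 ^ a) (h2 : 0 ≤ y2) (h2' : y2 ≤ 1 / 2 ^ a) (h3 : 0 ≤ y3)
    (h3' : y3 ≤ 2 ^ d / 2 ^ a) (hQ : (2 : ℝ) ^ js ≤ 2 ^ c * Qs)
    (hs : 7 + k + t + H + V + (2 * H * k + (H + d + 1)) * (2 * t) + ((H + 1) * (2 * t + 1) + c)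
      ≤ js) :
    128 * k * t / η * 2 ^ (a * (2 * t - 1) + V) *
      ((8 / η) ^ (2 * k) * (4 / η * (y1 + y2) + y3)) ^ (2 * t) ≤ (η / 16) ^ (2 * t + 1) * Qs := by
  have e1 : 4 / η * (y1 + y2) + y3 ≤ 2 ^ (H + d + 1) / 2 ^ a := by
    have e2 : 4 / η * (y1 + y2) ≤ 2 ^ H / 2 ^ a := by
      calc 4 / η * (y1 + y2) ≤ 4 / η * (1 / 2 ^ a + 1 / 2 ^ a) := by gcongr
        _ = 8 / η / 2 ^ a := by ring
        _ ≤ _ := by gcongr
    have e3 : (2 : ℝ) ^ H ≤ 2 ^ (H + d) := pow_le_pow_right₀ one_le_two (by omega)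
    have e4 : (2 : ℝ) ^ d ≤ 2 ^ (H + d) := pow_le_pow_right₀ one_le_two (by omega)
    calc _ ≤ (2 : ℝ) ^ H / 2 ^ a + 2 ^ d / 2 ^ a := add_le_add e2 h3'
      _ ≤ 2 ^ (H + d) / 2 ^ a + 2 ^ (H + d) / 2 ^ a := by gcongr
      _ = _ := by ring
  have e2 : ((8 / η) ^ (2 * k) * (4 / η * (y1 + y2) + y3)) ^ (2 * t) ≤
      2 ^ ((2 * H * k + (H + d + 1)) * (2 * t)) / 2 ^ (a * (2 * t)) := by
    calc _ ≤ (((2 : ℝ) ^ H) ^ (2 * k) * (2 ^ (H + d + 1) / 2 ^ a)) ^ (2 * t) := by gcongr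
      _ = _ := by
        rw [pow_mul _ _ (2 * t), pow_mul _ a, ← div_pow, pow_add _ (2 * H * k), ← pow_mul,
          mul_div_assoc]
        congr 3
        ring
  have e3 : 128 * k * t / η ≤ 2 ^ (7 + k + t + H) := by
    have e4 : (k : ℝ) ≤ 2 ^ k := by exact_mod_cast Nat.lt_two_pow_self.le
    have e5 : (t : ℝ) ≤ 2 ^ t := by exact_mod_cast Nat.lt_two_pow_self.le
    have e6 : 1 / η ≤ 2 ^ H := le_trans (by gcongr; norm_num) hH
    calc 128 * k * t / η = 128 * k * t * (1 / η) := by ring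
      _ ≤ 128 * 2 ^ k * 2 ^ t * 2 ^ H := by gcongr
      _ = _ := by ring
  have e4 : (2 : ℝ) ^ (a * (2 * t - 1) + V) ≤ 2 ^ (a * (2 * t)) * 2 ^ V := by
    rw [← pow_add]
    exact pow_le_pow_right₀ one_le_two
      (Nat.add_le_add_right (Nat.mul_le_mul_left _ (Nat.sub_le _ _)) _)
  have e5 : 1 / (2 : ℝ) ^ (H + 1) ≤ η / 16 := by
    rw [div_le_iff₀ hη] at hH
    rw [div_le_div_iff₀ (by positivity) (by positivity), pow_succ]
    linarith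
  have hQ0 : 0 ≤ Qs := (pos_of_mul_pos_right (lt_of_lt_of_le (by positivity) hQ)
    (by positivity)).le
  calc _ ≤ (2 : ℝ) ^ (7 + k + t + H) * (2 ^ (a * (2 * t)) * 2 ^ V) *
        (2 ^ ((2 * H * k + (H + d + 1)) * (2 * t)) / 2 ^ (a * (2 * t))) := by gcongr
    _ = 2 ^ (7 + k + t + H + V + (2 * H * k + (H + d + 1)) * (2 * t) +
          ((H + 1) * (2 * t + 1) + c)) / 2 ^ ((H + 1) * (2 * t + 1) + c) := by
        rw [pow_add _ _ ((H + 1) * (2 * t + 1) + c), pow_add _ _ (_ * (2 * t)), pow_add _ _ V]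
        field_simp
    _ ≤ 2 ^ c * Qs / 2 ^ ((H + 1) * (2 * t + 1) + c) := by
        gcongr
        exact (pow_le_pow_right₀ one_le_two hs).trans hQ
    _ = (1 / 2 ^ (H + 1)) ^ (2 * t + 1) * Qs := by
        rw [pow_add _ _ c, pow_mul, one_div, inv_pow]
        field_simp
    _ ≤ _ := by gcongr

theorem id_sq (l : ℕ) (hl : 6 ≤ l) : (l + 1) ^ 2 ≤ 2 ^ l := by
  induction l, hl using Nat.le_induction with
  | base => norm_num
  | succ l hl ih => rw [pow_succ 2 l]; nlinarith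

theorem id_t {n j' js t : ℕ} (hn : 10 ^ 7 ≤ n) (h1 : n ^ 2 ≤ j') (h2 : j' ≤ 16 * n ^ 4)
    (h3 : n ^ 12 ≤ js) (ht : t = (j' + 1 + 3 * (js + 1)) / j' + 1) :
    j' + 1 + 3 * (js + 1) ≤ j' * t ∧ (j' + 1) * t ≤ 4 * js := by
  have h0 : 10 ^ 14 ≤ j' := le_trans (by nlinarith) h1
  have h4 : 100 * j' ≤ js := by
    have : 1600 * n ^ 4 ≤ n ^ 12 := by
      calc 1600 * n ^ 4 ≤ n * n ^ 4 := by gcongr; omega
        _ = n ^ 5 := by ring
        _ ≤ _ := Nat.pow_le_pow_right (by omega) (by norm_num)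
    omega
  have h5 := Nat.mul_div_le (j' + 1 + 3 * (js + 1)) j'
  have h6 := Nat.lt_mul_div_succ (j' + 1 + 3 * (js + 1)) (show 0 < j' by omega)
  rw [← ht] at h6
  have h7 : j' * t ≤ 2 * j' + 3 * js + 4 := by rw [ht, mul_add]; omega
  have h8 : 10 * t ≤ j' * t := by gcongr; omega
  refine ⟨h6.le, ?_⟩
  rw [add_mul]
  omega

theorem id_sum {n B l R H a js t k : ℕ} (hC : 10 ^ 7 * ((B + 1) * (l + 1)) ≤ n)
    (hR : R = 600 * B + 6) (hH : H = (l + 1) * B + R + 5) (h1 : n ^ 2 ≤ a) (h2 : a ≤ 17 * n ^ 4)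
    (h3 : n ^ 12 ≤ js) (ht : a * t ≤ 4 * js) (ht1 : 1 ≤ t) (hk : 300 * H * k ≤ a) :
    7 + k + t + H + (1024 * n ^ 10 + 1) * n * R +
      (2 * H * k + (H + (13 * l + 1 + (l + 1) * B) + 1)) * (2 * t) +
      ((H + 1) * (2 * t + 1) + (l + 1) * B) ≤ js := by
  have e0 : (B + 1) * (l + 1) = (l + 1) * B + l + 1 := by ring
  have e1 : B + 1 ≤ (B + 1) * (l + 1) := Nat.le_mul_of_pos_right _ (by omega)
  have hn : 10 ^ 7 ≤ n := by omega
  have e2 : 10 ^ 7 * n ≤ n ^ 2 := by rw [sq]; gcongr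
  have e3 : 10000 * H ≤ n := by omega
  have e4 : k ≤ a := le_trans (Nat.le_mul_of_pos_left _ (by omega)) hk
  have e5 : 4 * ((1024 * n ^ 10 + 1) * n * R) ≤ n ^ 12 := by
    have : 1 ≤ n ^ 10 := Nat.one_le_pow _ _ (by omega)
    calc _ ≤ 4 * ((1024 * n ^ 10 + n ^ 10) * n * R) := by gcongr
      _ = n ^ 11 * (4100 * R) := by ring
      _ ≤ n ^ 11 * n := by gcongr; omega
  have e6 : 75 * ((2 * H * k + (H + (13 * l + 1 + (l + 1) * B) + 1)) * (2 * t)) ≤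
      2 * (a * t) := by
    have : 75 * (2 * H * k + (H + (13 * l + 1 + (l + 1) * B) + 1)) ≤ a := by
      have : 300 * H * k = 150 * (2 * H * k) := by ring
      omega
    calc _ = 75 * (2 * H * k + (H + (13 * l + 1 + (l + 1) * B) + 1)) * (2 * t) := by ring
      _ ≤ a * (2 * t) := by gcongr
      _ = _ := by ring
  have e7 : 25 * (t + (H + 1) * (2 * t + 1)) ≤ a * t := by
    calc _ ≤ 25 * ((H + 1) * t + (H + 1) * (2 * t + t)) := by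
          gcongr
          exact Nat.le_mul_of_pos_left _ (by omega)
      _ = 100 * (H + 1) * t := by ring
      _ ≤ _ := by gcongr; omega
  have e8 : 200 * n ^ 4 ≤ n ^ 12 := by
    calc 200 * n ^ 4 ≤ n * n ^ 4 := by gcongr; omega
      _ = n ^ 5 := by ring
      _ ≤ _ := Nat.pow_le_pow_right (by omega) (by norm_num)
  have e9 : n ^ 2 ≤ n ^ 4 := Nat.pow_le_pow_right (by omega) (by norm_num)
  omega

theorem id_hb {R : ℕ} (j' js : ℕ) (j : Fin R → ℕ) (Q' Qs : Finset ℕ) (Q : Fin R → Finset ℕ)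
    (hQ' : Q' ⊆ box j') (hQs : Qs ⊆ box js) (hQ : ∀ i, Q i ⊆ box (j i))
    (e : ℕ → (Fin R → ℕ) → ℕ → ℂ) {W : ℝ} (hW : 0 < W)
    (h : (∑ p ∈ Q', ∑ u ∈ Fintype.piFinset Q, ∑ r ∈ Qs, 1 / ((p * (∏ i, u i) * r : ℕ) : ℝ)) ≤
      W * ‖∑ p ∈ Q', ∑ u ∈ Fintype.piFinset Q, ∑ r ∈ Qs,
        e p u r / ((p * (∏ i, u i) * r : ℕ) : ℂ)‖) :
    ∃ (g' gs : ℕ → ℂ) (g : Fin R → ℕ → ℂ), (∀ p, ‖g' p‖ ≤ 1) ∧ (∀ r, ‖gs r‖ ≤ 1) ∧
      (∀ i u, ‖g i u‖ ≤ 1) ∧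
      1 / (W * 2 ^ (R + 2)) * (Q'.card * (∏ i, ((Q i).card : ℝ)) * Qs.card) ≤
        ‖∑ p ∈ Q', ∑ u ∈ Fintype.piFinset Q, ∑ r ∈ Qs,
          g' p * (∏ i, g i (u i)) * gs r * e p u r‖ := by
  let w : ℕ → ℕ → ℂ := fun j p => if p ∈ box j then ((2 ^ j : ℕ) : ℂ) / p else 0
  have hw : ∀ j p, ‖w j p‖ ≤ 1 := fun j p => by
    simp only [w]
    split_ifs with hp
    · rw [norm_div, Complex.norm_natCast, Complex.norm_natCast]
      exact div_le_one_of_le₀ (Nat.cast_le.2 (mem_box.1 hp).2.1) (Nat.cast_nonneg _)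
    · simp
  refine ⟨w j', w js, fun i => w (j i), hw _, hw _, fun i => hw _, ?_⟩
  obtain ⟨T, hT⟩ : ∃ T : ℕ, T = 2 ^ j' * (∏ i, 2 ^ j i) * 2 ^ js := ⟨_, rfl⟩
  have hT0 : (0 : ℝ) < T := by rw [hT]; positivity
  have e1 : ∑ p ∈ Q', ∑ u ∈ Fintype.piFinset Q, ∑ r ∈ Qs,
      w j' p * (∏ i, w (j i) (u i)) * w js r * e p u r = T * ∑ p ∈ Q', ∑ u ∈ Fintype.piFinset Q,
        ∑ r ∈ Qs, e p u r / ((p * (∏ i, u i) * r : ℕ) : ℂ) := by
    simp only [mul_sum]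
    refine sum_congr rfl fun p hp => sum_congr rfl fun u hu => sum_congr rfl fun r hr => ?_
    have hu' : ∀ i, u i ∈ box (j i) := fun i => hQ i (Fintype.mem_piFinset.1 hu i)
    simp only [w, hQ' hp, hQs hr, hu', if_true, hT, prod_div_distrib]
    push_cast
    ring
  have e2 : (Q'.card * (∏ i, ((Q i).card : ℝ)) * Qs.card) / (2 ^ (R + 2) * T) ≤
      ∑ p ∈ Q', ∑ u ∈ Fintype.piFinset Q, ∑ r ∈ Qs, 1 / ((p * (∏ i, u i) * r : ℕ) : ℝ) := by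
    refine le_trans (le_of_eq ?_) (sum_le_sum fun p hp => sum_le_sum fun u hu =>
      sum_le_sum (f := fun _ => 1 / (2 ^ (R + 2) * T : ℝ)) fun r hr => ?_)
    · simp only [sum_const, nsmul_eq_mul, Fintype.card_piFinset]
      push_cast
      ring
    · have hu' : ∀ i, u i ∈ box (j i) := fun i => hQ i (Fintype.mem_piFinset.1 hu i)
      have e3 : p * (∏ i, u i) * r ≤ 2 ^ (R + 2) * T := by
        calc _ ≤ 2 ^ (j' + 1) * (∏ i, 2 ^ (j i + 1)) * 2 ^ (js + 1) := by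
              gcongr with i
              · exact (mem_box.1 (hQ' hp)).2.2.le
              · exact (mem_box.1 (hu' i)).2.2.le
              · exact (mem_box.1 (hQs hr)).2.2.le
          _ = _ := by
              simp only [hT, pow_succ, prod_mul_distrib, prod_const, card_univ, Fintype.card_fin]
              ring
      have e4 : 0 < p * (∏ i, u i) * r := Nat.mul_pos (Nat.mul_pos (mem_box.1 (hQ' hp)).1.pos
        (prod_pos fun i _ => (mem_box.1 (hu' i)).1.pos)) (mem_box.1 (hQs hr)).1.pos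
      exact one_div_le_one_div_of_le (by exact_mod_cast e4) (by exact_mod_cast e3)
  rw [e1, norm_mul, Complex.norm_natCast]
  have e3 := e2.trans h
  rw [div_le_iff₀ (by positivity)] at e3
  rw [one_div_mul_eq_div, div_le_iff₀ (by positivity)]
  linarith

theorem inverse_thm (B : ℕ) : ∃ (R : ℕ) (ω₀ : ℝ), ∀ (ω : ℝ) (j' js : ℕ) (j : Fin R → ℕ)
    (Q' Qs : Finset ℕ) (Q : Fin R → Finset ℕ), ω₀ ≤ ω → ω ^ 2 ≤ j' → j' ≤ ω ^ 4 →
    ω ^ 12 ≤ js → js ≤ ω ^ 14 → (∀ i, ω ^ 6 ≤ j i ∧ j i ≤ ω ^ 10) →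
    Q' ⊆ box j' → (2 : ℝ) ^ j' ≤ ω ^ B * Q'.card → Qs ⊆ box js → (2 : ℝ) ^ js ≤ ω ^ B * Qs.card →
    (∀ i, Q i ⊆ box (j i) ∧ (2 : ℝ) ^ j i ≤ ω ^ B * (Q i).card) →
    ∀ (K : ℤ) (M₀ : ℕ), 1 ≤ M₀ →
    (∑ p ∈ Q', ∑ u ∈ Fintype.piFinset Q, ∑ r ∈ Qs, 1 / ((p * (∏ i, u i) * r : ℕ) : ℝ)) ≤
      ω ^ B * ‖∑ p ∈ Q', ∑ u ∈ Fintype.piFinset Q, ∑ r ∈ Qs,
        ex (K / ((M₀ * p * (∏ i, u i) * r : ℕ) : ℝ)) / ((p * (∏ i, u i) * r : ℕ) : ℂ)‖ →
    ∃ (q : ℕ) (x : ℤ), 1 ≤ q ∧ q < 2 ^ (js + 1) ∧ |x| ≤ M₀ * 2 ^ (j' + 2 * js + 3) ∧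
      (M₀ : ℤ) ∣ q * K - x ∧
      (Q'.card : ℝ) ≤ ω ^ (6 * B + 1) * (Q'.filter fun p : ℕ => (p : ℤ) ∣ q * K - x).card := by
  obtain ⟨R, hR⟩ : ∃ R, R = 600 * B + 6 := ⟨_, rfl⟩
  refine ⟨R, ((2 ^ (10 ^ 7 * (B + 1)) : ℕ) : ℝ), ?_⟩
  intro ω j' js j Q' Qs Q hω a1 a2 a3 a4 a5 b1 b2 b3 b4 b5 K M₀ hM₀ hb
  have hω1 : 1 ≤ ω := le_trans (by exact_mod_cast Nat.one_le_two_pow) hω
  have hω0 : 0 < ω := by linarith
  obtain ⟨l, hl, hl1, hl2⟩ : ∃ l : ℕ, 10 ^ 7 * (B + 1) ≤ l ∧ ((2 ^ l : ℕ) : ℝ) ≤ ω ∧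
      ω ≤ 2 * ((2 ^ l : ℕ) : ℝ) := by
    have h1 : 2 ^ (10 ^ 7 * (B + 1)) ≤ ⌊ω⌋₊ := Nat.le_floor hω
    have h0 : ⌊ω⌋₊ ≠ 0 := by have := Nat.one_le_two_pow.trans h1; omega
    refine ⟨Nat.log 2 ⌊ω⌋₊, Nat.le_log_of_pow_le one_lt_two h1,
      (Nat.le_floor_iff hω0.le).1 (Nat.pow_log_le_self 2 h0), ?_⟩
    have h2 := (Nat.floor_lt hω0.le).1 (Nat.lt_pow_succ_log_self one_lt_two ⌊ω⌋₊)
    rw [pow_succ] at h2
    push_cast at h2 ⊢
    linarith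
  obtain ⟨n, hn⟩ : ∃ n, n = 2 ^ l := ⟨_, rfl⟩
  rw [← hn] at hl1 hl2
  have hC : 10 ^ 7 * ((B + 1) * (l + 1)) ≤ n := by
    calc _ = 10 ^ 7 * (B + 1) * (l + 1) := by ring
      _ ≤ (l + 1) * (l + 1) := by gcongr; omega
      _ ≤ n := by rw [← sq, hn]; exact id_sq l (by omega)
  have e0 : (B + 1) * (l + 1) = (l + 1) * B + l + 1 := by ring
  have e1 : B + 1 ≤ (B + 1) * (l + 1) := Nat.le_mul_of_pos_right _ (by omega)
  have hn7 : 10 ^ 7 ≤ n := by omega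
  have lo : ∀ (e x : ℕ), ω ^ e ≤ x → n ^ e ≤ x := fun e x h => by
    exact_mod_cast (pow_le_pow_left₀ (Nat.cast_nonneg n) hl1 e).trans h
  have hi : ∀ (e x : ℕ), x ≤ ω ^ e → x ≤ 2 ^ e * n ^ e := fun e x h => by
    have := h.trans (pow_le_pow_left₀ hω0.le hl2 e)
    rw [mul_pow] at this
    exact_mod_cast this
  have hωB : ω ^ B ≤ 2 ^ ((l + 1) * B) := by
    rw [pow_mul, pow_succ']
    refine pow_le_pow_left₀ hω0.le (hl2.trans (le_of_eq ?_)) B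
    rw [hn]
    push_cast
    rfl
  have c1 := lo _ _ a1
  have c2 := hi _ _ a2
  have c3 := lo _ _ a3
  have c4 := hi _ _ a4
  have e2 : 10 ^ 7 * n ≤ n ^ 2 := by rw [sq]; gcongr
  have e3 : 10 ^ 7 * n ^ 4 ≤ n ^ 5 := by rw [pow_succ' n 4]; gcongr
  have e4 : 10 ^ 7 * n ^ 5 ≤ n ^ 6 := by rw [pow_succ' n 5]; gcongr
  have e5 : n ^ 2 ≤ n ^ 4 := Nat.pow_le_pow_right (by omega) (by norm_num)
  obtain ⟨t, ht⟩ : ∃ t, t = (j' + 1 + 3 * (js + 1)) / j' + 1 := ⟨_, rfl⟩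
  have ht1 : 1 ≤ t := ht ▸ Nat.le_add_left _ _
  obtain ⟨t1, t2⟩ := id_t hn7 c1 (by omega) c3 ht
  obtain ⟨H, hH⟩ : ∃ H, H = (l + 1) * B + R + 5 := ⟨_, rfl⟩
  obtain ⟨k, hk⟩ : ∃ k, k = (j' + 1) / (300 * H) := ⟨_, rfl⟩
  have k1 : 300 * H * k ≤ j' + 1 := hk ▸ Nat.mul_div_le _ _
  have k2 : 1 ≤ k := hk ▸ Nat.div_pos (by omega) (by omega)
  have k3 : j' + 1 ≤ 600 * H * k := by
    have := Nat.lt_mul_div_succ (j' + 1) (show 0 < 300 * H by omega)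
    rw [← hk] at this
    nlinarith
  have k4 : k ≤ j' + 1 := le_trans (Nat.le_mul_of_pos_left _ (by omega)) k1
  obtain ⟨g', gs, g, g1, g2, g3, g4⟩ := id_hb j' js j Q' Qs Q b1 b3 (fun i => (b5 i).1) _
    (pow_pos hω0 B) hb
  obtain ⟨η, hη⟩ : ∃ η, η = 1 / (ω ^ B * 2 ^ (R + 2)) := ⟨_, rfl⟩
  rw [← hη] at g4
  have hη0 : 0 < η := by rw [hη]; positivity
  have hηH : 8 / η ≤ 2 ^ H := by
    calc 8 / η = ω ^ B * 2 ^ (R + 5) := by rw [hη]; field_simp; ring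
      _ ≤ 2 ^ ((l + 1) * B) * 2 ^ (R + 5) := by gcongr
      _ = _ := by rw [hH]; ring
  have hQ'c : (2 : ℝ) ^ j' ≤ 2 ^ ((l + 1) * B) * Q'.card := b2.trans (by gcongr)
  have hQsc : (2 : ℝ) ^ js ≤ 2 ^ ((l + 1) * B) * Qs.card := b4.trans (by gcongr)
  have hQ'0 : (0 : ℝ) < Q'.card :=
    pos_of_mul_pos_right (lt_of_lt_of_le (by positivity) hQ'c) (by positivity)
  have hQs0 : (0 : ℝ) < Qs.card :=
    pos_of_mul_pos_right (lt_of_lt_of_le (by positivity) hQsc) (by positivity)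
  refine (fun h : ∃ (q : ℕ) (x : ℤ), 1 ≤ q ∧ q < 2 ^ (js + 1) ∧
      |x| ≤ M₀ * 2 ^ (j' + 1 + 2 * (js + 1)) ∧ (M₀ : ℤ) ∣ q * K - x ∧
      (η / 32) ^ 6 * Q'.card ≤ (Q'.filter fun p : ℕ => (p : ℤ) ∣ q * K - x).card => ?_)
    (inverse_abstract (n := n) (k := k) (t := t) (a := j' + 1)
    (b := js + 1) (J := 1024 * n ^ 10 + 1) (m := 2 ^ n ^ 5) (by omega) (by omega) k2 ht1
    Nat.one_le_two_pow (by omega) Q' Qs Q (fun p hp => mem_box.1 (b1 hp)) (fun i => ⟨?_, ?_⟩)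
    (fun r hr => ⟨(mem_box.1 (b3 hr)).1.pos, (mem_box.1 (b3 hr)).2.2⟩)
    (card_pos.1 (by exact_mod_cast hQs0)) hη0 t1 ?_ ?_ K hM₀ g' gs g g1 g2 g3 g4)
  · obtain ⟨q, x, r1, r2, r3, r4, r5⟩ := h
    refine ⟨q, x, r1, r2, by rwa [show j' + 2 * js + 3 = j' + 1 + 2 * (js + 1) by ring], r4, ?_⟩
    have h1 : (2 : ℝ) ^ (6 * (R + 7)) ≤ ω := by
      refine le_trans ?_ hω
      exact_mod_cast Nat.pow_le_pow_right two_pos (by omega)
    have h2 : 1 ≤ ω ^ (6 * B + 1) * (η / 32) ^ 6 := by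
      have : ω ^ (6 * B + 1) * (η / 32) ^ 6 = ω / 2 ^ (6 * (R + 7)) := by
        rw [hη]; field_simp; ring
      rw [this]
      exact (one_le_div (by positivity)).2 h1
    calc (Q'.card : ℝ) ≤ ω ^ (6 * B + 1) * (η / 32) ^ 6 * Q'.card :=
          le_mul_of_one_le_left hQ'0.le h2
      _ ≤ _ := by rw [mul_assoc]; gcongr
  · have h1 := lo _ _ (a5 i).1
    have h2 : (2 : ℝ) ^ ((l + 1) * B) * 2 ^ n ^ 5 ≤ 2 ^ ((l + 1) * B) * (Q i).card := by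
      rw [← pow_add]
      exact (pow_le_pow_right₀ one_le_two (by omega)).trans ((b5 i).2.trans (by gcongr))
    exact_mod_cast le_of_mul_le_mul_left h2 (by positivity)
  · intro u hu
    have h1 := mem_box.1 ((b5 i).1 hu)
    have h2 := hi _ _ (a5 i).2
    exact ⟨h1.1.pos, h1.2.2.trans_le (Nat.pow_le_pow_right two_pos (by omega))⟩
  · have h1 : t ≤ 2 ^ (16 + 14 * l) := by
      have : t ≤ (j' + 1) * t := Nat.le_mul_of_pos_left _ (by omega)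
      rw [pow_add, mul_comm 14, pow_mul, ← hn]
      omega
    have h2 : (t : ℝ) ≤ 2 ^ (16 + 14 * l) := by exact_mod_cast h1
    rw [div_le_iff₀ hη0] at hηH
    refine le_of_mul_le_mul_left ?_ (show (0 : ℝ) < 2 ^ ((l + 1) * B) * 2 ^ H by positivity)
    calc _ ≤ (2 : ℝ) ^ ((l + 1) * B) * 2 ^ H * (32 * 2 ^ (16 + 14 * l)) := by gcongr
      _ = 8 * 2 ^ ((l + 1) * B + H + 18 + 14 * l) := by ring
      _ ≤ 2 ^ H * η * (2 ^ ((l + 1) * B) * Q'.card) := by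
          gcongr
          exact (pow_le_pow_right₀ one_le_two (by omega)).trans hQ'c
      _ = _ := by ring
  · have h0 := id_h4 (a := j' + 1) (y1 := (k / (n : ℝ) ^ R) ^ k)
      (y2 := n * R / ((2 ^ n ^ 5 : ℕ) : ℝ))
      (y3 := (((1024 * n ^ 10 + 1 : ℕ) : ℝ) * n * R + k) / Q'.card) hη0 hηH (by positivity) ?_
      (by positivity) ?_ (by positivity) ?_ hQsc
      (id_sum hC hR hH (show n ^ 2 ≤ j' + 1 by omega) (by omega) c3 t2 ht1 k1)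
    · exact h0
    · have h1 : k * 2 ^ (600 * H) ≤ n ^ R := by
        have h2 : k ≤ 2 ^ (5 + 4 * l) := by
          rw [pow_add, mul_comm 4, pow_mul, ← hn]
          omega
        calc _ ≤ 2 ^ (5 + 4 * l) * 2 ^ (600 * H) := by gcongr
          _ ≤ _ := by
            rw [← pow_add, hn, ← pow_mul]
            refine Nat.pow_le_pow_right two_pos ?_
            have : l * R = 600 * (l * B) + 6 * l := by rw [hR]; ring
            have : (l + 1) * B = l * B + B := by ring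
            omega
      have h2 : (k : ℝ) * 2 ^ (600 * H) ≤ n ^ R := by exact_mod_cast h1
      have h3 : (0 : ℝ) < n := by exact_mod_cast (show 0 < n by omega)
      calc (k / (n : ℝ) ^ R) ^ k ≤ (1 / 2 ^ (600 * H)) ^ k := by
            refine pow_le_pow_left₀ (by positivity) ?_ _
            rw [div_le_div_iff₀ (by positivity) (by positivity)]
            linarith
        _ ≤ _ := by
            rw [one_div_pow, ← pow_mul]
            exact one_div_le_one_div_of_le (by positivity) (pow_le_pow_right₀ one_le_two k3)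
    · have h1 : n * R * 2 ^ (j' + 1) ≤ 2 ^ n ^ 5 := by
        calc _ ≤ 2 ^ n * 2 ^ n * 2 ^ (j' + 1) := by
              gcongr
              · exact Nat.lt_two_pow_self.le
              · exact le_trans (by omega) Nat.lt_two_pow_self.le
          _ ≤ _ := by
              rw [← pow_add, ← pow_add]
              exact Nat.pow_le_pow_right two_pos (by omega)
      rw [div_le_div_iff₀ (by positivity) (by positivity), one_mul]
      exact_mod_cast h1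
    · have h1 : (1024 * n ^ 10 + 1) * n * R + k ≤ 2 ^ (13 * l) := by
        rw [mul_comm 13, pow_mul, ← hn]
        have h2 : n ^ 4 ≤ n ^ 12 := Nat.pow_le_pow_right (by omega) (by norm_num)
        have h3 : 1 ≤ n ^ 10 := Nat.one_le_pow _ _ (by omega)
        have h4 : (1024 * n ^ 10 + 1) * n * R ≤ 1025 * n ^ 12 := by
          calc _ ≤ (1024 * n ^ 10 + n ^ 10) * n * n := by gcongr; omega
            _ = _ := by ring
        have h5 : 10 ^ 7 * n ^ 12 ≤ n ^ 13 := by rw [pow_succ' n 12]; gcongr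
        omega
      have h2 : ((1024 * n ^ 10 + 1 : ℕ) : ℝ) * n * R + k ≤ 2 ^ (13 * l) := by exact_mod_cast h1
      rw [div_le_div_iff₀ hQ'0 (by positivity)]
      calc _ ≤ (2 : ℝ) ^ (13 * l) * (2 * (2 ^ ((l + 1) * B) * Q'.card)) := by
            rw [pow_succ' (2 : ℝ) j']
            gcongr
        _ = _ := by ring

end Vale.Agent.P013
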