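import Vale.Agent.P013.Model

/-! Sums over primes in logarithmic windows, used for the weight of the micro leaves. -/

open Finset

namespace Vale.Agent.P013

theorem lw_mem {a b : ℝ} {p : ℕ} :
    p ∈ PI (Real.exp a) (Real.exp b) ↔ p.Prime ∧ a < Real.log p ∧ Real.log p ≤ b := by
  rw [mem_PI (Real.exp_pos a).le]
  refine and_congr_right fun h => ?_
  have : (0 : ℝ) < p := by exact_mod_cast h.pos
  rw [Real.lt_log_iff_exp_lt this, Real.log_le_iff_le_exp this]

theorem lw_mert : ∃ C : ℝ, 0 < C ∧ (∀ a b : ℝ, 1 ≤ a → a ≤ b →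
    1 / a - 1 / b - C / a ^ 2 ≤ ∑ p ∈ PI (Real.exp a) (Real.exp b), 1 / (p * Real.log p)) ∧
    (∀ a b : ℝ, 1 ≤ a → a ≤ b → ∀ P : Finset ℕ,
      (∀ p ∈ P, p.Prime ∧ a < Real.log p ∧ Real.log p ≤ b) →
      ∑ p ∈ P, 1 / (p * Real.log p) ≤ 1 / a - 1 / b + C / a ^ 2) ∧
    ∀ a : ℝ, 1 ≤ a → ∀ P : Finset ℕ, (∀ p ∈ P, p.Prime ∧ a < Real.log p) →
      ∑ p ∈ P, 1 / (p * Real.log p) ≤ 1 / a + C / a ^ 2 := by
  obtain ⟨C, hC, H⟩ := mertensk (k := 1) le_rfl
  have h : ∀ a b : ℝ, 1 ≤ a → a ≤ b → |∑ p ∈ PI (Real.exp a) (Real.exp b), 1 / (p * Real.log p) -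
      (1 / a - 1 / b)| ≤ C / a ^ 2 := fun a b ha hab => by
    simpa using H (Real.exp a) (Real.exp b) (by linarith [Real.add_one_le_exp a])
      (Real.exp_le_exp.2 hab)
  have h2 : ∀ a b : ℝ, 1 ≤ a → a ≤ b → ∀ P : Finset ℕ,
      (∀ p ∈ P, p.Prime ∧ a < Real.log p ∧ Real.log p ≤ b) →
      ∑ p ∈ P, 1 / (p * Real.log p) ≤ 1 / a - 1 / b + C / a ^ 2 := fun a b ha hab P hP =>
    (sum_le_sum_of_subset_of_nonneg (fun p hp => lw_mem.2 (hP p hp))
      fun _ _ _ => by positivity).trans (by linarith [(abs_le.1 (h a b ha hab)).2])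
  refine ⟨C, hC, fun a b ha hab => by linarith [(abs_le.1 (h a b ha hab)).1], h2,
    fun a ha P hP => ?_⟩
  have h3 : 0 ≤ ∑ p ∈ P, Real.log p := sum_nonneg fun _ _ => by positivity
  refine (h2 a (a + ∑ p ∈ P, Real.log p) ha (by linarith) P fun p hp => ⟨(hP p hp).1, (hP p hp).2,
    (single_le_sum (f := fun p : ℕ => Real.log p) (fun _ _ => by positivity) hp).trans
      (by linarith)⟩).trans ?_
  have : 0 ≤ 1 / (a + ∑ p ∈ P, Real.log p) := by positivity
  linarith

theorem lw_small : ∃ A : ℝ, 0 < A ∧ ∀ u : ℝ, 0 ≤ u → ∀ P : Finset ℕ,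
    (∀ p ∈ P, p.Prime ∧ u / 3 ≤ Real.log p) → ∑ p ∈ P, 1 / (p * Real.log p) ≤ A / (u + 1) := by
  obtain ⟨C, hC, -, -, H⟩ := lw_mert
  obtain ⟨C', hC', H'⟩ := sum_inv_log
  refine ⟨8 * C' + 6 * (1 + C), by positivity, fun u hu P hP => ?_⟩
  rcases le_total u 7 with h | h
  · refine ((sum_le_sum_of_subset_of_nonneg (fun p hp => Nat.mem_primesBelow.2
      ⟨Nat.lt_succ_of_le (le_sup (f := id) hp), (hP p hp).1⟩) fun _ _ _ => by positivity).trans
        (H' _)).trans ?_
    rw [le_div_iff₀ (by positivity)]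
    nlinarith
  · refine (H (u / 3 - 1) (by linarith) P fun p hp =>
      ⟨(hP p hp).1, by linarith [(hP p hp).2]⟩).trans ?_
    have a : C / (u / 3 - 1) ^ 2 ≤ C / (u / 3 - 1) :=
      div_le_div_of_nonneg_left hC.le (by linarith) (by nlinarith)
    refine (add_le_add le_rfl a).trans ?_
    rw [← add_div, div_le_div_iff₀ (by linarith) (by linarith)]
    nlinarith [mul_nonneg hC'.le (show 0 ≤ u / 3 - 1 by linarith)]

theorem lw_mid : ∃ A U : ℝ, 0 < A ∧ 1 ≤ U ∧ ∀ u G : ℝ, 0 ≤ G → U * (1 + G) ≤ u →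
    ∀ (m : ℕ) (P S : Finset ℕ), (∀ p ∈ P, p.Prime ∧ p < m ∧ u / 3 ≤ Real.log p) →
    (∀ p : ℕ, p.Prime → p < m → (u + G) / 3 ≤ Real.log p → Real.log p ≤ 2 * u / 5 → p ∈ S) →
    ∑ p ∈ P, 1 / (p * Real.log p) ≤ 14 * ∑ p ∈ S, 1 / (p * Real.log p) + A * (G + 1) / u ^ 2 := by
  obtain ⟨C, hC, H1, H2, H3⟩ := lw_mert
  refine ⟨16 * (1 + C), 60 + 90 * C, by positivity, by linarith, fun u G hG hu m P S hP hS => ?_⟩
  have u1 : 60 + 90 * C ≤ u := by nlinarith
  have u2 : 30 * G ≤ u := by nlinarith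
  have u0 : 0 < u := by linarith
  have a1 : C / (u / 3 - 1) ^ 2 ≤ 16 * C / u ^ 2 := by
    rw [div_le_div_iff₀ (by nlinarith) (by positivity)]
    nlinarith [mul_le_mul_of_nonneg_left (show u ^ 2 ≤ 16 * (u / 3 - 1) ^ 2 by nlinarith) hC.le]
  have a2 : 0 ≤ ∑ p ∈ S, 1 / (p * Real.log p) := sum_nonneg fun _ _ => by positivity
  rcases lt_or_ge (2 * u / 5) (Real.log m) with h | h
  · have b1 := (H1 ((u + G) / 3) (2 * u / 5) (by linarith) (by linarith)).trans
      (sum_le_sum_of_subset_of_nonneg (t := S) (fun p hp => by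
        obtain ⟨c1, c2, c3⟩ := lw_mem.1 hp
        refine hS p c1 (not_le.1 fun e => ?_) c2.le c3
        linarith [Real.log_le_log (Real.exp_pos _ |>.trans ((Real.lt_log_iff_exp_lt (Nat.cast_pos.2
          (Nat.pos_of_ne_zero fun e => by simp [e] at h; linarith))).1 h)) (Nat.cast_le.2 e)])
        fun _ _ _ => by positivity)
    have b2 := H3 (u / 3 - 1) (by linarith) P fun p hp =>
      ⟨(hP p hp).1, by linarith [(hP p hp).2.2]⟩
    have b3 : 1 / (u / 3 - 1) ≤ 3.2 * (1 / u) := by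
      rw [mul_one_div, div_le_div_iff₀ (by linarith) u0]
      linarith
    have b4 : 16 * C / u ^ 2 ≤ 0.8 * (1 / u) := by
      rw [mul_one_div, div_le_div_iff₀ (by positivity) u0]
      nlinarith
    have b5 : 2.9 * (1 / u) ≤ 1 / ((u + G) / 3) := by
      rw [mul_one_div, div_le_div_iff₀ u0 (by positivity)]
      linarith
    have b6 : C / ((u + G) / 3) ^ 2 ≤ 0.1 * (1 / u) := by
      rw [mul_one_div, div_le_div_iff₀ (by positivity) u0]
      nlinarith
    have b7 : 1 / (2 * u / 5) = 2.5 * (1 / u) := by field_simp; norm_num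
    have b8 : 0 ≤ 16 * (1 + C) * (G + 1) / u ^ 2 := by positivity
    have b9 : 0 < 1 / u := by positivity
    linarith
  · rw [← sum_filter_add_sum_filter_not P (· ∈ S)]
    refine add_le_add ((sum_le_sum_of_subset_of_nonneg (fun p hp => (mem_filter.1 hp).2)
      fun _ _ _ => by positivity).trans (by linarith)) ((H2 (u / 3 - 1) ((u + G) / 3) (by linarith)
        (by linarith) _ fun p hp => ?_).trans ?_)
    · obtain ⟨c1, c2⟩ := mem_filter.1 hp
      obtain ⟨c3, c4, c5⟩ := hP p c1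
      exact ⟨c3, by linarith, not_lt.1 fun e => c2 (hS p c3 c4 e.le ((Real.log_le_log
        (by exact_mod_cast c3.pos) (by exact_mod_cast c4.le)).trans h))⟩
    · have b1 : 1 / (u / 3 - 1) - 1 / ((u + G) / 3) ≤ 16 * (G + 1) / u ^ 2 := by
        rw [div_sub_div _ _ (by linarith) (by linarith), div_le_div_iff₀
          (mul_pos (by linarith) (by linarith)) (by positivity)]
        nlinarith [mul_le_mul (show G / 3 + 1 ≤ G + 1 by linarith)
          (show u ^ 2 ≤ 16 * ((u / 3 - 1) * ((u + G) / 3)) by nlinarith) (by positivity)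
          (by positivity)]
      refine (add_le_add b1 a1).trans ?_
      rw [← add_div]
      exact div_le_div_of_nonneg_right (by nlinarith) (by positivity)

theorem lw_large : ∃ A U : ℝ, 0 < A ∧ 1 ≤ U ∧ ∀ u t : ℝ, U ≤ t → 4 * t ≤ u → ∀ P : Finset ℕ,
    (∀ p ∈ P, p.Prime ∧ u / 3 ≤ Real.log p ∧ Real.log p ≤ (u + t) / 3) →
    ∑ p ∈ P, max 0 (Lam (Real.exp (u + t) / p) p) / p ≤ A * t ^ 2 / u ^ 3 := by
  obtain ⟨C, D₀, hC, H⟩ := Lam_upper
  obtain ⟨C', hC', H'⟩ := sum_inv_short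
  refine ⟨8 * C * (6 * (2 + C')), max 3 D₀, by positivity, le_max_of_le_left (by norm_num),
    fun u t ht hu P hP => ?_⟩
  obtain ⟨t1, t2⟩ := max_le_iff.1 ht
  have u0 : 0 < u := by linarith
  have a1 : ∑ p ∈ P, 1 / (p : ℝ) ≤ 6 * (2 + C') * t / u := by
    refine ((sum_le_sum_of_subset_of_nonneg (fun p hp => lw_mem.2 ⟨(hP p hp).1,
      show u / 3 - 1 < _ by linarith [(hP p hp).2.1], (hP p hp).2.2⟩)
        fun _ _ _ => by positivity).trans (H' _ _ (by linarith [Real.add_one_le_exp (u / 3 - 1)])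
          (Real.exp_le_exp.2 (by linarith)))).trans ?_
    rw [Real.log_exp, Real.log_exp, div_le_div_iff₀ (by linarith) u0]
    nlinarith [mul_le_mul (show t / 3 + 1 + C' ≤ (2 + C') * t by nlinarith)
      (show u ≤ 6 * (u / 3 - 1) by linarith) u0.le (by positivity)]
  refine (sum_le_sum (g := fun p : ℕ => 8 * C * t / u ^ 2 * (1 / p)) fun p hp => ?_).trans ?_
  · obtain ⟨b1, b2, b3⟩ := hP p hp
    have p0 : (0 : ℝ) < p := by exact_mod_cast b1.pos
    have e : Real.log (Real.exp (u + t) / p) = u + t - Real.log p := by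
      rw [Real.log_div (Real.exp_ne_zero _) p0.ne', Real.log_exp]
    rw [mul_one_div]
    refine div_le_div_of_nonneg_right (max_le (by positivity) ((H _ p ?_ (by linarith)
      (by linarith)).trans ?_)) p0.le
    · linarith [Real.log_le_self (show 0 ≤ Real.exp (u + t) / p by positivity)]
    · rw [Real.log_div (by positivity) (by positivity), e, Real.log_pow, Nat.cast_ofNat,
        div_le_div_iff₀ (by nlinarith) (by positivity)]
      have := max_le (show 0 ≤ t by linarith)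
        (show u + t - Real.log p - 2 * Real.log p ≤ t by linarith)
      nlinarith [mul_le_mul_of_nonneg_left (mul_le_mul (show max 0 (u + t - Real.log p -
        2 * Real.log p) + 1 ≤ 2 * t by linarith) (show u ^ 2 ≤ 4 * (u + t - Real.log p) ^ 2 by
          nlinarith) (by positivity) (by linarith)) hC.le]
  · rw [← mul_sum]
    refine (mul_le_mul_of_nonneg_left a1 (by positivity)).trans_eq ?_
    field_simp

/-- The decaying weight. -/
noncomputable def lwG (u a : ℝ) : ℝ := 1 / ((u + 1) * (u + 1 + a) ^ 2)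

open Classical in
/-- The parents of the leaves. -/
noncomputable def lwT (D : ℝ) (z : ℕ) : Finset (Finset ℕ) :=
  (okS 3 1 D z.primesBelow).filter fun s => s.card % 2 = 1 ∧ D ≤ (pr s : ℝ) * (lo s : ℝ) ^ 3

theorem lw_tel {a : ℝ} (ha : 0 < a) (J : ℕ) :
    ∑ j ∈ range J, 1 / ((j : ℝ) + 1 + a) ^ 2 ≤ 1 / a - 1 / (J + a) := by
  induction J with
  | zero => simp
  | succ J ih =>
    have : 1 / ((J : ℝ) + 1 + a) ^ 2 ≤ 1 / (J + a) - 1 / (J + 1 + a) := by
      rw [div_sub_div _ _ (by positivity) (by positivity),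
        div_le_div_iff₀ (by positivity) (by positivity)]
      nlinarith [J.cast_nonneg (α := ℝ)]
    rw [sum_range_succ, Nat.cast_succ]
    linarith

theorem lw_sum : ∃ K D₀ : ℝ, 0 < K ∧ ∀ (D : ℝ) (z : ℕ), D₀ ≤ D →
    Real.log z ≤ 0.51 * Real.log D → ∀ a : ℝ, 0 < a →
      ∑ s ∈ lwT D z, 1 / (pr s : ℝ) * lwG (Real.log (D / pr s)) a ≤ K / (a * Real.log D ^ 2) := by
  obtain ⟨K, D₀, hK, H⟩ := T_le
  refine ⟨8 * K, max D₀ 1, by positivity, fun D z hD hz a ha => ?_⟩
  obtain ⟨D1, D2⟩ := max_le_iff.1 hD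
  have D0 : 0 < D := by linarith
  have h := fun s (hs : s ∈ lwT D z) => okS_pr D2 hz s (mem_filter.1 hs).1
  have h0 := fun s (hs : s ∈ lwT D z) =>
    Real.log_nonneg ((one_le_div (Nat.cast_pos.2 (h s hs).1)).2 (h s hs).2)
  refine dyadic h (fun s hs => by have := h0 s hs; unfold lwG; positivity)
    (G := fun j => 8 * K / Real.log D ^ 2 * (1 / (j + 1 + a) ^ 2)) (fun j => ?_) fun J => ?_
  · have b1 := H D z D1 hz (D / 2 ^ j) (by positivity) (div_le_self D0.le (one_le_pow₀ one_le_two))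
    have l1 := Real.log_two_lt_d9
    have l2 := Real.log_two_gt_d9
    have j0 := j.cast_nonneg (α := ℝ)
    rw [log_div_pow D0] at b1
    refine (sum_le_sum (g := fun s => 1 / (pr s : ℝ) * (8 / ((j + 1) * (j + 1 + a) ^ 2)))
      fun s hs => mul_le_mul_of_nonneg_left ?_ (by positivity)).trans ?_
    · obtain ⟨c1, -, c2⟩ := mem_filter.1 hs
      have c3 := h0 s c1
      have c4 : (0 : ℝ) < pr s := Nat.cast_pos.2 (h s c1).1
      have c5 : (j + 1 : ℝ) ≤ 2 * (Real.log (D / pr s) + 1) := by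
        have := Real.log_le_log c4 c2.le
        rw [Real.log_mul two_ne_zero (by positivity), Real.log_div D0.ne' (by positivity),
          Real.log_pow] at this
        rw [Real.log_div D0.ne' c4.ne'] at c3 ⊢
        rcases Nat.eq_zero_or_pos j with rfl | hj
        · norm_num
          linarith
        · nlinarith [Nat.one_le_cast (α := ℝ).2 hj]
      rw [lwG, div_le_div_iff₀ (by positivity) (by positivity), one_mul]
      refine (mul_le_mul c5 (pow_le_pow_left₀ (by positivity) (show _ ≤ 2 * (Real.log (D / pr s)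
        + 1 + a) by linarith) 2) (by positivity) (by positivity)).trans_eq (by ring)
    · rw [← sum_mul]
      refine (mul_le_mul_of_nonneg_right ((sum_le_sum_of_subset_of_nonneg (fun s hs => ?_)
        fun _ _ _ => by positivity).trans (b1.trans (div_le_div_of_nonneg_right
          (mul_le_mul_of_nonneg_left (show _ ≤ (j + 1 : ℝ) by nlinarith) hK.le) (by positivity))))
            (by positivity)).trans_eq (by field_simp)
      simp only [lwT, mem_filter] at hs ⊢
      exact ⟨hs.1.1, hs.1.2.1, hs.2.1, hs.2.2, hs.1.2.2⟩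
  · rw [← mul_sum]
    refine (mul_le_mul_of_nonneg_left ((lw_tel ha J).trans (sub_le_self _ (by positivity)))
      (by positivity)).trans_eq ?_
    rw [div_mul_div_comm, mul_one, mul_comm a]

end Vale.Agent.P013
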