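import Mathlib

/-! Auxiliary lemmas for the contour shift lemma: p-series bound, Mellin inversion for the
triangular cut-off, the Riesz mean formula. -/

open Finset MeasureTheory Complex

namespace Vale.Agent.P013

theorem rpow_step {δ : ℝ} (hδ : 0 < δ) {v : ℝ} (hv : 0 < v) :
    (v + 1) ^ (-(1 + δ)) ≤ (v ^ (-δ) - (v + 1) ^ (-δ)) / δ := by
  have hu : 0 < v + 1 := by linarith
  have h1 : Real.log (v / (v + 1)) ≤ v / (v + 1) - 1 := Real.log_le_sub_one_of_pos (by positivity)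
  rw [Real.log_div hv.ne' hu.ne'] at h1
  have h2 : v / (v + 1) - 1 = -(1 / (v + 1)) := by field_simp; ring
  have h3 : v ^ (-δ) = (v + 1) ^ (-δ) * Real.exp (δ * (Real.log (v + 1) - Real.log v)) := by
    rw [Real.rpow_def_of_pos hv, Real.rpow_def_of_pos hu, ← Real.exp_add]; congr 1; ring
  have h4 : 1 + δ * (1 / (v + 1)) ≤ Real.exp (δ * (Real.log (v + 1) - Real.log v)) := by
    have := Real.add_one_le_exp (δ * (Real.log (v + 1) - Real.log v))
    have h5 : δ * (1 / (v + 1)) ≤ δ * (Real.log (v + 1) - Real.log v) := by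
      apply mul_le_mul_of_nonneg_left _ hδ.le; linarith
    linarith
  have h6 : (v + 1) ^ (-(1 + δ)) = (v + 1) ^ (-δ) * (1 / (v + 1)) := by
    rw [show -(1 + δ) = -δ + -1 by ring, Real.rpow_add hu, Real.rpow_neg_one, one_div]
  have h7 : 0 < (v + 1) ^ (-δ) := Real.rpow_pos_of_pos hu _
  rw [le_div_iff₀ hδ, h6, h3]
  nlinarith [mul_le_mul_of_nonneg_left h4 h7.le]

theorem sum_range_rpow_le {δ : ℝ} (hδ : 0 < δ) (N : ℕ) :
    ∑ i ∈ range N, (i : ℝ) ^ (-(1 + δ)) ≤ 1 + 1 / δ := by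
  have key : ∀ N : ℕ, ∑ i ∈ range (N + 2), (i : ℝ) ^ (-(1 + δ)) ≤
      1 + (1 - ((N : ℝ) + 1) ^ (-δ)) / δ := by
    intro N
    induction N with
    | zero =>
      have : (-(1 + δ)) ≠ 0 := by linarith
      simp [sum_range_succ, Real.zero_rpow this]
      rw [Real.zero_rpow (by linarith)]
    | succ N ih =>
      rw [sum_range_succ]
      have h := rpow_step hδ (v := (N : ℝ) + 1) (by positivity)
      have e : ((N + 2 : ℕ) : ℝ) = (N : ℝ) + 1 + 1 := by push_cast; ring
      have e' : ((N + 1 : ℕ) : ℝ) + 1 = (N : ℝ) + 1 + 1 := by push_cast; ring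
      rw [e, e']
      have : (1 - ((N : ℝ) + 1 + 1) ^ (-δ)) / δ = (1 - ((N : ℝ) + 1) ^ (-δ)) / δ +
          (((N : ℝ) + 1) ^ (-δ) - ((N : ℝ) + 1 + 1) ^ (-δ)) / δ := by ring
      linarith
  have h1 : ∑ i ∈ range N, (i : ℝ) ^ (-(1 + δ)) ≤ ∑ i ∈ range (N + 2), (i : ℝ) ^ (-(1 + δ)) :=
    sum_le_sum_of_subset_of_nonneg (range_subset_range.2 (by omega))
      fun i _ _ => Real.rpow_nonneg (Nat.cast_nonneg _) _
  have h2 : (1 - ((N : ℝ) + 1) ^ (-δ)) / δ ≤ 1 / δ := by
    have : 0 ≤ ((N : ℝ) + 1) ^ (-δ) := Real.rpow_nonneg (by positivity) _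
    gcongr; linarith
  linarith [key N]

theorem summable_rpow_neg {δ : ℝ} (hδ : 0 < δ) : Summable fun n : ℕ => (n : ℝ) ^ (-(1 + δ)) :=
  Real.summable_nat_rpow.2 (by linarith)

theorem tsum_rpow_le {δ : ℝ} (hδ : 0 < δ) : ∑' n : ℕ, (n : ℝ) ^ (-(1 + δ)) ≤ 1 + 1 / δ :=
  Real.tsum_le_of_sum_range_le (fun n => Real.rpow_nonneg (Nat.cast_nonneg _) _)
    (sum_range_rpow_le hδ)

/-- The kernel `1 / (s (s + 1))`. -/
noncomputable def ker (s : ℂ) : ℂ := 1 / (s * (s + 1))

theorem norm_ker_le {s : ℂ} (hs : 1 / 2 ≤ s.re) : ‖ker s‖ ≤ 4 * (1 + s.im ^ 2)⁻¹ := by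
  have h1 : ‖s‖ ^ 2 = s.re ^ 2 + s.im ^ 2 := by rw [Complex.sq_norm, normSq_apply]; ring
  have h2 : ‖s + 1‖ ^ 2 = (s.re + 1) ^ 2 + s.im ^ 2 := by
    rw [Complex.sq_norm, normSq_apply]; simp; ring
  have h3 : ‖s‖ ≤ ‖s + 1‖ := by
    apply le_of_sq_le_sq _ (norm_nonneg _)
    rw [h1, h2]; nlinarith
  have h4 : (1 + s.im ^ 2) / 4 ≤ ‖s‖ * ‖s + 1‖ := by
    have : ‖s‖ ^ 2 ≤ ‖s‖ * ‖s + 1‖ := by rw [sq]; gcongr
    nlinarith
  rw [ker, norm_div, norm_one, norm_mul]
  calc 1 / (‖s‖ * ‖s + 1‖) ≤ 1 / ((1 + s.im ^ 2) / 4) :=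
        one_div_le_one_div_of_le (by positivity) h4
    _ = 4 * (1 + s.im ^ 2)⁻¹ := by field_simp

theorem ker_den_ne {s : ℂ} (hs : 0 < s.re) : s * (s + 1) ≠ 0 := by
  refine mul_ne_zero ?_ ?_
  · rintro rfl; simp at hs
  · intro h
    have := congrArg Complex.re h
    simp at this; linarith

theorem differentiableAt_ker {s : ℂ} (hs : 0 < s.re) : DifferentiableAt ℂ ker s := by
  unfold ker
  exact (differentiableAt_const _).div (by fun_prop) (ker_den_ne hs)

theorem continuous_ker_line {σ : ℝ} (hσ : 0 < σ) : Continuous fun y : ℝ => ker (σ + y * I) := by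
  refine continuous_iff_continuousAt.2 fun y => ?_
  refine ContinuousAt.comp (g := ker) (differentiableAt_ker (by simpa using hσ)).continuousAt ?_
  fun_prop

theorem integrable_ker_line {σ : ℝ} (hσ : 1 / 2 ≤ σ) : Integrable fun y : ℝ => ker (σ + y * I) := by
  refine Integrable.mono' (integrable_inv_one_add_sq.const_mul 4)
    (continuous_ker_line (by linarith)).aestronglyMeasurable (Filter.Eventually.of_forall fun y => ?_)
  simpa using norm_ker_le (s := σ + y * I) (by simpa using hσ)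

/-- The triangular cut-off. -/
noncomputable def tri (t : ℝ) : ℂ := ((max (1 - t) 0 : ℝ) : ℂ)

theorem hasMellin_tri {s : ℂ} (hs : 0 < s.re) : HasMellin tri s (ker s) := by
  have h1 := hasMellin_one_Ioc hs
  have h2 := hasMellin_cpow_Ioc 1 (s := s) (by simp; linarith)
  have h3 := hasMellin_sub h1.1 h2.1
  rw [h1.2, h2.2] at h3
  have e : Set.EqOn (fun t : ℝ => (t : ℂ) ^ (s - 1) • tri t) (fun t : ℝ => (t : ℂ) ^ (s - 1) •
      (Set.indicator (Set.Ioc 0 1) (fun _ => 1 : ℝ → ℂ) t -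
        Set.indicator (Set.Ioc 0 1) (fun t => (t : ℂ) ^ (1 : ℂ) : ℝ → ℂ) t)) (Set.Ioi 0) := by
    intro t ht
    have ht' : 0 < t := ht
    simp only
    congr 1
    by_cases h : t ≤ 1
    · have hm : t ∈ Set.Ioc (0 : ℝ) 1 := ⟨ht', h⟩
      rw [Set.indicator_of_mem hm, Set.indicator_of_mem hm, tri, max_eq_left (by linarith)]
      simp
    · have hm : t ∉ Set.Ioc (0 : ℝ) 1 := fun hm => h hm.2
      rw [Set.indicator_of_notMem hm, Set.indicator_of_notMem hm, tri, max_eq_right (by linarith)]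
      simp
  have hs0 : s ≠ 0 := by rintro rfl; simp at hs
  have hs1 : s + 1 ≠ 0 := fun h => ker_den_ne hs (by rw [h, mul_zero])
  have e2 : 1 / s - 1 / (s + 1) = ker s := by rw [ker]; field_simp; ring
  refine ⟨(integrableOn_congr_fun e measurableSet_Ioi).2 h3.1, ?_⟩
  rw [← e2, ← h3.2]
  exact setIntegral_congr_fun measurableSet_Ioi e

theorem tri_eq_integral {σ u : ℝ} (hσ : 1 / 2 ≤ σ) (hu : 0 < u) :
    ∫ y : ℝ, (u : ℂ) ^ (-(σ + y * I)) * ker (σ + y * I) = 2 * Real.pi * tri u := by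
  have hσ' : 0 < σ := by linarith
  have e : ∀ y : ℝ, mellin tri (σ + y * I) = ker (σ + y * I) := fun y =>
    (hasMellin_tri (by simpa using hσ')).2
  have h := mellinInv_mellin_eq σ tri hu (hasMellin_tri (by simpa using hσ')).1
    (by unfold Complex.VerticalIntegrable; simp only [e]; exact integrable_ker_line hσ)
    (by unfold tri; fun_prop)
  rw [← h, mellinInv]
  simp only [e, smul_eq_mul, real_smul]
  have : (Real.pi : ℂ) ≠ 0 := by exact_mod_cast Real.pi_ne_zero
  generalize (∫ y : ℝ, (u : ℂ) ^ (-(σ + y * I)) * ker (σ + y * I)) = J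
  push_cast
  field_simp

theorem norm_term_line (b : ℕ → ℂ) (c y : ℝ) (n : ℕ) :
    ‖LSeries.term b (c + y * I) n‖ = ‖LSeries.term b c n‖ := by
  simp [LSeries.norm_term_eq]

theorem norm_cpow_line {X : ℝ} (hX : 0 < X) (s : ℂ) : ‖(X : ℂ) ^ (s + 1)‖ = X ^ (s.re + 1) := by
  rw [norm_cpow_eq_rpow_re_of_pos hX]; simp

theorem term_mul_cpow (b : ℕ → ℂ) {X : ℝ} (hX : 0 < X) {n : ℕ} (hn : n ≠ 0) (s : ℂ) :
    LSeries.term b s n * (X : ℂ) ^ (s + 1) = b n * X * (((n : ℝ) / X : ℝ) : ℂ) ^ (-s) := by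
  have hn' : (0 : ℝ) < n := by positivity
  have h1 : ∀ {v : ℝ}, 0 < v → ∀ z : ℂ, (v : ℂ) ^ z = exp (Real.log v * z) := fun hv z => by
    rw [cpow_def_of_ne_zero (by exact_mod_cast hv.ne'), ofReal_log hv.le]
  rw [LSeries.term_of_ne_zero hn, cpow_add _ _ (by exact_mod_cast hX.ne'), cpow_one,
    h1 (div_pos hn' hX), h1 hX, ← ofReal_natCast, h1 hn', Real.log_div hn'.ne' hX.ne',
    div_eq_mul_inv, ← exp_neg, ofReal_sub]
  rw [show (↑(Real.log n) - ↑(Real.log X) : ℂ) * -s = -(↑(Real.log n) * s) + Real.log X * s by ring,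
    exp_add]
  ring

theorem continuous_cpow_line {X : ℝ} (hX : 0 < X) (c : ℝ) :
    Continuous fun y : ℝ => (X : ℂ) ^ (c + y * I + 1) :=
  Continuous.const_cpow (by fun_prop) (Or.inl (by exact_mod_cast hX.ne'))

theorem continuous_term_line (b : ℕ → ℂ) (c : ℝ) (n : ℕ) :
    Continuous fun y : ℝ => LSeries.term b (c + y * I) n := by
  rcases eq_or_ne n 0 with rfl | hn
  · simp only [LSeries.term_zero]; exact continuous_const
  · simp only [LSeries.term_of_ne_zero hn]
    refine continuous_const.div (Continuous.const_cpow (by fun_prop)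
      (Or.inl (by exact_mod_cast hn))) fun y => ?_
    rw [Ne, cpow_eq_zero_iff]
    exact fun h => hn (by exact_mod_cast h.1)

/-- The Riesz mean formula. -/
theorem riesz_formula (b : ℕ → ℂ) {X c : ℝ} (hX : 0 < X) (hc : 1 / 2 ≤ c)
    (hb : Summable fun n => ‖LSeries.term b c n‖) :
    ∫ y : ℝ, LSeries b (c + y * I) * (X : ℂ) ^ (c + y * I + 1) * ker (c + y * I) =
      2 * Real.pi * ∑ n ∈ Icc 1 ⌊X⌋₊, b n * (X - n) := by
  set F : ℕ → ℝ → ℂ := fun n y =>
    LSeries.term b (c + y * I) n * (X : ℂ) ^ (c + y * I + 1) * ker (c + y * I) with hF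
  have hn : ∀ n y, ‖F n y‖ = ‖LSeries.term b c n‖ * X ^ (c + 1) * ‖ker (c + y * I)‖ := by
    intro n y
    rw [hF]; simp only [norm_mul]
    rw [norm_term_line, norm_cpow_line hX]; simp
  have hint : ∀ n, Integrable (F n) := fun n => by
    refine Integrable.mono' (((integrable_ker_line hc).norm).const_mul
      (‖LSeries.term b c n‖ * X ^ (c + 1))) ?_ (Filter.Eventually.of_forall fun y => (hn n y).le)
    exact (((continuous_term_line b c n).mul (continuous_cpow_line hX c)).mul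
      (continuous_ker_line (by linarith))).aestronglyMeasurable
  have hsum : Summable fun n => ∫ y, ‖F n y‖ := by
    simp only [hn, integral_const_mul]
    exact (hb.mul_right _).mul_right _
  have H := hasSum_integral_of_summable_integral_norm hint hsum
  have e1 : ∀ y : ℝ, ∑' n, F n y =
      LSeries b (c + y * I) * (X : ℂ) ^ (c + y * I + 1) * ker (c + y * I) := fun y => by
    rw [hF]; simp only
    rw [tsum_mul_right, tsum_mul_right, LSeries]
  simp only [e1] at H
  rw [← H.tsum_eq, mul_sum, tsum_eq_sum (s := Icc 1 ⌊X⌋₊)]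
  · refine sum_congr rfl fun n hn' => ?_
    rw [mem_Icc] at hn'
    have hn0 : n ≠ 0 := by omega
    have hnX : (n : ℝ) ≤ X := (Nat.le_floor_iff hX.le).1 hn'.2
    simp only [hF, term_mul_cpow b hX hn0]
    simp only [mul_assoc, integral_const_mul]
    rw [tri_eq_integral hc (by positivity), tri, max_eq_left
      (by rw [sub_nonneg, div_le_one hX]; exact hnX)]
    have : (X : ℂ) ≠ 0 := by exact_mod_cast hX.ne'
    push_cast
    field_simp
  · intro n hn'
    rcases eq_or_ne n 0 with rfl | hn0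
    · simp [hF]
    · have hnX : X < n := by
        rw [mem_Icc] at hn'
        exact Nat.lt_of_floor_lt (by omega)
      simp only [hF, term_mul_cpow b hX hn0]
      simp only [mul_assoc, integral_const_mul]
      rw [tri_eq_integral hc (by positivity), tri, max_eq_right
        (by rw [sub_nonpos, le_div_iff₀ hX]; linarith)]
      simp

theorem tail_bound {F : ℝ → ℂ} (hF : Integrable F) {M T : ℝ} (hT : 0 < T)
    (h : ∀ y, T ≤ |y| → ‖F y‖ ≤ M * (y ^ 2)⁻¹) :
    ‖(∫ y, F y) - ∫ y in (-T)..T, F y‖ ≤ 2 * M / T := by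
  have key : ∀ G : ℝ → ℂ, (∀ y, T ≤ y → ‖G y‖ ≤ M * (y ^ 2)⁻¹) →
      ‖∫ y in Set.Ioi T, G y‖ ≤ M / T := by
    intro G hG
    have hi : IntegrableOn (fun t : ℝ => t ^ (-2 : ℝ)) (Set.Ioi T) :=
      integrableOn_Ioi_rpow_of_lt (by norm_num) hT
    refine (norm_integral_le_of_norm_le (hi.const_mul M) ?_).trans ?_
    · refine (ae_restrict_iff' measurableSet_Ioi).2 (Filter.Eventually.of_forall fun y hy => ?_)
      have hy' : T < y := hy
      rw [Real.rpow_neg (by linarith), Real.rpow_two]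
      exact hG y hy'.le
    · rw [integral_const_mul, integral_Ioi_rpow_of_lt (by norm_num) hT]
      norm_num [Real.rpow_neg_one, div_eq_mul_inv]
  have h1 := intervalIntegral.integral_Iic_add_Ioi (f := F) (b := T) hF.integrableOn hF.integrableOn
  have h2 := intervalIntegral.integral_Iic_sub_Iic (f := F) (a := -T) (b := T) hF.integrableOn
    hF.integrableOn
  have h3 := integral_comp_neg_Ioi T F
  have h4 := key F fun y hy => h y (hy.trans (le_abs_self y))
  have h5 := key (fun y => F (-y)) fun y hy => by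
    simpa using h (-y) (by rw [abs_neg]; exact hy.trans (le_abs_self y))
  rw [← h1, ← h2, ← h3]
  calc _ = ‖(∫ y in Set.Ioi T, F y) + ∫ y in Set.Ioi T, F (-y)‖ := by congr 1; ring
    _ ≤ M / T + M / T := (norm_add_le _ _).trans (add_le_add h4 h5)
    _ = 2 * M / T := by ring

end Vale.Agent.P013
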