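import Vale.Agent.P013.Defs
import Vale.Agent.P013.TauberA

/-! A quantitative contour shift lemma (Riesz means of order one).

Proof plan. `c = 1 + 1/log x ≤ 2`. For `X ∈ {x, x + h} ⊆ [x, 2x]` put
`P X = ∑_{n ≤ X} b n (X - n)`.
* Mellin inversion: `f u = max (1 - u) 0` is continuous with Mellin transform `1/(s(s+1))` on
  `Re s > 0` (`hasMellin_one_Ioc`, `hasMellin_cpow_Ioc`), so by `mellin_inversion`
  (`mellinInv_mellin_eq`) `max (1 - n/X) 0 = (1/2π) ∫ (n/X)^(-(c+it)) / ((c+it)(c+1+it)) dt`.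
  Multiply by `X b n`, sum over `n` and interchange (`integral_tsum_of_summable_integral_norm` or
  `hasSum_integral_of_summable_integral_norm`):
  `P X = (1/2π) ∫ LSeries b (c+it) X^(c+1+it) / ((c+it)(c+1+it)) dt`.
* `‖LSeries b (c+it)‖ ≤ ∑ (log n + 1) n^(-c) ≤ C (log x)^2` (use `log n ≤ n^δ/δ` with
  `δ = 1/(2 log x)` and `∑ n^(-1-δ) ≤ 1 + 1/δ`). The part `|t| > T` is `≤ C x^2 (log x)^2 / T`.
* The part `|t| ≤ T`: `Complex.integral_boundary_rect_eq_zero_of_differentiableOn` on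
  `[1-η, c] × [-T, T]` for `G s X^(s+1)/(s(s+1))`; horizontal sides `≤ C B x^2/T^2`, left side
  `≤ C B x^(2-η) ∫ 1/(1/4 + t^2)`.
* `P (x+h) - P x = h ∑_{n ≤ x} b n + ∑_{x < n ≤ x+h} b n (x+h-n)`, the last sum has norm at most
  `h (h+1) (log (2x) + 1)`. -/

open Finset

namespace Vale.Agent.P013

open MeasureTheory Complex in
theorem norm_term_le {b : ℕ → ℂ} (hb : ∀ n, ‖b n‖ ≤ Real.log n + 1) {L : ℝ} (hL : 1 ≤ L) (n : ℕ) :
    ‖LSeries.term b ((1 + 1 / L : ℝ) : ℂ) n‖ ≤ 3 * L * (n : ℝ) ^ (-(1 + 1 / (2 * L))) := by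
  have hδ : 0 < 1 / (2 * L) := by positivity
  rcases eq_or_ne n 0 with rfl | hn
  · simp only [LSeries.term_zero, norm_zero]; positivity
  have hn1 : (1 : ℝ) ≤ n := by exact_mod_cast Nat.one_le_iff_ne_zero.2 hn
  have hn' : (0 : ℝ) < n := by linarith
  rw [LSeries.norm_term_eq, if_neg hn, ofReal_re, div_le_iff₀ (Real.rpow_pos_of_pos hn' _),
    mul_assoc, ← Real.rpow_add hn',
    show -(1 + 1 / (2 * L)) + (1 + 1 / L) = 1 / (2 * L) by field_simp; ring]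
  have h1 := Real.log_le_rpow_div hn'.le hδ
  have h2 : 1 ≤ (n : ℝ) ^ (1 / (2 * L)) := Real.one_le_rpow hn1 hδ.le
  have h3 : (n : ℝ) ^ (1 / (2 * L)) / (1 / (2 * L)) = 2 * L * (n : ℝ) ^ (1 / (2 * L)) := by
    field_simp
  nlinarith [hb n]

theorem summable_norm_term {b : ℕ → ℂ} (hb : ∀ n, ‖b n‖ ≤ Real.log n + 1) {L : ℝ} (hL : 1 ≤ L) :
    Summable fun n => ‖LSeries.term b ((1 + 1 / L : ℝ) : ℂ) n‖ :=
  Summable.of_nonneg_of_le (fun _ => norm_nonneg _) (norm_term_le hb hL)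
    ((summable_rpow_neg (by positivity)).mul_left _)

theorem norm_LSeries_line {b : ℕ → ℂ} (hb : ∀ n, ‖b n‖ ≤ Real.log n + 1) {L : ℝ} (hL : 1 ≤ L)
    (y : ℝ) : ‖LSeries b ((1 + 1 / L : ℝ) + y * Complex.I)‖ ≤ 9 * L ^ 2 := by
  have hδ : 0 < 1 / (2 * L) := by positivity
  have h1 := (summable_rpow_neg hδ).hasSum.mul_left (3 * L)
  refine (tsum_of_norm_bounded h1 fun n => ?_).trans ?_
  · rw [norm_term_line]; exact norm_term_le hb hL n
  · have h2 := tsum_rpow_le hδ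
    rw [one_div_one_div] at h2
    calc _ ≤ 3 * L * (1 + 2 * L) := by gcongr
      _ ≤ 9 * L ^ 2 := by nlinarith

theorem continuous_LSeries_line {b : ℕ → ℂ} {c : ℝ}
    (hb : Summable fun n => ‖LSeries.term b c n‖) :
    Continuous fun y : ℝ => LSeries b (c + y * Complex.I) :=
  continuous_tsum (fun n => continuous_term_line b c n) hb fun n y => (norm_term_line b c y n).le

theorem rpow_line_le {x X σ : ℝ} (hx : 3 ≤ x) (h1 : x ≤ X) (h2 : X ≤ 2 * x)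
    (hσ : σ ≤ 1 + 1 / Real.log x) : X ^ (σ + 1) ≤ 24 * x ^ 2 := by
  have hx0 : 0 < x := by linarith
  have hL : 1 ≤ Real.log x := by
    rw [Real.le_log_iff_exp_le hx0]; linarith [Real.exp_one_lt_d9]
  have hi : 1 / Real.log x ≤ 1 := by rw [div_le_one (by linarith)]; exact hL
  have hi0 : 0 < 1 / Real.log x := by positivity
  have e : x ^ (1 / Real.log x) = Real.exp 1 := by
    rw [Real.rpow_def_of_pos hx0]; congr 1; field_simp
  calc X ^ (σ + 1) ≤ X ^ (2 + 1 / Real.log x) :=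
        Real.rpow_le_rpow_of_exponent_le (by linarith) (by linarith)
    _ ≤ (2 * x) ^ (2 + 1 / Real.log x) := Real.rpow_le_rpow (by linarith) h2 (by positivity)
    _ = 2 ^ (2 + 1 / Real.log x) * (x ^ 2 * Real.exp 1) := by
        rw [Real.mul_rpow (by norm_num) hx0.le, Real.rpow_add hx0, e, Real.rpow_two]
    _ ≤ 2 ^ (3 : ℝ) * (x ^ 2 * 3) := by
        gcongr
        · norm_num
        · linarith
        · linarith [Real.exp_one_lt_d9]
    _ = 24 * x ^ 2 := by norm_num; ring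

open MeasureTheory Complex in
theorem rect_bound {H : ℂ → ℂ} {a c T A D : ℝ} (hac : a ≤ c) (hca : c - a ≤ 2) (hT : 0 ≤ T)
    (hH : DifferentiableOn ℂ H {s | a ≤ s.re ∧ s.re ≤ c ∧ |s.im| ≤ T}) (hD0 : 0 ≤ D)
    (hA : ∀ s : ℂ, a ≤ s.re → s.re ≤ c → |s.im| = T → ‖H s‖ ≤ A)
    (hD : ∀ y : ℝ, |y| ≤ T → ‖H (a + y * I)‖ ≤ D * (1 + y ^ 2)⁻¹) :
    ‖∫ y in (-T)..T, H (c + y * I)‖ ≤ 4 * A + 4 * D := by
  have h := integral_boundary_rect_eq_zero_of_differentiableOn H ⟨a, -T⟩ ⟨c, T⟩ (hH.mono ?_)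
  swap
  · intro s hs
    rw [mem_reProdIm] at hs
    simp only [Set.uIcc_of_le hac, Set.uIcc_of_le (by linarith : -T ≤ T), Set.mem_Icc] at hs
    exact ⟨hs.1.1, hs.1.2, abs_le.2 hs.2⟩
  simp only [smul_eq_mul] at h
  have hA0 : 0 ≤ A := (norm_nonneg _).trans (hA ⟨a, T⟩ le_rfl hac (abs_of_nonneg hT))
  have hor : ∀ t : ℝ, |t| = T → ‖∫ x : ℝ in a..c, H (x + t * I)‖ ≤ 2 * A := fun t ht => by
    refine (intervalIntegral.norm_integral_le_of_norm_le_const (C := A) fun x hx => ?_).trans ?_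
    · rw [Set.uIoc_of_le hac] at hx
      exact hA _ (by simpa using hx.1.le) (by simpa using hx.2) (by simpa using ht)
    · rw [abs_of_nonneg (by linarith)]; nlinarith
  have hl : ‖∫ y : ℝ in (-T)..T, H (a + y * I)‖ ≤ 4 * D := by
    have hi := integrable_inv_one_add_sq.const_mul D
    refine (intervalIntegral.norm_integral_le_of_norm_le (by linarith)
      (Filter.Eventually.of_forall fun y hy => hD y (abs_le.2 ⟨hy.1.le, hy.2⟩))
      hi.intervalIntegrable).trans ?_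
    rw [intervalIntegral.integral_of_le (by linarith)]
    refine (setIntegral_le_integral hi (Filter.Eventually.of_forall fun y => by positivity)).trans ?_
    rw [integral_const_mul, integral_univ_inv_one_add_sq]
    nlinarith [Real.pi_lt_four]
  have h1 := hor (-T) (by rw [abs_neg, abs_of_nonneg hT])
  have h2 := hor T (abs_of_nonneg hT)
  have e : I * ∫ y : ℝ in (-T)..T, H (c + y * I) = I * (∫ y : ℝ in (-T)..T, H (a + y * I)) -
      (∫ x : ℝ in a..c, H (x + (-T : ℝ) * I)) + ∫ x : ℝ in a..c, H (x + T * I) := by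
    linear_combination h
  have e2 := congrArg norm e
  rw [norm_mul, norm_I, one_mul] at e2
  rw [e2]
  refine (norm_add_le _ _).trans ?_
  have h3 := norm_sub_le (I * (∫ y : ℝ in (-T)..T, H (a + y * I)))
    (∫ x : ℝ in a..c, H (x + (-T : ℝ) * I))
  rw [norm_mul, norm_I, one_mul] at h3
  linarith

open MeasureTheory Complex in
theorem riesz_bound {b : ℕ → ℂ} {G : ℂ → ℂ} {x η T B X : ℝ}
    (hb : ∀ n, ‖b n‖ ≤ Real.log n + 1) (hx : 3 ≤ x) (hη : 0 < η) (hη' : η ≤ 1 / 2) (hT : 1 ≤ T)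
    (h1 : x ≤ X) (h2 : X ≤ 2 * x)
    (hG : DifferentiableOn ℂ G {s | 1 - η ≤ s.re ∧ s.re ≤ 2 ∧ |s.im| ≤ T})
    (hGL : ∀ s : ℂ, 1 < s.re → s.re ≤ 2 → |s.im| ≤ T → G s = LSeries b s)
    (hB : ∀ s : ℂ, 1 - η ≤ s.re → s.re ≤ 2 → |s.im| ≤ T → ‖G s‖ ≤ B) :
    ‖∑ n ∈ Icc 1 ⌊X⌋₊, b n * (X - n)‖ ≤
      2000 * (x ^ 2 * (B * x ^ (-η) + (B + Real.log x ^ 2) / T)) := by
  have hx0 : 0 < x := by linarith
  have hX : 0 < X := by linarith
  have hT0 : 0 < T := by linarith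
  set L := Real.log x with hLdef
  have hL : 1 ≤ L := by
    rw [hLdef, Real.le_log_iff_exp_le hx0]; linarith [Real.exp_one_lt_d9]
  have hi : 1 / L ≤ 1 := by rw [div_le_one (by linarith)]; exact hL
  have hi0 : 0 < 1 / L := by positivity
  set c : ℝ := 1 + 1 / L with hc
  have hB0 : 0 ≤ B := (norm_nonneg _).trans (hB 1 (by simp; linarith) (by simp) (by simp; linarith))
  have hs := summable_norm_term hb hL
  have hR := riesz_formula b hX (c := c) (by linarith) hs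
  set F : ℝ → ℂ := fun y => LSeries b (c + y * I) * (X : ℂ) ^ (c + y * I + 1) * ker (c + y * I)
    with hF
  have hFb : ∀ y, ‖F y‖ ≤ 9 * L ^ 2 * (24 * x ^ 2) * (4 * (1 + y ^ 2)⁻¹) := fun y => by
    rw [hF]; simp only [norm_mul]
    have a1 := norm_LSeries_line hb hL y
    have a2 : ‖(X : ℂ) ^ (c + y * I + 1)‖ ≤ 24 * x ^ 2 := by
      rw [norm_cpow_line hX]; exact rpow_line_le hx h1 h2 (by simp [hc, hLdef])
    have a3 : ‖ker (c + y * I)‖ ≤ 4 * (1 + y ^ 2)⁻¹ := by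
      simpa using norm_ker_le (s := c + y * I) (by simp; linarith)
    gcongr
  have hFi : Integrable F := by
    refine Integrable.mono' ((integrable_inv_one_add_sq.const_mul 4).const_mul _) ?_
      (Filter.Eventually.of_forall hFb)
    exact (((continuous_LSeries_line hs).mul (continuous_cpow_line hX c)).mul
      (continuous_ker_line (by linarith))).aestronglyMeasurable
  have htail := tail_bound hFi (M := 9 * L ^ 2 * (24 * x ^ 2) * 4) hT0 fun y hy => by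
    refine (hFb y).trans ?_
    have hy0 : 0 < y ^ 2 := by rw [← sq_abs]; have : 0 < |y| := by linarith
                               positivity
    have : (1 + y ^ 2)⁻¹ ≤ (y ^ 2)⁻¹ := inv_anti₀ hy0 (by linarith)
    rw [mul_assoc (9 * L ^ 2 * (24 * x ^ 2))]
    gcongr
  set H : ℂ → ℂ := fun s => G s * (X : ℂ) ^ (s + 1) * ker s with hH
  have hXne : (X : ℂ) ≠ 0 := by exact_mod_cast hX.ne'
  have hrect := rect_bound (H := H) (a := 1 - η) (c := c) (T := T) (A := B * (24 * x ^ 2) * (4 / T))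
    (D := B * (4 * x ^ 2 * x ^ (-η)) * 4) (by linarith) (by linarith) hT0.le ?_ (by positivity) ?_ ?_
  rotate_left
  · refine ((hG.mono fun s hs => ⟨hs.1, by linarith [hs.2.1], hs.2.2⟩).mul ?_).mul ?_
    · exact (Differentiable.const_cpow (by fun_prop) (Or.inl hXne)).differentiableOn
    · exact fun s hs => (differentiableAt_ker (by linarith [hs.1])).differentiableWithinAt
  · intro s a1 a2 a3
    rw [hH]; simp only [norm_mul]
    have b1 := hB s a1 (by linarith) a3.le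
    have b2 : ‖(X : ℂ) ^ (s + 1)‖ ≤ 24 * x ^ 2 := by
      rw [norm_cpow_line hX]; exact rpow_line_le hx h1 h2 a2
    have b3 : ‖ker s‖ ≤ 4 / T := by
      refine (norm_ker_le (by linarith)).trans ?_
      rw [← sq_abs, a3, div_eq_mul_inv]
      gcongr; nlinarith
    gcongr
  · intro y hy
    rw [hH]; simp only [norm_mul]
    have b1 := hB ((1 - η : ℝ) + y * I) (by simp) (by simp; linarith) (by simpa using hy)
    have b2 : ‖(X : ℂ) ^ (((1 - η : ℝ) : ℂ) + y * I + 1)‖ ≤ 4 * x ^ 2 * x ^ (-η) := by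
      rw [norm_cpow_line hX, show (((1 - η : ℝ) : ℂ) + y * I).re + 1 = 2 + -η by simp; ring,
        Real.rpow_add hX, Real.rpow_two]
      have c1 : X ^ (-η) ≤ x ^ (-η) := Real.rpow_le_rpow_of_nonpos hx0 h1 (by linarith)
      have c2 : X ^ 2 ≤ 4 * x ^ 2 := by nlinarith
      gcongr
    have b3 : ‖ker (((1 - η : ℝ) : ℂ) + y * I)‖ ≤ 4 * (1 + y ^ 2)⁻¹ := by
      simpa using norm_ker_le (s := ((1 - η : ℝ) : ℂ) + y * I) (by simp; linarith)
    rw [mul_assoc (B * (4 * x ^ 2 * x ^ (-η)))]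
    gcongr
  have e : ∫ y in (-T)..T, F y = ∫ y in (-T)..T, H (c + y * I) := by
    refine intervalIntegral.integral_congr fun y hy => ?_
    rw [Set.uIcc_of_le (by linarith)] at hy
    simp only [hF, hH]
    rw [hGL _ (by simp; linarith) (by simp; linarith) (by simpa using abs_le.2 hy)]
  have e2 : ‖∑ n ∈ Icc 1 ⌊X⌋₊, b n * (X - n)‖ ≤ ‖∫ y, F y‖ := by
    rw [hR, norm_mul]
    refine le_mul_of_one_le_left (norm_nonneg _) ?_
    simp only [norm_mul, norm_ofNat, norm_real, Real.norm_eq_abs, abs_of_pos Real.pi_pos]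
    linarith [Real.pi_gt_three]
  have e3 : ‖∫ y, F y‖ ≤ ‖(∫ y, F y) - ∫ y in (-T)..T, F y‖ + ‖∫ y in (-T)..T, F y‖ := by
    simpa using norm_add_le ((∫ y, F y) - ∫ y in (-T)..T, F y) (∫ y in (-T)..T, F y)
  rw [← e] at hrect
  have p1 : 0 ≤ x ^ 2 * (B * x ^ (-η)) := by positivity
  have p2 : 0 ≤ x ^ 2 * (B / T) := by positivity
  have p3 : 0 ≤ x ^ 2 * (L ^ 2 / T) := by positivity
  calc _ ≤ 2 * (9 * L ^ 2 * (24 * x ^ 2) * 4) / T + (4 * (B * (24 * x ^ 2) * (4 / T)) +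
        4 * (B * (4 * x ^ 2 * x ^ (-η)) * 4)) := by linarith
    _ = 1728 * (x ^ 2 * (L ^ 2 / T)) + 384 * (x ^ 2 * (B / T)) + 64 * (x ^ 2 * (B * x ^ (-η))) := by
        ring
    _ ≤ 2000 * (x ^ 2 * (L ^ 2 / T)) + 2000 * (x ^ 2 * (B / T)) +
        2000 * (x ^ 2 * (B * x ^ (-η))) := by linarith
    _ = _ := by ring

theorem riesz_diff {b : ℕ → ℂ} {x h : ℝ} (hb : ∀ n, ‖b n‖ ≤ Real.log n + 1) (hx : 3 ≤ x)
    (h1 : 1 ≤ h) (h2 : h ≤ x) :
    ‖(∑ n ∈ Icc 1 ⌊x + h⌋₊, b n * ((x + h : ℝ) - n)) - (∑ n ∈ Icc 1 ⌊x⌋₊, b n * (x - n)) -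
      h * ∑ n ∈ Icc 1 ⌊x⌋₊, b n‖ ≤ 6 * h ^ 2 * Real.log x := by
  have hx0 : 0 < x := by linarith
  have hL : 1 ≤ Real.log x := by
    rw [Real.le_log_iff_exp_le hx0]; linarith [Real.exp_one_lt_d9]
  have hfl : ⌊x⌋₊ ≤ ⌊x + h⌋₊ := Nat.floor_le_floor (by linarith)
  have e : Icc 1 ⌊x + h⌋₊ = Icc 1 ⌊x⌋₊ ∪ Ioc ⌊x⌋₊ ⌊x + h⌋₊ := by
    ext n; simp only [mem_union, mem_Icc, mem_Ioc]; omega
  have hd : Disjoint (Icc 1 ⌊x⌋₊) (Ioc ⌊x⌋₊ ⌊x + h⌋₊) := by
    rw [disjoint_left]; intro n; simp only [mem_Icc, mem_Ioc]; omega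
  have e2 : (∑ n ∈ Icc 1 ⌊x + h⌋₊, b n * ((x + h : ℝ) - n)) - (∑ n ∈ Icc 1 ⌊x⌋₊, b n * (x - n)) -
      h * ∑ n ∈ Icc 1 ⌊x⌋₊, b n = ∑ n ∈ Ioc ⌊x⌋₊ ⌊x + h⌋₊, b n * ((x + h : ℝ) - n) := by
    have : ∑ n ∈ Icc 1 ⌊x⌋₊, b n * ((x + h : ℝ) - n) =
        (∑ n ∈ Icc 1 ⌊x⌋₊, b n * (x - n)) + h * ∑ n ∈ Icc 1 ⌊x⌋₊, b n := by
      rw [mul_sum, ← sum_add_distrib]
      exact sum_congr rfl fun n _ => by push_cast; ring
    rw [e, sum_union hd, this]; ring
  rw [e2]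
  have hc : ((Ioc ⌊x⌋₊ ⌊x + h⌋₊).card : ℝ) ≤ 2 * h := by
    rw [Nat.card_Ioc, Nat.cast_sub hfl]
    have a1 := Nat.floor_le (by linarith : 0 ≤ x + h)
    have a2 := Nat.lt_floor_add_one x
    linarith
  have hterm : ∀ n ∈ Ioc ⌊x⌋₊ ⌊x + h⌋₊, ‖b n * ((x + h : ℝ) - n)‖ ≤ 3 * Real.log x * h := by
    intro n hn
    rw [mem_Ioc] at hn
    have a1 : x < n := Nat.lt_of_floor_lt hn.1
    have a2 : (n : ℝ) ≤ x + h := (Nat.le_floor_iff (by linarith)).1 hn.2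
    have a3 : Real.log n ≤ 2 * Real.log x := by
      rw [show 2 * Real.log x = Real.log (x ^ 2) by rw [Real.log_pow]; norm_num]
      exact Real.log_le_log (by linarith) (by nlinarith)
    have a4 : ‖(((x + h : ℝ) : ℂ) - n)‖ ≤ h := by
      rw [← Complex.ofReal_natCast, ← Complex.ofReal_sub, Complex.norm_real, Real.norm_eq_abs,
        abs_of_nonneg (by linarith)]
      linarith
    have a5 : ‖b n‖ ≤ 3 * Real.log x := by linarith [hb n]
    rw [norm_mul]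
    gcongr
  refine (norm_sum_le _ _).trans ((sum_le_card_nsmul _ _ _ hterm).trans ?_)
  rw [nsmul_eq_mul]
  calc _ ≤ 2 * h * (3 * Real.log x * h) := by gcongr
    _ = _ := by ring

theorem contour_shift : ∃ C : ℝ, 0 < C ∧ ∀ (b : ℕ → ℂ) (G : ℂ → ℂ) (x η T B h : ℝ),
    (∀ n, ‖b n‖ ≤ Real.log n + 1) → 3 ≤ x → 0 < η → η ≤ 1 / 2 → 1 ≤ T → 1 ≤ h → h ≤ x →
    DifferentiableOn ℂ G {s | 1 - η ≤ s.re ∧ s.re ≤ 2 ∧ |s.im| ≤ T} →
    (∀ s : ℂ, 1 < s.re → s.re ≤ 2 → |s.im| ≤ T → G s = LSeries b s) →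
    (∀ s : ℂ, 1 - η ≤ s.re → s.re ≤ 2 → |s.im| ≤ T → ‖G s‖ ≤ B) →
    ‖∑ n ∈ Icc 1 ⌊x⌋₊, b n‖ ≤
      C * (x ^ 2 / h * (B * x ^ (-η) + (B + Real.log x ^ 2) / T) + h * Real.log x) := by
  refine ⟨4000, by norm_num, fun b G x η T B h hb hx hη hη' hT h1 h2 hG hGL hB => ?_⟩
  have a1 := riesz_bound (X := x) hb hx hη hη' hT le_rfl (by linarith) hG hGL hB
  have a2 := riesz_bound (X := x + h) hb hx hη hη' hT (by linarith) (by linarith) hG hGL hB
  have a3 := riesz_diff hb hx h1 h2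
  have hh : 0 < h := by linarith
  have hL : 0 ≤ Real.log x := Real.log_nonneg (by linarith)
  set P1 := ∑ n ∈ Icc 1 ⌊x⌋₊, b n * (x - n)
  set P2 := ∑ n ∈ Icc 1 ⌊x + h⌋₊, b n * ((x + h : ℝ) - n)
  set S := ∑ n ∈ Icc 1 ⌊x⌋₊, b n
  set E := B * x ^ (-η) + (B + Real.log x ^ 2) / T
  have a4 : h * ‖S‖ ≤ ‖P2‖ + ‖P1‖ + ‖P2 - P1 - h * S‖ := by
    have : (h : ℂ) * S = P2 - P1 - (P2 - P1 - h * S) := by ring
    calc h * ‖S‖ = ‖(h : ℂ) * S‖ := by
          rw [norm_mul, Complex.norm_real, Real.norm_eq_abs, abs_of_pos hh]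
      _ ≤ ‖P2 - P1‖ + ‖P2 - P1 - h * S‖ := by
          conv_lhs => rw [this]
          exact norm_sub_le _ _
      _ ≤ _ := by linarith [norm_sub_le P2 P1]
  refine le_of_mul_le_mul_left ?_ hh
  have e : h * (4000 * (x ^ 2 / h * E + h * Real.log x)) =
      4000 * (x ^ 2 * E) + 4000 * (h ^ 2 * Real.log x) := by field_simp
  have p : 0 ≤ h ^ 2 * Real.log x := by positivity
  rw [e]
  linarith

end Vale.Agent.P013
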