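import Vale.Agent.P013.ZeroFree
import Vale.Agent.P013.Tauber

/-! Siegel-Walfisz and the Liouville sum.

Proof plan. Write `l = log x`. For a target saving `l^(-A')` apply `contour_shift` with
`h = x / l^(A'+1)`, `T = l^(2A'+4)`, `ε` so small that `(Q T)^ε ≤ l^(1/2)` for `Q ≤ l^A`,
`η = c (Q T)^(-ε) ≥ c l^(-1/2)`, `B = O(l^(1/2))`; then `x^(-η) ≤ exp (-c l^(1/2))` beats every
power of `l`. Small `x` (below a threshold `x₀`) is absorbed in the constant by trivial bounds.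
* `χ ≠ 1`: `b = χ Λ`, `G = - L'/L` (`DirichletCharacter.LSeries_twist_vonMangoldt_eq`,
  `LFunction_eq_LSeries`, `deriv_LFunction_eq_deriv_LSeries`).
* `ζ`: `b = Λ - 1`, `G = - Zf'/Zf - zeta0`. Principal character mod `Q`:
  `0 ≤ ψ(x) - ψ(x, χ₀) ≤ ∑_{p ∣ Q} log x ≤ 2 log Q log x` (or bound via primes only).
* Orthogonality `DirichletCharacter.sum_char_inv_mul_char_eq`, number of characters
  `= φ Q` (`DirichletCharacter.card_eq_totient_of_hasEnoughRootsOfUnity`); dividing by `φ Q`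
  costs nothing. Prime powers: `Chebyshev.psi_sub_theta_le`.
* Liouville: `b = λ`, `G s = ζ(2s) (s-1)/Zf s`, since `LSeries λ s * ζ s = ζ (2s)` for
  `Re s > 1` (Euler products: `EulerProduct.eulerProduct_completely_multiplicative_hasProd`,
  `riemannZeta_eulerProduct_hasProd`, `(1+u)⁻¹ (1-u)⁻¹ = (1-u^2)⁻¹`), and
  `‖ζ(2s)‖ ≤ ∑ n^(-3/2)` for `Re s ≥ 3/4`. -/

open Finset Filter ArithmeticFunction

namespace Vale.Agent.P013

theorem sw_ev (n : ℕ) {c : ℝ} (hc : 0 < c) (M : ℝ) :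
    ∀ᶠ u : ℝ in atTop, M * u ^ n ≤ Real.exp (c * u) := by
  filter_upwards [((isLittleO_pow_exp_pos_mul_atTop n hc).const_mul_left M).eventuallyLE] with u hu
  exact (le_abs_self _).trans (hu.trans_eq (abs_of_pos (Real.exp_pos _)))

theorem sw_master : ∃ C : ℝ, 0 < C ∧ ∀ (K : ℕ) (c M : ℝ), 0 < c → ∀ᶠ x : ℝ in atTop,
    ∀ (b : ℕ → ℂ) (G : ℂ → ℂ), (∀ n, ‖b n‖ ≤ Real.log n + 1) →
    (∀ s : ℂ, 1 - c / √(Real.log x) ≤ s.re → s.re ≤ 2 → |s.im| ≤ Real.log x ^ (2 * K + 4) →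
      DifferentiableAt ℂ G s ∧ ‖G s‖ ≤ M * √(Real.log x)) →
    (∀ s : ℂ, 1 < s.re → G s = LSeries b s) →
    ‖∑ n ∈ Icc 1 ⌊x⌋₊, b n‖ ≤ C * x / Real.log x ^ K := by
  obtain ⟨C, hC, H⟩ := contour_shift
  refine ⟨4 * C, by positivity, fun K c M hc => ?_⟩
  have t1 := Real.tendsto_log_atTop
  have t2 := Real.tendsto_sqrt_atTop.comp t1
  filter_upwards [eventually_ge_atTop 3, t1.eventually_ge_atTop 1, t1.eventually_ge_atTop M,
    t2.eventually_ge_atTop (2 * c), t1.eventually (sw_ev (K + 1) one_pos 1),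
    t2.eventually (sw_ev (2 * (2 * K + 3)) hc 1)] with x h1 h2 h3 h4 h5 h6 b G hb hG hL
  simp only [Function.comp_apply, one_mul] at h4 h5 h6
  have x0 : 0 < x := by linarith
  rw [Real.exp_log x0] at h5
  rw [pow_mul, Real.sq_sqrt (by linarith)] at h6
  have u0 : 0 < √(Real.log x) := by linarith
  have h7 : x ^ (-(c / √(Real.log x))) = (Real.exp (c * √(Real.log x)))⁻¹ := by
    rw [Real.rpow_def_of_pos x0, ← Real.exp_neg]
    congr 1
    field_simp
    rw [Real.sq_sqrt (by linarith)]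
  have h8 : M * √(Real.log x) ≤ Real.log x ^ 2 := by
    rw [sq]
    exact mul_le_mul h3 (Real.sqrt_le_iff.2 ⟨by linarith, by nlinarith⟩) u0.le (by linarith)
  have p := one_le_pow₀ h2 (n := K + 1)
  refine (H b G x (c / √(Real.log x)) (Real.log x ^ (2 * K + 4)) (Real.log x ^ 2)
    (x / Real.log x ^ (K + 1)) hb h1 (by positivity) ((div_le_iff₀ u0).2 (by linarith))
    (one_le_pow₀ h2) ((one_le_div (by positivity)).2 h5) (div_le_self x0.le p)
    (fun s hs => (hG s hs.1 hs.2.1 hs.2.2).1.differentiableWithinAt) (fun s hs _ _ => hL s hs)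
    fun s a b c => (hG s a b c).2.trans h8).trans ?_
  rw [h7]
  generalize Real.log x = l at *
  have l0 : 0 < l := by linarith
  have k1 := inv_anti₀ (by positivity) h6
  calc _ ≤ C * (x ^ 2 / (x / l ^ (K + 1)) * (l ^ 2 * (l ^ (2 * K + 3))⁻¹ +
        (l ^ 2 + l ^ 2) / l ^ (2 * K + 3)) + x / l ^ (K + 1) * l) := by gcongr <;> omega
    _ = _ := by field_simp; ring

theorem sw_rpow {l y c : ℝ} {m : ℕ} (hm : 0 < m) (hl : 1 ≤ l) (hy : 0 < y) (h : y ≤ l ^ m)
    (hc : 0 < c) : 1 - c * y ^ (-(1 / (2 * m) : ℝ)) ≤ 1 - c / √l ∧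
      y ^ (1 / (2 * m) : ℝ) / c ≤ 1 / c * √l := by
  have k : y ^ (1 / (2 * m) : ℝ) ≤ √l := by
    refine (Real.rpow_le_rpow hy.le h (by positivity)).trans_eq ?_
    rw [← Real.rpow_natCast, ← Real.rpow_mul (by linarith), Real.sqrt_eq_rpow]
    congr 1
    field_simp
  refine ⟨sub_le_sub_left ?_ _, by rw [one_div_mul_eq_div]; gcongr⟩
  rw [Real.rpow_neg hy.le, ← div_eq_mul_inv]
  gcongr

theorem sw_chi : ∃ C : ℝ, 0 < C ∧ ∀ A : ℕ, ∀ᶠ x : ℝ in atTop, ∀ (Q : ℕ) [NeZero Q]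
    (χ : DirichletCharacter ℂ Q), (Q : ℝ) ≤ Real.log x ^ A → χ ≠ 1 →
    ‖∑ n ∈ Icc 1 ⌊x⌋₊, χ n * (vonMangoldt n : ℂ)‖ ≤ C * x / Real.log x ^ A := by
  obtain ⟨C, hC, H⟩ := sw_master
  refine ⟨C, hC, fun A => ?_⟩
  obtain ⟨c, hc, -, Z⟩ := zero_free (ε := 1 / (2 * (A + (2 * A + 4) : ℕ))) (by positivity)
  filter_upwards [H A c (1 / c) hc, Real.tendsto_log_atTop.eventually_ge_atTop 1] with
    x h h1 Q _ χ hQ hχ
  have q0 : (0 : ℝ) < Q := Nat.cast_pos.2 (NeZero.pos Q)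
  have hd := χ.differentiable_LFunction hχ
  refine h _ (fun s => -(deriv χ.LFunction s / χ.LFunction s)) (fun n => ?_) (fun s a b d => ?_)
    fun s hs => ?_
  · rw [norm_mul, Complex.norm_of_nonneg vonMangoldt_nonneg]
    exact (mul_le_of_le_one_left vonMangoldt_nonneg (χ.norm_le_one _)).trans
      (vonMangoldt_le_log.trans (by linarith))
  · obtain ⟨k1, k2⟩ := sw_rpow (m := A + (2 * A + 4)) (y := Q * Real.log x ^ (2 * A + 4))
      (by omega) h1 (by positivity) (by rw [pow_add _ A]; gcongr) hc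
    obtain ⟨k3, k4⟩ := Z Q χ hχ _ (one_le_pow₀ h1) s d (k1.trans a) b
    exact ⟨((hd.deriv s).div (hd s) k3).neg, (norm_neg _).trans_le (k4.trans k2)⟩
  · rw [χ.deriv_LFunction_eq_deriv_LSeries hs, χ.LFunction_eq_LSeries hs, ← neg_div,
      ← χ.LSeries_twist_vonMangoldt_eq hs]
    rfl

theorem sw_zeta : ∃ C : ℝ, 0 < C ∧ ∀ A : ℕ, ∀ᶠ x : ℝ in atTop,
    ‖∑ n ∈ Icc 1 ⌊x⌋₊, ((vonMangoldt n : ℂ) - 1)‖ ≤ C * x / Real.log x ^ A := by
  obtain ⟨C, hC, H⟩ := sw_master
  refine ⟨C, hC, fun A => ?_⟩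
  obtain ⟨c, hc, -, Z⟩ := zero_free_zeta (ε := 1 / (2 * (2 * A + 4 : ℕ))) (by positivity)
  filter_upwards [H A c (1 / c + 1 / c) hc, Real.tendsto_log_atTop.eventually_ge_atTop 1] with
    x h h1
  have hd := differentiable_Zf
  refine h _ (fun s => -(deriv Zf s / Zf s) - zeta0 s) (fun n => ?_) (fun s a b d => ?_)
    fun s hs => ?_
  · refine (norm_sub_le _ _).trans ?_
    rw [Complex.norm_of_nonneg vonMangoldt_nonneg, norm_one]
    linarith [vonMangoldt_le_log (n := n)]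
  · obtain ⟨k1, k2⟩ := sw_rpow (m := 2 * A + 4) (by omega) h1 (by positivity) le_rfl hc
    obtain ⟨k3, k4, -, k5⟩ := Z _ (one_le_pow₀ h1) s d (k1.trans a) b
    refine ⟨((hd.deriv s).div (hd s) k3).neg.sub (differentiable_zeta0 s),
      (norm_sub_le _ _).trans ?_⟩
    rw [norm_neg]
    linarith
  · have h1 : s ≠ 1 := by rintro rfl; simp at hs
    have h2 := riemannZeta_ne_zero_of_one_lt_re hs
    have h3 := sub_ne_zero.2 h1
    have h4 : deriv Zf s = (s - 1) * deriv riemannZeta s + riemannZeta s := by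
      rw [EventuallyEq.deriv_eq (f := fun z => (z - 1) * riemannZeta z)
        (eventually_of_mem (isOpen_ne.mem_nhds h1) fun z hz => Zf_eq hz),
        deriv_fun_mul (by fun_prop) (differentiableAt_riemannZeta h1), deriv_sub_const,
        deriv_id'', one_mul, add_comm]
    refine Eq.trans ?_ (LSeries_sub (LSeriesSummable_vonMangoldt hs)
      (LSeriesSummable_one_iff.2 hs)).symm
    rw [LSeries_vonMangoldt_eq_deriv_riemannZeta_div hs, LSeries_one_eq_riemannZeta hs, h4,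
      zeta0_eq h1, Zf_eq h1]
    field_simp
    ring

theorem sw_norm_lam (n : ℕ) : ‖(liouville n : ℂ)‖ ≤ 1 := by
  rcases eq_or_ne n 0 with rfl | h
  · simp
  · simp [liouville_apply h]

theorem sw_LSeries_lam {s : ℂ} (hs : 1 < s.re) :
    LSeries (fun n => (liouville n : ℂ)) s * riemannZeta s = riemannZeta (2 * s) := by
  have h0 := Complex.ne_zero_of_one_lt_re hs
  let f : ℕ →*₀ ℂ :=
    { toFun := fun n => liouville n * riemannZetaSummandHom h0 n
      map_zero' := by simp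
      map_one' := by simp [liouville_apply_one]
      map_mul' := fun m n => by
        rw [liouville_apply_mul, map_mul, Int.cast_mul, mul_mul_mul_comm] }
  have h1 := EulerProduct.eulerProduct_completely_multiplicative_hasProd (f := f)
    ((summable_riemannZetaSummand hs).of_nonneg_of_le (fun _ => norm_nonneg _) fun n =>
      (norm_mul _ _).trans_le (mul_le_of_le_one_left (norm_nonneg _) (sw_norm_lam n)))
  have h2 : ∑' n, f n = LSeries (fun n => (liouville n : ℂ)) s := by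
    simp only [f, riemannZetaSummandHom, Complex.cpow_neg, MonoidWithZeroHom.coe_mk, ZeroHom.coe_mk,
      LSeries, LSeries.term_of_ne_zero' h0, div_eq_mul_inv]
  refine (h2 ▸ h1.mul (riemannZeta_eulerProduct_hasProd hs)).unique
    ((riemannZeta_eulerProduct_hasProd (s := 2 * s) (by simp; linarith)).congr_fun fun p => ?_)
  have h3 : liouville (p : ℕ) = -1 := by
    rw [liouville_apply p.2.ne_zero, cardFactors_apply_prime p.2, pow_one]
  simp only [f, riemannZetaSummandHom, MonoidWithZeroHom.coe_mk, ZeroHom.coe_mk, h3]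
  rw [← mul_inv, ← mul_neg, show (2 : ℂ) = (2 : ℕ) from rfl, Complex.cpow_nat_mul]
  congr 1
  push_cast
  ring

theorem sw_lam : ∃ C : ℝ, 0 < C ∧ ∀ᶠ x : ℝ in atTop,
    ‖∑ n ∈ Icc 1 ⌊x⌋₊, (liouville n : ℂ)‖ ≤ C * x / Real.log x ^ 4 := by
  obtain ⟨C, hC, H⟩ := sw_master
  refine ⟨C, hC, ?_⟩
  obtain ⟨c, hc, hc', Z⟩ := zero_free_zeta (ε := 1 / (2 * (2 * 4 + 4 : ℕ))) (by positivity)
  filter_upwards [H 4 c ((∑' n : ℕ, ((n : ℝ) + 1) ^ (-(1 / 2 : ℝ) - 1)) * (1 / c)) hc,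
    Real.tendsto_log_atTop.eventually_ge_atTop 1] with x h h1
  refine h _ (fun s => riemannZeta (2 * s) * ((s - 1) / Zf s)) (fun n => ?_) (fun s a b d => ?_)
    fun s hs => ?_
  · linarith [sw_norm_lam n, Real.log_natCast_nonneg n]
  · obtain ⟨k1, k2⟩ := sw_rpow (m := 2 * 4 + 4) (by omega) h1 (by positivity) le_rfl hc
    obtain ⟨k3, -, k4, -⟩ := Z _ (one_le_pow₀ h1) s d (k1.trans a) b
    have k5 : 3 / 2 ≤ (2 * s).re := by
      have := div_le_self hc.le (Real.one_le_sqrt.2 h1)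
      simp
      linarith
    refine ⟨((differentiableAt_riemannZeta (s := 2 * s) fun e => by
      rw [e] at k5; norm_num at k5).comp s (by fun_prop)).mul
      ((differentiableAt_id.sub_const 1).div (differentiable_Zf s) k3), ?_⟩
    rw [norm_mul, mul_assoc]
    refine mul_le_mul ?_ (k4.trans k2) (norm_nonneg _) (growth_pos (by norm_num)).le
    rw [zeta_eq_tsum_one_div_nat_add_one_cpow (by linarith)]
    refine tsum_of_norm_bounded (growth_summable (by norm_num)).hasSum fun n => ?_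
    rw [one_div, ← Complex.cpow_neg, show (n + 1 : ℂ) = ((n : ℝ) + 1 : ℝ) by simp,
      Complex.norm_cpow_eq_rpow_re_of_pos (by positivity), Complex.neg_re]
    exact Real.rpow_le_rpow_of_exponent_le (le_add_of_nonneg_left n.cast_nonneg) (by linarith)
  · have h1 : s ≠ 1 := by rintro rfl; simp at hs
    have h2 := riemannZeta_ne_zero_of_one_lt_re hs
    have h3 := sub_ne_zero.2 h1
    rw [← sw_LSeries_lam hs, Zf_eq h1]
    field_simp

theorem sw_prime {f : ℕ → ℂ} (hf : ∀ n, ‖f n‖ ≤ 1) {x : ℝ} (hx : 1 ≤ x) :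
    ‖∑ p ∈ PI 0 x, f p * (Real.log p : ℂ) - ∑ n ∈ Icc 1 ⌊x⌋₊, f n * (vonMangoldt n : ℂ)‖ ≤
      2 * √x * Real.log x := by
  rw [PI, Nat.floor_zero, show Icc 1 ⌊x⌋₊ = Ioc 0 ⌊x⌋₊ by ext; simp; omega,
    ← sum_filter_add_sum_filter_not (Ioc 0 ⌊x⌋₊) Nat.Prime fun n => f n * (vonMangoldt n : ℂ),
    sum_congr rfl fun p hp => show f p * (Real.log p : ℂ) = f p * (vonMangoldt p : ℂ) by
      rw [vonMangoldt_apply_prime (mem_filter.1 hp).2], sub_add_cancel_left, norm_neg]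
  refine (norm_sum_le_of_le _ fun n _ => ?_).trans ((Chebyshev.psi_sub_theta_eq_sum_not_prime
    x).symm.trans_le (Chebyshev.psi_sub_theta_le hx))
  rw [norm_mul, Complex.norm_of_nonneg vonMangoldt_nonneg]
  exact mul_le_of_le_one_left vonMangoldt_nonneg (hf n)

theorem sw_all (A : ℕ) : ∃ C : ℝ, 0 < C ∧ ∀ᶠ x : ℝ in atTop, ∀ (Q : ℕ) [NeZero Q]
    (χ : DirichletCharacter ℂ Q), (Q : ℝ) ≤ Real.log x ^ A →
    ‖∑ p ∈ PI 0 x, χ p * (Real.log p : ℂ) - if χ = 1 then (x : ℂ) else 0‖ ≤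
      C * x / Real.log x ^ A := by
  obtain ⟨C, hC, H⟩ := sw_chi
  obtain ⟨C', hC', H'⟩ := sw_zeta
  refine ⟨C + C' + 3, by positivity, ?_⟩
  have t1 := Real.tendsto_log_atTop
  filter_upwards [H A, H' A, eventually_ge_atTop 1, t1.eventually_ge_atTop 1,
    t1.eventually (sw_ev (A + 1) one_half_pos 2), t1.eventually (sw_ev (2 * A + 1) one_pos 2)]
    with x h1 h2 h3 h4 h5 h6 Q _ χ hQ
  have x0 : 0 < x := by linarith
  have l0 : 0 < Real.log x ^ A := by positivity
  rw [one_mul, Real.exp_log x0] at h6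
  rw [mul_comm (1 / 2 : ℝ), ← Real.rpow_def_of_pos x0, ← Real.sqrt_eq_rpow] at h5
  have e1 : 2 * √x * Real.log x ≤ x / Real.log x ^ A := by
    rw [le_div_iff₀ l0]
    calc _ = √x * (2 * Real.log x ^ (A + 1)) := by ring
      _ ≤ √x * √x := by gcongr
      _ = x := Real.mul_self_sqrt x0.le
  have e2 : Q * (2 * Real.log x) ≤ x / Real.log x ^ A := by
    rw [le_div_iff₀ l0]
    calc _ ≤ Real.log x ^ A * (2 * Real.log x) * Real.log x ^ A := by gcongr
      _ = 2 * Real.log x ^ (2 * A + 1) := by ring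
      _ ≤ x := h6
  have e3 : 0 ≤ x / Real.log x ^ A := by positivity
  simp only [mul_div_assoc] at h1 h2 ⊢
  split_ifs with hχ
  · subst hχ
    have k1 := sw_prime (f := fun _ => 1) (fun _ => norm_one.le) h3
    have k2 : ‖∑ p ∈ PI 0 x, ((1 : DirichletCharacter ℂ Q) p - 1) * (Real.log p : ℂ)‖ ≤
        Q * (2 * Real.log x) := by
      refine (norm_sum_le_of_le _ (n := fun p => if p ∈ Icc 1 Q then 2 * Real.log x else 0)
        fun p hp => ?_).trans ?_
      · obtain ⟨a, -, b⟩ := (mem_PI le_rfl).1 hp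
        split_ifs with hp'
        · rw [norm_mul, Complex.norm_of_nonneg (Real.log_natCast_nonneg p)]
          refine mul_le_mul ((norm_sub_le _ _).trans ?_) (Real.log_le_log
            (Nat.cast_pos.2 a.pos) b) (Real.log_natCast_nonneg p) zero_le_two
          rw [norm_one]
          linarith [DirichletCharacter.norm_le_one (1 : DirichletCharacter ℂ Q) p]
        · rw [MulChar.one_apply ((ZMod.isUnit_prime_iff_not_dvd a).2 fun k =>
            hp' (mem_Icc.2 ⟨a.pos, Nat.le_of_dvd (NeZero.pos Q) k⟩))]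
          simp
      · rw [sum_ite_mem, sum_const, nsmul_eq_mul]
        gcongr
        simpa using card_le_card (inter_subset_right (s₁ := PI 0 x) (s₂ := Icc 1 Q))
    have k3 : ‖((⌊x⌋₊ : ℂ) - x)‖ ≤ Q * (2 * Real.log x) := by
      rw [← Complex.ofReal_natCast, ← Complex.ofReal_sub, Complex.norm_real, Real.norm_eq_abs]
      have : (1 : ℝ) ≤ Q := Nat.one_le_cast.2 (NeZero.pos Q)
      nlinarith [Nat.abs_floor_sub_le x0.le]
    have k4 := norm_add_le_of_le (norm_add_le_of_le (norm_add_le_of_le k2 k1) h2) k3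
    simp only [sub_mul, one_mul, sum_sub_distrib, sum_const, Nat.card_Icc, Nat.add_sub_cancel,
      nsmul_eq_mul, mul_one, sub_add_sub_cancel] at k4
    nlinarith
  · have k := norm_add_le_of_le (sw_prime (f := fun n => χ n) (fun n => χ.norm_le_one _) h3)
      (h1 Q χ hQ hχ)
    rw [sub_add_cancel] at k
    rw [sub_zero]
    nlinarith

theorem sw_absorb {F : ℝ} {C x x₀ w w₀ : ℝ} (hC : 0 < C) (hx : 0 ≤ x) (hw : 0 < w)
    (h0 : 0 ≤ w₀) (h1 : x₀ ≤ x → F ≤ C * x / w) (h2 : x ≤ x₀ → w ≤ w₀) (h3 : F ≤ 3 * x) :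
    F ≤ (C + 3 * w₀) * x / w := by
  rcases le_total x₀ x with h | h
  · exact (h1 h).trans (by gcongr; linarith)
  · rw [le_div_iff₀ hw]
    nlinarith [mul_le_mul h3 (h2 h) hw.le (by linarith), mul_nonneg hC.le hx]

theorem siegel_walfisz (A : ℕ) : ∃ C : ℝ, 0 < C ∧ ∀ (x : ℝ) (Q : ℕ) (a : ℤ), 2 ≤ x → 1 ≤ Q →
    (Q : ℝ) ≤ Real.log x ^ A → IsCoprime a (Q : ℤ) →
    |∑ p ∈ (PI 0 x).filter (fun p : ℕ => (Q : ℤ) ∣ p - a), Real.log p - x / Q.totient| ≤
      C * x / Real.log x ^ A := by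
  obtain ⟨C, hC, H⟩ := sw_all A
  obtain ⟨x₀, H⟩ := eventually_atTop.1 H
  refine ⟨C + 3 * |Real.log x₀| ^ A, by positivity, fun x Q a hx hQ hQ' ha => ?_⟩
  have l0 : 0 < Real.log x := Real.log_pos (by linarith)
  have f0 : (1 : ℝ) ≤ Q.totient := Nat.one_le_cast.2 (Nat.totient_pos.2 hQ)
  refine sw_absorb (x₀ := x₀) hC (by linarith) (by positivity) (by positivity) (fun h => ?_)
    (fun h => pow_le_pow_left₀ l0.le ((Real.log_le_log (by linarith) h).trans (le_abs_self _)) _) ?_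
  · have : NeZero Q := ⟨by omega⟩
    have hu : IsUnit (a : ZMod Q) := (ZMod.coe_int_isUnit_iff_isCoprime a Q).2 ha.symm
    have hu' : IsUnit (a : ZMod Q)⁻¹ := isUnit_of_dvd_one ⟨a, (ZMod.inv_mul_of_unit _ hu).symm⟩
    have k1 := norm_sum_le_of_le (univ : Finset (DirichletCharacter ℂ Q)) fun χ _ =>
      (norm_mul (χ (a : ZMod Q)⁻¹) _).trans_le ((mul_le_of_le_one_left (norm_nonneg _)
        (χ.norm_le_one _)).trans (H x h Q χ hQ'))
    rw [sum_const, card_univ, ← Nat.card_eq_fintype_card,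
      DirichletCharacter.card_eq_totient_of_hasEnoughRootsOfUnity, nsmul_eq_mul] at k1
    simp only [mul_sub, sum_sub_distrib, mul_sum, ← mul_assoc, mul_ite, mul_zero, sum_ite_eq',
      mem_univ, if_true, MulChar.one_apply hu', one_mul] at k1
    rw [sum_comm] at k1
    simp only [← sum_mul, DirichletCharacter.sum_char_inv_mul_char_eq ℂ hu] at k1
    refine le_of_mul_le_mul_left (le_of_eq_of_le ?_ k1) (by linarith)
    refine (congrArg (· * _) (Nat.abs_cast _).symm).trans ?_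
    rw [← abs_mul, ← Real.norm_eq_abs, ← Complex.norm_real, mul_sub, mul_div_cancel₀ _ (by linarith), sum_filter, mul_sum]
    push_cast
    congr 2
    refine sum_congr rfl fun p _ => ?_
    simp only [← (ZMod.intCast_eq_intCast_iff_dvd_sub a p Q), Int.cast_natCast]
    split_ifs <;> simp
  · have k1 : ∑ p ∈ (PI 0 x).filter (fun p : ℕ => (Q : ℤ) ∣ p - a), Real.log p ≤
        Chebyshev.theta x := by
      rw [PI, Nat.floor_zero]
      exact sum_le_sum_of_subset_of_nonneg (filter_subset _ _)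
        fun p _ _ => Real.log_natCast_nonneg p
    have k2 := Chebyshev.theta_le_log4_mul_x (show 0 ≤ x by linarith)
    have k3 := Real.log_le_sub_one_of_pos (show (0 : ℝ) < 4 by norm_num)
    have k4 := div_le_self (show 0 ≤ x by linarith) f0
    have k5 : 0 ≤ x / Q.totient := by positivity
    have k6 := sum_nonneg (s := (PI 0 x).filter fun p : ℕ => (Q : ℤ) ∣ p - a)
      fun p _ => Real.log_natCast_nonneg p
    exact abs_le.2 ⟨by linarith, by nlinarith⟩

theorem liouville_sum : ∃ C : ℝ, 0 < C ∧ ∀ t : ℝ, 1 ≤ t →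
    |∑ n ∈ Icc 1 ⌊t⌋₊, (ArithmeticFunction.liouville n : ℝ)| ≤ C * t / (1 + Real.log t) ^ 4 := by
  obtain ⟨C, hC, H⟩ := sw_lam
  obtain ⟨x₀, H⟩ := eventually_atTop.1 (H.and (Real.tendsto_log_atTop.eventually_ge_atTop 1))
  refine ⟨16 * C + 3 * (1 + |Real.log x₀|) ^ 4, by positivity, fun t ht => ?_⟩
  have l0 := Real.log_nonneg ht
  have e : |∑ n ∈ Icc 1 ⌊t⌋₊, (liouville n : ℝ)| = ‖∑ n ∈ Icc 1 ⌊t⌋₊, (liouville n : ℂ)‖ := by
    rw [← Real.norm_eq_abs, ← Complex.norm_real]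
    simp
  rw [e]
  refine sw_absorb (x₀ := x₀) (by positivity) (by linarith) (by positivity) (by positivity)
    (fun h => (H t h).1.trans ?_) (fun h => pow_le_pow_left₀ (by linarith) (by
      linarith [Real.log_le_log (by linarith) h, le_abs_self (Real.log x₀)]) _) ?_
  · have := (H t h).2
    calc _ = 16 * C * t / (2 * Real.log t) ^ 4 := by field_simp; norm_num
      _ ≤ _ := by gcongr; linarith
  · refine (norm_sum_le_of_le _ fun n _ => sw_norm_lam n).trans ?_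
    simp
    linarith [Nat.floor_le (show 0 ≤ t by linarith)]

end Vale.Agent.P013
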