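import Vale.Agent.P013.Super2
import Vale.Agent.P013.SW

/-! Evaluation of the Rosser main term by the model weights `1 + λ(n)`, `n ≤ D`.

Proof plan. `l = log D`. Apply `sieve_tree 3 1 D z.primesBelow` to `A = Icc 1 ⌊D⌋₊`,
`a n = 1 + λ n ≥ 0`, `bad p n = p ∣ n`. Let `S⁺` be the left side.
* For admissible `s`, `d = pr s ≤ D` (`ok_pr_le`), the sum over multiples of `d` is
  `⌊D/d⌋ + λ(d) ∑_{m ≤ D/d} λ m = D/d + O(1 + (D/d)/(1 + log (D/d))^4)` (`liouville_sum`,
  `liouville_apply_mul`). By `okS_card_le`, `okS_err_le` the first sum is `D Lam + O(D/l^2)`.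
* Leaves have even size, so sign `+` and `λ(d) = 1`. The leaf term is non negative, vanishes if
  `d > D`, and is at most `4`: `n = d m`, `m ≤ D/d ≤ p^2` (`leaf_iff`), all prime factors of `m`
  are `≥ p = lo s`; `m = 1` and `m = p^2` contribute `2`, primes contribute `0`. `leaf_count`.
* Upper bound: if `D < z^3`, a number `n ≤ D` without prime factor `< z` is `1`, a prime (weight
  `0`) or `p₁ p₂` with `z ≤ p₁ ≤ √D`, `p₂ ≤ D/p₁`; so
  `S⁺ ≤ 2 + 2 ∑_{z ≤ p₁ ≤ √D} π(D/p₁) ≤ 2 + C (D/l) (max 0 (log (D/z^2)) + 1)/l`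
  (`card_PI_le`, `mertens0` on `PI (z/2) √D`, `log z ≥ l/3`).
* Lower bound: `S⁺ ≥ 2 #{p₁ p₂ : z ≤ p₁ ≤ √D/2, D/(2p₁) < p₂ ≤ D/p₁}` (then `p₂ > p₁`, so the
  products are distinct), `half_primes`, and
  `∑_{z < p₁ ≤ √D/2} 1/p₁ ≥ log (b/a) - C/a ≥ (b-a)/b - C/a`, `a = log z`, `b = l/2 - log 2`. -/

open Finset ArithmeticFunction

namespace Vale.Agent.P013

/-- The model count. -/
noncomputable def modelS (D : ℝ) (z : ℕ) : ℝ :=
  ∑ n ∈ Icc 1 ⌊D⌋₊ with ∀ p ∈ z.primesBelow, ¬ p ∣ n, (1 + liouville n : ℝ)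

theorem model_abs (n : ℕ) : |(liouville n : ℝ)| ≤ 1 := by
  rcases eq_or_ne n 0 with rfl | h
  · simp
  · simp [liouville_apply h]

theorem model_nonneg (n : ℕ) : 0 ≤ (1 + liouville n : ℝ) := by
  linarith [neg_le_of_abs_le (model_abs n)]

theorem model_prime {p : ℕ} (h : p.Prime) : liouville p = -1 := by
  simp [liouville_apply h.ne_zero, cardFactors_apply_prime h]

theorem model_pr {s : Finset ℕ} (h : ∀ p ∈ s, p.Prime) : liouville (pr s) = (-1) ^ s.card := by
  induction s using Finset.induction_on with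
  | empty => simp [liouville_apply_one]
  | insert a s ha ih =>
    rw [pr_insert ha, liouville_apply_mul, model_prime (h a (mem_insert_self _ _)),
      ih fun p hp => h p (mem_insert_of_mem hp), card_insert_of_notMem ha, pow_succ']

theorem model_sum_le {A T : Finset ℕ} (h : ∀ n ∈ A, n ∈ T ∨ liouville n = -1) :
    ∑ n ∈ A, (1 + liouville n : ℝ) ≤ 2 * T.card := by
  refine (sum_le_sum (g := fun n => if n ∈ T then (2 : ℝ) else 0) fun n hn => ?_).trans ?_
  · split_ifs with a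
    · linarith [le_of_abs_le (model_abs n)]
    · simp [(h n hn).resolve_left a]
  · rw [sum_ite_mem, sum_const, nsmul_eq_mul, mul_comm]
    gcongr
    exact inter_subset_right

theorem model_mult (D : ℝ) {d : ℕ} (hd : 0 < d) (f : ℕ → ℝ) :
    ∑ n ∈ Icc 1 ⌊D⌋₊ with d ∣ n, f n = ∑ m ∈ Icc 1 ⌊D / d⌋₊, f (d * m) := by
  rw [Nat.floor_div_natCast]
  refine (sum_nbij' (d * ·) (· / d) (fun m hm => ?_) (fun n hn => ?_)
    (fun m _ => Nat.mul_div_cancel_left m hd) (fun n hn => Nat.mul_div_cancel' (mem_filter.1 hn).2)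
    fun _ _ => rfl).symm
  · simp only [mem_filter, mem_Icc, Nat.le_div_iff_mul_le hd] at hm ⊢
    exact ⟨⟨Nat.mul_pos hd hm.1, (mul_comm _ _).trans_le hm.2⟩, dvd_mul_right _ _⟩
  · simp only [mem_filter, mem_Icc] at hn ⊢
    exact ⟨Nat.div_pos (Nat.le_of_dvd hn.1.1 hn.2) hd, Nat.div_le_div_right hn.1.2⟩

theorem model_dvd {s : Finset ℕ} (h : ∀ p ∈ s, p.Prime) {n : ℕ} : (∀ p ∈ s, p ∣ n) ↔ pr s ∣ n := by
  simp only [← Int.natCast_dvd_natCast, pr_dvd_iff h]

theorem model_main : ∃ K D₀ : ℝ, 0 < K ∧ ∀ (D : ℝ) (z : ℕ), D₀ ≤ D →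
    Real.log z ≤ 0.51 * Real.log D → D * Lam D z ≤ modelS D z + K * D / Real.log D ^ 2 ∧
      modelS D z ≤ D * Lam D z +
        K * D * (1 + max 0 (Real.log ((z : ℝ) ^ 2 / D))) / Real.log D ^ 2 := by
  obtain ⟨C, hC, H⟩ := liouville_sum
  obtain ⟨K₁, D₁, k1, H1⟩ := okS_card_le
  obtain ⟨K₂, D₂, k2, H2⟩ := okS_err_le
  obtain ⟨K₃, D₃, k3, H3⟩ := leaf_count
  refine ⟨K₁ + C * K₂ + 4 * K₃, max (max D₁ D₂) (max D₃ 1), by positivity, fun D z hD hz => ?_⟩
  simp only [max_le_iff] at hD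
  have D0 : 0 < D := by linarith [hD.2.2]
  have key : modelS D z = ∑ s ∈ okS 3 1 D z.primesBelow, (-1 : ℝ) ^ s.card *
      ∑ x ∈ Icc 1 ⌊D⌋₊ with ∀ p ∈ s, p ∣ x, (1 + liouville x : ℝ) +
      ∑ s ∈ leafS 3 1 D z.primesBelow, (-1 : ℝ) ^ s.card * ∑ x ∈ Icc 1 ⌊D⌋₊ with
        (∀ p ∈ s, p ∣ x) ∧ ∀ p ∈ below z.primesBelow (lo s), ¬ p ∣ x, (1 + liouville x : ℝ) := by
    unfold modelS
    convert sieve_tree 3 1 D z.primesBelow (Icc 1 ⌊D⌋₊) (fun n => (1 + liouville n : ℝ))
      fun p n => p ∣ n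
  have hp : ∀ {s : Finset ℕ}, s ⊆ z.primesBelow → ∀ p ∈ s, p.Prime := fun h p a =>
    Nat.prime_of_mem_primesBelow (h a)
  have a1 : |∑ s ∈ okS 3 1 D z.primesBelow, (-1 : ℝ) ^ s.card *
      ∑ x ∈ Icc 1 ⌊D⌋₊ with ∀ p ∈ s, p ∣ x, (1 + liouville x : ℝ) - D * Lam D z| ≤
      (K₁ + C * K₂) * D / Real.log D ^ 2 := by
    rw [Lam, mul_sum, ← sum_sub_distrib]
    refine (abs_sum_le_sum_abs _ _).trans ((sum_le_sum (g := fun s => 1 + C * D *
      (1 / (pr s * (1 + Real.log (D / pr s)) ^ 4))) fun s hs => ?_).trans ?_)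
    · obtain ⟨b1, b2⟩ := okS_pr hD.2.2 hz s hs
      have b3 : (0 : ℝ) < pr s := by exact_mod_cast b1
      rw [filter_congr fun n _ => model_dvd (n := n) (hp (mem_okS.1 hs).1), model_mult D b1,
        mul_div_left_comm, ← mul_sub, abs_mul, abs_pow, abs_neg, abs_one, one_pow, one_mul]
      simp only [liouville_apply_mul, Int.cast_mul, sum_add_distrib, ← mul_sum, sum_const,
        Nat.card_Icc, add_tsub_cancel_right, nsmul_one, add_sub_right_comm]
      refine (abs_add_le _ _).trans (add_le_add (Nat.abs_floor_sub_le (by positivity)) ?_)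
      rw [abs_mul]
      refine (mul_le_mul (model_abs _) (H _ ((one_le_div b3).2 b2)) (abs_nonneg _)
        zero_le_one).trans_eq ?_
      field_simp
    · rw [sum_add_distrib, ← mul_sum, sum_const, nsmul_one]
      refine (add_le_add (H1 D z hD.1.1 hz) (mul_le_mul_of_nonneg_left (H2 D z hD.1.2 hz)
        (by positivity))).trans_eq (by ring)
  have a2 : ∀ s ∈ leafS 3 1 D z.primesBelow, (-1 : ℝ) ^ s.card * ∑ x ∈ Icc 1 ⌊D⌋₊ with
      (∀ p ∈ s, p ∣ x) ∧ ∀ p ∈ below z.primesBelow (lo s), ¬ p ∣ x, (1 + liouville x : ℝ) ∈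
      Set.Icc 0 (if (pr s : ℝ) ≤ D then 4 else 0) := fun s hs => by
    obtain ⟨b1, b2⟩ := mem_leafS.1 hs
    obtain ⟨b3, -, -, b4⟩ := leaf_iff.1 b2
    have b5 := lo_mem b3
    rw [(leaf_even b2).neg_one_pow, one_mul]
    refine ⟨sum_nonneg fun _ _ => model_nonneg _, ?_⟩
    split_ifs with h
    · refine (model_sum_le (T := {pr s, pr s * lo s ^ 2}) fun n hn => ?_).trans
        ((mul_le_mul_of_nonneg_left (Nat.cast_le.2 card_le_two) two_pos.le).trans_eq (by norm_num))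
      simp only [mem_filter, mem_Icc, model_dvd (hp b1), mem_below, Nat.mem_primesBelow] at hn
      obtain ⟨⟨c1, c2⟩, ⟨m, rfl⟩, c3⟩ := hn
      have c4 : m ≤ lo s ^ 2 := by
        refine Nat.le_of_mul_le_mul_left ?_ (pr_pos (hp b1))
        have := ((Nat.le_floor_iff D0.le).1 c2).trans b4
        rw [pow_succ', ← mul_assoc, mul_comm _ (lo s : ℝ), ← Nat.cast_mul (lo s),
          ← pr_erase b5] at this
        exact_mod_cast this
      by_cases m1 : m = 1
      · simp [m1]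
      by_cases m2 : m.Prime
      · rw [liouville_apply_mul, model_pr (hp b1), (leaf_even b2).neg_one_pow, model_prime m2]
        simp
      have c5 : lo s ≤ m.minFac := not_lt.1 fun e => c3 _ ⟨⟨e.trans (Nat.lt_of_mem_primesBelow
        (b1 b5)), Nat.minFac_prime m1⟩, e⟩ (m.minFac_dvd.mul_left _)
      rw [le_antisymm c4 ((Nat.pow_le_pow_left c5 2).trans
        (Nat.minFac_sq_le_self (Nat.pos_of_mul_pos_left c1) m2))]
      simp
    · refine (sum_eq_zero fun n hn => (h ?_).elim).le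
      simp only [mem_filter, mem_Icc, model_dvd (hp b1)] at hn
      exact le_trans (by exact_mod_cast Nat.le_of_dvd hn.1.1 hn.2.1)
        ((Nat.le_floor_iff D0.le).1 hn.1.2)
  have a3 := sum_nonneg fun s hs => (a2 s hs).1
  have a4 := sum_le_sum fun s hs => (a2 s hs).2
  rw [← sum_filter, sum_const, nsmul_eq_mul] at a4
  have a5 := H3 D z hD.2.1 hz
  have a6 : 0 ≤ 4 * K₃ * D / Real.log D ^ 2 := by positivity
  have a7 : 0 ≤ (K₁ + C * K₂) * D * max 0 (Real.log ((z : ℝ) ^ 2 / D)) / Real.log D ^ 2 := by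
    positivity
  rw [abs_le] at a1
  rw [show (K₁ + C * K₂ + 4 * K₃) * D / Real.log D ^ 2 = (K₁ + C * K₂) * D / Real.log D ^ 2 +
    4 * K₃ * D / Real.log D ^ 2 by ring, show (K₁ + C * K₂ + 4 * K₃) * D *
      (1 + max 0 (Real.log ((z : ℝ) ^ 2 / D))) / Real.log D ^ 2 = (K₁ + C * K₂) * D /
        Real.log D ^ 2 + (K₁ + C * K₂) * D * max 0 (Real.log ((z : ℝ) ^ 2 / D)) / Real.log D ^ 2 +
          4 * (K₃ * D * (1 + max 0 (Real.log ((z : ℝ) ^ 2 / D))) / Real.log D ^ 2) by ring]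
  constructor <;> linarith

theorem Lam_upper : ∃ C D₀ : ℝ, 0 < C ∧ ∀ (D : ℝ) (z : ℕ), D₀ ≤ D →
    Real.log z ≤ 0.51 * Real.log D → Real.log D < 3 * Real.log z →
      Lam D z ≤ C * (max 0 (Real.log (D / (z : ℝ) ^ 2)) + 1) / Real.log D ^ 2 := by
  obtain ⟨K, D₀, hK, H⟩ := model_main
  obtain ⟨C₁, c1, H1⟩ := card_PI_le
  obtain ⟨C₂, c2, H2⟩ := sum_inv_short
  refine ⟨K + 8 + 16 * C₁ * (1 + C₂), max D₀ (Real.exp 12), by positivity, fun D z hD h1 h2 => ?_⟩
  obtain ⟨l, hl⟩ : ∃ l, l = Real.log D := ⟨_, rfl⟩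
  obtain ⟨M, hM⟩ : ∃ M, M = max 0 (Real.log (D / (z : ℝ) ^ 2)) := ⟨_, rfl⟩
  have D0 := (Real.exp_pos _).trans_le (le_of_max_le_right hD)
  have l0 : 12 ≤ l := hl ▸ (Real.le_log_iff_exp_le D0).2 (le_of_max_le_right hD)
  have M0 : 0 ≤ M := hM ▸ le_max_left _ _
  have z0 : (0 : ℝ) < z := Nat.cast_pos.2 (Nat.pos_of_ne_zero fun e => by
    simp [e] at h2; linarith)
  have s0 := Real.sqrt_pos.2 D0
  have ls : Real.log √D = l / 2 := by rw [Real.log_sqrt D0.le, hl]
  have l2 := Real.log_two_lt_d9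
  have lz : l / 4 ≤ Real.log (z / 2) := by rw [Real.log_div z0.ne' two_ne_zero]; linarith
  have hz : D < z ^ 3 := by
    rwa [← Real.log_lt_log_iff D0 (by positivity), Real.log_pow, Nat.cast_ofNat]
  have a1 : modelS D z ≤ 2 * (1 + ∑ p ∈ PI (z / 2) √D, ((PI 0 (D / p)).card : ℝ)) := by
    refine (model_sum_le (T := insert 1 (((PI (z / 2) √D).sigma fun p => PI 0 (D / p)).image
      fun x => x.1 * x.2)) fun n hn => ?_).trans (mul_le_mul_of_nonneg_left ?_ two_pos.le)
    · simp only [mem_filter, mem_Icc, Nat.mem_primesBelow, and_imp] at hn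
      have b1 : ∀ q, q.Prime → q ∣ n → z ≤ q := fun q a b => not_lt.1 fun c => hn.2 q c a b
      have b2 : (n : ℝ) ≤ D := (Nat.le_floor_iff D0.le).1 hn.1.2
      by_cases n1 : n = 1
      · exact Or.inl (mem_insert.2 (Or.inl n1))
      by_cases n2 : n.Prime
      · exact Or.inr (model_prime n2)
      obtain ⟨m, hm⟩ := n.minFac_dvd
      have q1 := Nat.minFac_prime n1
      have q2 := b1 _ q1 n.minFac_dvd
      have q3 : (0 : ℝ) < n.minFac := by exact_mod_cast q1.pos
      have m1 : m.Prime := by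
        by_contra h
        have c1 : m ≠ 1 := fun e => n2 (by rw [hm, e, mul_one]; exact q1)
        have c2 := b1 _ (Nat.minFac_prime c1) (m.minFac_dvd.trans (Dvd.intro_left _ hm.symm))
        have c3 := Nat.minFac_sq_le_self (n := m)
          (Nat.pos_of_ne_zero fun e => by simp [e] at hm; omega) h
        have c4 : z ^ 3 ≤ n := by
          rw [hm, pow_succ']
          exact Nat.mul_le_mul q2 ((Nat.pow_le_pow_left c2 2).trans c3)
        exact (hz.trans_le (by exact_mod_cast c4)).not_ge b2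
      refine Or.inl (mem_insert_of_mem (mem_image.2 ⟨⟨n.minFac, m⟩, mem_sigma.2
        ⟨(mem_PI (by positivity)).2 ⟨q1, (half_lt_self z0).trans_le (by exact_mod_cast q2),
          Real.le_sqrt_of_sq_le (le_trans (by
            exact_mod_cast Nat.minFac_sq_le_self hn.1.1 n2) b2)⟩,
          (mem_PI le_rfl).2 ⟨m1, by exact_mod_cast m1.pos, (le_div_iff₀' q3).2
            (le_trans (by exact_mod_cast hm.ge) b2)⟩⟩, hm.symm⟩))
    · rw [add_comm]
      exact_mod_cast (card_insert_le _ _).trans (Nat.succ_le_succ (card_image_le.trans_eq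
        (card_sigma _ _)))
  have a2 : ∑ p ∈ PI (z / 2) √D, 1 / (p : ℝ) ≤ 4 * ((1 + C₂) * (M + 1)) / l := by
    rcases le_total (z / 2 : ℝ) √D with h | h
    · refine (H2 _ _ ((Real.log_le_log_iff two_pos (half_pos z0)).1 (by linarith)) h).trans ?_
      have : l - 2 * Real.log z ≤ M := by
        rw [hM, hl, Real.log_div D0.ne' (by positivity), Real.log_pow, Nat.cast_ofNat]
        exact le_max_right _ _
      rw [div_le_div_iff₀ (by linarith) (by linarith)]
      refine (mul_le_mul_of_nonneg_right (c := (1 + C₂) * (M + 1)) ?_ (by linarith)).trans ?_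
      · rw [ls, Real.log_div z0.ne' two_ne_zero]
        nlinarith
      · nlinarith [mul_le_mul_of_nonneg_left lz (show 0 ≤ (1 + C₂) * (M + 1) by positivity)]
    · rw [sum_eq_zero fun p hp => absurd (((mem_PI (by positivity)).1 hp).2.2.trans h)
        ((mem_PI (by positivity)).1 hp).2.1.not_ge]
      positivity
  have a3 : ∑ p ∈ PI (z / 2) √D, ((PI 0 (D / p)).card : ℝ) ≤
      2 * C₁ * D / l * ∑ p ∈ PI (z / 2) √D, 1 / (p : ℝ) := by
    rw [mul_sum]
    refine sum_le_sum fun p hp => ?_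
    obtain ⟨b1, -, b2⟩ := (mem_PI (by positivity)).1 hp
    have b3 : (0 : ℝ) < p := by exact_mod_cast b1.pos
    have b4 : √D ≤ D / p := by
      rw [le_div_iff₀ b3]
      exact (mul_le_mul_of_nonneg_left b2 s0.le).trans_eq (Real.mul_self_sqrt D0.le)
    refine (H1 _ (le_trans ((Real.log_le_log_iff two_pos s0).1 (by linarith)) b4)).trans
      ((div_le_div_of_nonneg_left (by positivity) (by linarith)
        (ls.ge.trans (Real.log_le_log s0 b4))).trans_eq ?_)
    field_simp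
  have a4 : 1 ≤ 4 * D / l ^ 2 := by
    rw [le_div_iff₀ (by positivity)]
    nlinarith [Real.log_le_self s0.le, Real.mul_self_sqrt D0.le]
  have a5 := (H D z (le_of_max_le_left hD) h1).1
  have a6 := a3.trans (mul_le_mul_of_nonneg_left a2 (by positivity))
  rw [← hl] at a5
  rw [← hl, ← hM]
  refine le_of_mul_le_mul_left ((a5.trans (add_le_add (a1.trans (mul_le_mul_of_nonneg_left
    (add_le_add a4 a6) two_pos.le)) le_rfl)).trans ?_) D0
  rw [← sub_nonneg]
  refine le_of_le_of_eq (show 0 ≤ D * (K + 8) * M / l ^ 2 by positivity) ?_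
  field_simp
  ring

theorem Lam_lower : ∃ c C D₀ : ℝ, 0 < c ∧ 0 < C ∧ ∀ (D : ℝ) (z : ℕ), D₀ ≤ D →
    Real.log z ≤ 0.51 * Real.log D → Real.log D < 3 * Real.log z →
      (c * max 0 (Real.log (D / (z : ℝ) ^ 2)) - C * max 0 (Real.log ((z : ℝ) ^ 2 / D)) - C) /
        Real.log D ^ 2 ≤ Lam D z := by
  obtain ⟨K, D₀, hK, H⟩ := model_main
  obtain ⟨x₀, H1⟩ := half_primes
  obtain ⟨C, c0, H2⟩ := mertens0
  refine ⟨1 / 2, K + 1 + 2 * C, max (max D₀ (x₀ ^ 2)) (Real.exp 12), by positivity, by positivity,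
    fun D z hD h1 h2 => ?_⟩
  simp only [max_le_iff] at hD
  obtain ⟨l, hl⟩ : ∃ l, l = Real.log D := ⟨_, rfl⟩
  have D0 := (Real.exp_pos _).trans_le hD.2
  have l0 : 12 ≤ l := hl ▸ (Real.le_log_iff_exp_le D0).2 hD.2
  have z0 : (0 : ℝ) < z := Nat.cast_pos.2 (Nat.pos_of_ne_zero fun e => by
    simp [e] at h2; linarith)
  have s0 := Real.sqrt_pos.2 D0
  have ls : Real.log √D = l / 2 := by rw [Real.log_sqrt D0.le, hl]
  have l2 := Real.log_two_lt_d9
  have l3 := Real.log_pos one_lt_two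
  have hp : ∀ p ∈ PI z (√D / 2), p.Prime ∧ z < p ∧ (p : ℝ) ≤ √D / 2 ∧ √D ≤ D / p / 2 :=
    fun p hp => by
    obtain ⟨b1, b2, b3⟩ := (mem_PI z0.le).1 hp
    refine ⟨b1, by exact_mod_cast b2, b3, ?_⟩
    rw [div_div, le_div_iff₀ (by linarith)]
    nlinarith [Real.mul_self_sqrt D0.le]
  have hq : ∀ p ∈ PI z (√D / 2), ∀ q ∈ PI (D / p / 2) (D / p), q.Prime ∧ √D < q ∧
      (q : ℝ) ≤ D / p := fun p a q b =>
    ((mem_PI (by positivity)).1 b).imp_right (And.imp_left (hp p a).2.2.2.trans_lt)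
  have a1 : ∑ p ∈ PI z (√D / 2), 2 * ((PI (D / p / 2) (D / p)).card : ℝ) ≤ modelS D z := by
    refine le_of_eq_of_le ?_ (sum_le_sum_of_subset_of_nonneg (s := ((PI z (√D / 2)).sigma
      fun p => PI (D / p / 2) (D / p)).image fun x => x.1 * x.2) (image_subset_iff.2 fun x hx => ?_)
        fun _ _ _ => model_nonneg _)
    · rw [sum_image, sum_sigma]
      · refine sum_congr rfl fun p a => ?_
        rw [mul_comm, ← nsmul_eq_mul, ← sum_const]
        refine sum_congr rfl fun q b => ?_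
        rw [liouville_apply_mul, model_prime (hp p a).1, model_prime (hq p a q b).1]
        norm_num
      · rintro ⟨p, q⟩ a ⟨p', q'⟩ b e
        simp only [coe_sigma, Set.mem_sigma_iff, mem_coe] at a b e
        obtain ⟨c1, c2, -⟩ := hq _ a.1 _ a.2
        obtain rfl : q = q' := by
          rcases c1.dvd_mul.1 (e ▸ Nat.dvd_mul_left q p) with h | h
          · obtain rfl := (Nat.prime_dvd_prime_iff_eq c1 (hp _ b.1).1).1 h
            linarith [(hp _ b.1).2.2.1]
          · exact (Nat.prime_dvd_prime_iff_eq c1 (hq _ b.1 _ b.2).1).1 h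
        rw [Nat.eq_of_mul_eq_mul_right c1.pos e]
    · obtain ⟨a, b⟩ := mem_sigma.1 hx
      obtain ⟨c1, c2, c3, -⟩ := hp _ a
      obtain ⟨d1, d2, d3⟩ := hq _ a _ b
      have c4 : (0 : ℝ) < x.1 := by exact_mod_cast c1.pos
      refine mem_filter.2 ⟨mem_Icc.2 ⟨Nat.mul_pos c1.pos d1.pos, Nat.le_floor (by
        exact_mod_cast (le_div_iff₀' c4).1 d3)⟩, fun r hr h => ?_⟩
      obtain ⟨r1, r2⟩ := Nat.mem_primesBelow.1 hr
      have : x.1 < x.2 := by exact_mod_cast (by linarith : (x.1 : ℝ) < x.2)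
      rcases r2.dvd_mul.1 h with h | h
      · have := (Nat.prime_dvd_prime_iff_eq r2 c1).1 h
        omega
      · have := (Nat.prime_dvd_prime_iff_eq r2 d1).1 h
        omega
  have a2 : D / (2 * l) * ∑ p ∈ PI z (√D / 2), 1 / (p : ℝ) ≤ modelS D z := by
    rw [mul_sum]
    refine (sum_le_sum fun p a => ?_).trans a1
    obtain ⟨c1, -, -, c2⟩ := hp p a
    have c3 : (1 : ℝ) ≤ p := by exact_mod_cast c1.pos
    have c4 : √D ≤ D / p := c2.trans (half_le_self (by positivity))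
    refine le_trans (le_of_eq_of_le ?_ (mul_le_mul_of_nonneg_left (div_le_div_of_nonneg_left
      (by positivity) (by linarith [Real.log_le_log s0 c4]) (show _ ≤ 4 * l by
        linarith [Real.log_le_log (s0.trans_le c4) (div_le_self D0.le c3)])) two_pos.le))
      (mul_le_mul_of_nonneg_left (H1 _ ((Real.le_sqrt_of_sq_le hD.1.2).trans c4)) two_pos.le)
    field_simp
    norm_num
  have e : Real.log (D / (z : ℝ) ^ 2) = l - 2 * Real.log z := by
    rw [hl, Real.log_div D0.ne' (by positivity), Real.log_pow, Nat.cast_ofNat]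
  have e2 : Real.log (√D / 2) = l / 2 - Real.log 2 := by rw [Real.log_div s0.ne' two_ne_zero, ls]
  have a3 : (max 0 (Real.log (D / (z : ℝ) ^ 2)) - 2 - 4 * C) / l ≤
      ∑ p ∈ PI z (√D / 2), 1 / (p : ℝ) := by
    rw [e]
    rcases le_total (z : ℝ) (√D / 2) with h | h
    · have b1 := Real.log_le_log z0 h
      have b2 := (abs_le.1 (H2 z _ ((by norm_num : (3 / 2 : ℝ) ≤ 2).trans
        ((Real.log_le_log_iff two_pos z0).1 (by linarith))) h)).1
      have b3 := Real.log_le_sub_one_of_pos (x := Real.log z / Real.log (√D / 2))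
        (div_pos (by linarith) (by linarith))
      rw [Real.log_div (by linarith) (by linarith), div_sub_one (by linarith)] at b3
      have b4 : C / Real.log z ≤ 4 * C / l := by
        rw [div_le_div_iff₀ (by linarith) (by linarith)]
        nlinarith
      have b5 : (l - 2 * Real.log z - 2) / l ≤
          -((Real.log z - Real.log (√D / 2)) / Real.log (√D / 2)) := by
        rw [← neg_div, div_le_div_iff₀ (by linarith) (by linarith)]
        nlinarith
      rw [max_eq_right (by linarith), sub_div]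
      linarith
    · have b1 := Real.log_le_log (by positivity) h
      refine le_trans (div_nonpos_of_nonpos_of_nonneg ?_ (by linarith))
        (sum_nonneg fun _ _ => by positivity)
      linarith [max_le (zero_le_two) (show l - 2 * Real.log z ≤ 2 by linarith)]
  have a4 := ((mul_le_mul_of_nonneg_left a3 (by positivity)).trans a2).trans (H D z hD.1.1 h1).2
  rw [← hl] at a4 ⊢
  refine le_of_mul_le_mul_left (le_trans ?_ (sub_le_iff_le_add.2 a4)) D0
  rw [← sub_nonneg]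
  refine le_of_le_of_eq (show 0 ≤ D * (1 + 2 * C) * max 0 (Real.log ((z : ℝ) ^ 2 / D)) / l ^ 2 by
    positivity) ?_
  field_simp
  ring

end Vale.Agent.P013
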