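import Vale.Agent.P013.PropGD

/-! The micro leaves of a family have many survivors on average. -/

open Finset

namespace Vale.Agent.P013

theorem propG_num (B C B' R j₀ p₀ : ℕ) (ω₁ : ℝ) : ∃ ω₀ : ℝ, ∀ (ω : ℝ) (y p j₁ j' js : ℕ)
    (j : Fin R → ℕ), ω₀ ≤ ω → ω ^ 20 = Real.log y → ω ^ 20 ≤ p → p ≤ ω ^ B → ω ^ 2 ≤ j' →
    j' ≤ ω ^ 4 → (∀ i, ω ^ 6 ≤ j i ∧ j i ≤ ω ^ 10) → ω ^ 12 ≤ js → js ≤ ω ^ 14 → ω ^ 18 ≤ j₁ →
    2 ^ j₁ ≤ y → (ω₁ ≤ ω ∧ 6144 ≤ ω ∧ j₀ ≤ j₁ ∧ p₀ ≤ p ∧ p ≤ j₁ ^ B ∧ p ^ C ≤ 2 ^ j') ∧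
      (14 * (js + 1) ≤ j₁ ∧ j₁ ≤ 2 * p ∧ j' < p ∧ ∑ i, (j i + 1) ≤ js + 1 ∧
      (∀ i, j' < j i ∧ j i < js) ∧ j' < js) ∧ ∀ i : ℕ, ω ^ 2 ≤ i → 2 ^ i ≤ i * (box i).card ∧
        ω * (ω ^ 20 * (ω ^ B') ^ 2) ≤ (box i).card := by
  obtain ⟨ω₂, hbig⟩ := big_pow (B * C + 2 * B' + 21)
  obtain ⟨jb, hjb1, hjb⟩ := box_card
  refine ⟨max (max (max ω₁ ω₂) 6144) ((j₀ + p₀ + jb + 2 * R : ℕ) : ℝ), ?_⟩
  intro ω y p j₁ j' js j hω hL hp hpB h1 h2 h3 h4 h5 h6 hy
  simp only [max_le_iff] at hω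
  obtain ⟨⟨⟨w1, w2⟩, w3⟩, w4⟩ := hω
  have hω1 : 1 ≤ ω := by linarith
  have hpow : ∀ {a b : ℕ}, a ≤ b → ω ^ a ≤ ω ^ b := fun h => pow_le_pow_right₀ hω1 h
  have hlt : ∀ {a b : ℕ}, a < b → ω ^ a < ω ^ b := fun h => pow_lt_pow_right₀ (by linarith) h
  have hself : ∀ {a : ℕ}, 1 ≤ a → ω ≤ ω ^ a := fun h => by simpa using hpow h
  have hnat : ∀ {a i : ℕ}, 1 ≤ a → ω ^ a ≤ i → j₀ + p₀ + jb + 2 * R ≤ i := fun h h' => by
    exact_mod_cast w4.trans ((hself h).trans h')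
  have hone : ∀ {a : ℕ}, 1 ≤ ω ^ a := one_le_pow₀ hω1
  refine ⟨⟨w1, w3, by have := hnat (by norm_num) h6; omega,
    by have := hnat (by norm_num) hp; omega, ?_, ?_⟩, ⟨?_, ?_, ?_, ?_, fun i => ⟨?_, ?_⟩, ?_⟩,
    fun i hi => ?_⟩
  · have : (p : ℝ) ≤ (j₁ : ℝ) ^ B :=
      hpB.trans (pow_le_pow_left₀ (by linarith) ((hself (by norm_num)).trans h6) B)
    exact_mod_cast this
  · have : (p : ℝ) ^ C ≤ 2 ^ j' := by
      calc (p : ℝ) ^ C ≤ (ω ^ B) ^ C := by gcongr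
        _ = ω ^ (B * C) * 1 := by rw [← pow_mul, mul_one]
        _ ≤ ω ^ (B * C + 2 * B' + 21) * j' := by
            gcongr
            · omega
            · exact hone.trans h1
        _ ≤ _ := hbig ω j' w2 h1
    exact_mod_cast this
  · have : 14 * ((js : ℝ) + 1) ≤ j₁ := by
      calc 14 * ((js : ℝ) + 1) ≤ 28 * ω ^ 14 := by linarith [hone (a := 14)]
        _ ≤ ω * ω ^ 14 := by gcongr; linarith
        _ = ω ^ 15 := by ring
        _ ≤ _ := (hpow (by norm_num)).trans h6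
    exact_mod_cast this
  · have e1 : Real.log (2 ^ j₁) ≤ Real.log y :=
      Real.log_le_log (by positivity) (by exact_mod_cast hy)
    rw [Real.log_pow, ← hL] at e1
    have e2 : (j₁ : ℝ) * (1 / 2) ≤ j₁ * Real.log 2 := by
      gcongr; linarith [Real.log_two_gt_d9]
    have : (j₁ : ℝ) ≤ 2 * p := by linarith
    exact_mod_cast this
  · exact_mod_cast h2.trans_lt ((hlt (by norm_num)).trans_le hp)
  · have e1 : ∑ i, ((j i : ℝ) + 1) ≤ (univ : Finset (Fin R)).card • (2 * ω ^ 10) :=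
      sum_le_card_nsmul _ _ _ fun i _ => by linarith [(h3 i).2, hone (a := 10)]
    rw [card_univ, Fintype.card_fin, nsmul_eq_mul] at e1
    have e2 : 2 * (R : ℝ) ≤ ω := le_trans (by exact_mod_cast (by omega)) w4
    have : ∑ i, ((j i : ℝ) + 1) ≤ js + 1 := by
      calc _ ≤ 2 * R * ω ^ 10 := by linarith
        _ ≤ ω * ω ^ 10 := by gcongr
        _ = ω ^ 11 := by ring
        _ ≤ js := (hpow (by norm_num)).trans h4
        _ ≤ _ := by linarith
    exact_mod_cast this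
  · exact_mod_cast h2.trans_lt ((hlt (by norm_num)).trans_le (h3 i).1)
  · exact_mod_cast (h3 i).2.trans_lt ((hlt (by norm_num)).trans_le h4)
  · exact_mod_cast h2.trans_lt ((hlt (by norm_num)).trans_le h4)
  · have e0 : (0 : ℝ) < i := lt_of_lt_of_le one_pos (hone.trans hi)
    have e1 := (hjb i (by have := hnat (by norm_num) hi; omega)).1
    rw [div_le_iff₀ e0, mul_comm] at e1
    refine ⟨by exact_mod_cast e1, le_of_mul_le_mul_right ?_ e0⟩
    calc ω * (ω ^ 20 * (ω ^ B') ^ 2) * i = ω ^ (2 * B' + 21) * i := by ring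
      _ ≤ ω ^ (B * C + 2 * B' + 21) * i := by gcongr; omega
      _ ≤ 2 ^ i := hbig ω i w2 hi
      _ ≤ _ := by rwa [mul_comm]

theorem sum4_comm {α β γ δ : Type} (A : Finset α) (B : Finset β) (U : Finset γ) (C : Finset δ)
    (f : α → β → γ → δ → ℝ) : ∑ u ∈ U, ∑ c ∈ C, ∑ a ∈ A, ∑ b ∈ B, f a b u c =
      ∑ a ∈ A, ∑ b ∈ B, ∑ u ∈ U, ∑ c ∈ C, f a b u c := by
  calc _ = ∑ u ∈ U, ∑ a ∈ A, ∑ c ∈ C, ∑ b ∈ B, f a b u c := sum_congr rfl fun _ _ => sum_comm
    _ = ∑ a ∈ A, ∑ u ∈ U, ∑ c ∈ C, ∑ b ∈ B, f a b u c := sum_comm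
    _ = ∑ a ∈ A, ∑ u ∈ U, ∑ b ∈ B, ∑ c ∈ C, f a b u c :=
      sum_congr rfl fun _ _ => sum_congr rfl fun _ _ => sum_comm
    _ = _ := sum_congr rfl fun _ _ => sum_comm

set_option maxHeartbeats 800000 in
open Classical in
theorem propG : ∃ ε : ℝ, 0 < ε ∧ ∀ B : ℕ, ∃ (R : ℕ) (ω₀ : ℝ), ∀ (y : ℕ) (ω : ℝ) (N : ℤ) (p : ℕ)
    (m : Finset ℕ) (j₁ j' js : ℕ) (j : Fin R → ℕ), ω₀ ≤ ω → ω ^ 20 = Real.log y →
    ω ^ 20 ≤ p → p ≤ ω ^ B → (∀ q ∈ m, q.Prime ∧ p ≤ q) → ω ^ 2 ≤ j' → j' ≤ ω ^ 4 →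
    (∀ i, ω ^ 6 ≤ j i ∧ j i ≤ ω ^ 10) → Function.Injective j → ω ^ 12 ≤ js → js ≤ ω ^ 14 →
    ω ^ 18 ≤ j₁ → (pr m * 2 ^ (j₁ + j' + ∑ i, j i + js + (R + 3))) ^ 2 * p ^ 3 ≤ y ^ 2 →
    y ≤ pr m * 2 ^ (j₁ + j' + ∑ i, j i + js) * p ^ 2 →
    ε * y / Real.log p * ∑ a ∈ box j₁ \ m, ∑ b ∈ box j' \ m,
        ∑ u ∈ Fintype.piFinset (fun i => box (j i) \ m), ∑ c ∈ box js \ m,
          1 / ((pr m * a * b * (∏ i, u i) * c : ℕ) : ℝ) ≤
      ∑ a ∈ box j₁ \ m, ∑ b ∈ box j' \ m,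
        ∑ u ∈ Fintype.piFinset (fun i => box (j i) \ m), ∑ c ∈ box js \ m,
          (sift N y (pr m * a * b * (∏ i, u i) * c) p : ℝ) := by
  obtain ⟨C, p₃, c₃, c₁, hc₃, hc₁, hc₁', hC, H3⟩ := step3
  obtain ⟨κ, p₁, cF, hcF, H1⟩ := step1
  have hε1 : 0 ≤ cF * c₁ / 48 := by positivity
  have hε2 : 0 ≤ 3 * c₃ / 32 := by positivity
  have hc₃' : 0 ≤ 3 / c₁ := by positivity
  refine ⟨min (cF * c₁ / 48) (3 * c₃ / 32), lt_min (by positivity) (by positivity), fun B => ?_⟩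
  obtain ⟨j₀, H3⟩ := H3 B
  obtain ⟨R, B', ω₁, H1⟩ := H1 B
  obtain ⟨ω₀, Hn⟩ := propG_num B (C + κ) B' R j₀ (p₃ + p₁ + 2) (max ω₁ (2304 / c₁))
  refine ⟨R, max ω₀ 1, ?_⟩
  intro y ω N p m j₁ j' js j hω hL hp hpB hm h1 h2 h3 hinj h4 h5 h6 hy1 hy2
  have hmp : ∀ q ∈ m, q.Prime := fun q hq => (hm q hq).1
  have hm1 : 1 ≤ pr m := pr_pos hmp
  have hW : ∏ i, 2 ^ (j i + 1) = 2 ^ (∑ i, j i + R) := by
    rw [prod_pow_eq_pow_sum, sum_add_distrib]; simp
  have hp0 : 1 ≤ p := by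
    exact_mod_cast (one_le_pow₀ (le_trans (le_max_right _ _) hω)).trans hp
  replace hω := le_trans (le_max_left _ _) hω
  have hy3 : pr m * 2 ^ (j₁ + j' + ∑ i, j i + js + (R + 3)) ≤ y :=
    (Nat.pow_le_pow_iff_left two_ne_zero).1
      ((Nat.le_mul_of_pos_right _ (Nat.one_le_pow _ _ hp0)).trans hy1)
  have hy4 : 2 ^ j₁ ≤ y := le_trans (by
    calc 2 ^ j₁ = 1 * 2 ^ j₁ := (one_mul _).symm
      _ ≤ _ := by gcongr <;> omega) hy3
  obtain ⟨⟨n1, n2, n3, n4, n5, n6⟩, ⟨n7, n8, n9, n10, n11, n12⟩, hbox⟩ :=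
    Hn ω y p j₁ j' js j hω hL hp hpB h1 h2 h3 h4 h5 h6 hy4
  clear Hn
  rw [max_le_iff, div_le_iff₀ hc₁] at n1
  have hω1 : 1 ≤ ω := by linarith
  have hpow : ∀ {a b : ℕ}, a ≤ b → ω ^ a ≤ ω ^ b := fun h => pow_le_pow_right₀ hω1 h
  have h2pow : ∀ {a b : ℕ}, a ≤ b → 2 ^ a ≤ 2 ^ b := fun h => Nat.pow_le_pow_right (by omega) h
  have hpC : p ^ C ≤ 2 ^ j' := (Nat.pow_le_pow_right hp0 (by omega)).trans n6
  have hpκ : p ^ κ ≤ 2 ^ j' := (Nat.pow_le_pow_right hp0 (by omega)).trans n6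
  have hpj : p ≤ 2 ^ j' := (Nat.le_self_pow (by omega) p).trans hpC
  have hE14 : (2 ^ (js + 1)) ^ 14 ≤ 2 ^ j₁ := by rw [← pow_mul]; exact h2pow (by omega)
  set W := ω ^ B' with hWdef
  have hW1 : 1 ≤ W := one_le_pow₀ hω1
  have hW0 : 0 < W := one_pos.trans_le hW1
  have h20 : 1 ≤ ω ^ 20 := one_le_pow₀ hω1
  set V := ω ^ 20 * W ^ 2 with hV
  have hV1 : ω ^ 20 ≤ V := le_mul_of_one_le_right (zero_le_one.trans h20) (one_le_pow₀ hW1)
  have hV0 : 0 < V := one_pos.trans_le (h20.trans hV1)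
  have hV6 : 6144 * V ≤ ω * V := mul_le_mul_of_nonneg_right n2 hV0.le
  have hmc : (m.card : ℝ) ≤ 3 * V := by
    have : pr m ≤ y ^ 2 := le_trans (le_trans (Nat.le_mul_of_pos_right _ (by positivity)) hy3)
      (Nat.le_self_pow two_ne_zero y)
    have := card_le_log hmp this
    linarith
  have hsd : ∀ i : ℕ, ((box i).card : ℝ) ≤ (box i \ m).card + 3 * V := fun i => by
    have : ((box i).card : ℝ) ≤ (box i \ m).card + m.card := by
      exact_mod_cast card_le_card_sdiff_add_card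
    linarith
  have hhalf : ∀ i : ℕ, ω ^ 2 ≤ i → ((box i).card : ℝ) ≤ 2 * (box i \ m).card := fun i hi => by
    have e1 := (hbox i hi).2
    have e2 := hsd i
    linarith only [e1, e2, hV6, hV0]
  have h15 : ∀ (i : ℕ) (Q : Finset ℕ), ω ^ 2 ≤ i → i ≤ ω ^ 14 →
      ((box i \ m).card : ℝ) ≤ 4 * Q.card → (2 : ℝ) ^ i ≤ ω ^ 15 * Q.card := fun i Q hi hi' hQ => by
    have e1 : (2 : ℝ) ^ i ≤ i * (box i).card := by exact_mod_cast (hbox i hi).1
    have e2 := hhalf i hi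
    calc (2 : ℝ) ^ i ≤ ω ^ 14 * (8 * Q.card) := e1.trans (by gcongr; linarith)
      _ ≤ ω ^ 14 * (ω * Q.card) := by gcongr; linarith
      _ = _ := by ring
  have hs4 : ∀ Q : Finset ℕ, (Q.card : ℝ) ≤ 4 * Q.card := fun Q => by
    have : (0 : ℝ) ≤ Q.card := by positivity
    linarith
  have hj1 : ω ^ 2 ≤ j₁ := (hpow (by norm_num)).trans h6
  have hQ'V : 3072 * V ≤ (box j' \ m).card := by
    have e1 := (hbox j' h1).2
    have e2 := hhalf j' h1
    linarith only [e1, e2, hV6]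
  have hn1V : 768 * V ≤ c₁ / 3 * (box j₁).card := by
    have e1 := (hbox j₁ hj1).2
    calc 768 * V = 2304 * V / 3 := by ring
      _ ≤ ω * c₁ * V / 3 := by gcongr; exact n1.2
      _ = c₁ / 3 * (ω * V) := by ring
      _ ≤ _ := by gcongr
  have hc2 : c₁ * ((box j₁).card : ℝ) ≤ 1 / 2 * (box j₁).card :=
    mul_le_mul_of_nonneg_right hc₁' (Nat.cast_nonneg _)
  have hlog : 0 < Real.log p := Real.log_pos (by exact_mod_cast (by omega : 1 < p))
  set Y := y / Real.log p with hY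
  have hY0 : 0 ≤ Y := div_nonneg (Nat.cast_nonneg _) hlog.le
  set T := ∑ u ∈ Fintype.piFinset (fun i => box (j i) \ m), ∑ c ∈ box js \ m,
    1 / ((pr m * (∏ i, u i) * c : ℕ) : ℝ) with hT
  have hT0 : 0 ≤ T := sum_nonneg fun _ _ => sum_nonneg fun _ _ =>
    one_div_nonneg.2 (Nat.cast_nonneg _)
  have hLHS : ∑ a ∈ box j₁ \ m, ∑ b ∈ box j' \ m,
      ∑ u ∈ Fintype.piFinset (fun i => box (j i) \ m), ∑ c ∈ box js \ m,
        1 / ((pr m * a * b * (∏ i, u i) * c : ℕ) : ℝ) =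
      sig (box j₁ \ m) * sig (box j' \ m) * T := by
    simp only [sum_recip]
    rw [← hT, ← sum_mul, ← sum_mul]; rfl
  rw [hLHS, mul_div_assoc, ← hY]
  have hE8 : 4 * (2 ^ (js + 1)) ^ 8 ≤ y := by
    refine le_trans ?_ hy4
    rw [← pow_mul, show 4 = 2 ^ 2 by norm_num, ← pow_add]
    exact h2pow (by omega)
  have hbp : ∀ i : ℕ, ∀ l ∈ box i \ m, l.Prime := fun i l hl => (mem_box.1 (mem_sdiff.1 hl).1).1
  have hθ : 4 * (3 * Real.log y) / (1 / (8 * W)) ^ 2 = 768 * V := by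
    rw [← hL, hV]; field_simp; ring
  have hs1 := sig_nonneg (box j₁ \ m)
  have hs' := sig_nonneg (box j' \ m)
  rcases points_lemma (pts N y (2 ^ (js + 1)) (1 / (8 * W)) m (box j' \ m)) (onP N)
    (box j' \ m) (box j₁ \ m) (θ := 1 / (8 * W)) (K := 3 * Real.log y)
    (δ := c₁ / 3 * (box j₁).card)
    (card_pos.1 (by
      have : (0 : ℝ) < (box j' \ m).card := by linarith only [hQ'V, hV0]
      exact_mod_cast this)) (one_div_pos.2 (by linarith only [hW0]))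
    (by linarith only [hL, h20]) (fun τ hτ => hτ.2.2.2.2.2)
    (fun τ hτ τ' hτ' hne => ⟨pts_common hτ hτ' hne hE8 (hbp _), pts_common hτ hτ' hne hE8 (hbp _)⟩)
    (by
      rw [← hL]
      calc 16 * (3 * ω ^ 20) = (1 / (8 * W)) ^ 2 * (3072 * V) := by rw [hV]; field_simp; ring
        _ ≤ _ := mul_le_mul_of_nonneg_left hQ'V (sq_nonneg _))
    (by
      rw [hθ]
      have e1 := hhalf j₁ hj1
      linarith only [e1, hc2, hn1V, hV0]) with hgood | ⟨τ, hτ, hℬ, h𝒜⟩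
  · clear H3
    set Q'' := fun a : ℕ => (box j' \ m).filter fun x => ¬ ∃ τ ∈ pts N y (2 ^ (js + 1))
      (1 / (8 * W)) m (box j' \ m), onP N τ a ∧ onP N τ x with hQ''
    set Gd := (box j₁ \ m).filter fun a => ((box j' \ m).card : ℝ) ≤ 4 * (Q'' a).card with hGd
    have hGsub : Gd ⊆ box j₁ \ m := filter_subset _ _
    have e1 : sig (box j₁ \ m) ≤ 2 * (3 / c₁) * sig Gd :=
      sig_le_sig sdiff_subset (hGsub.trans sdiff_subset) hc₃' (by
        calc ((box j₁ \ m).card : ℝ) ≤ (box j₁).card := by exact_mod_cast card_le_card sdiff_subset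
          _ = 3 / c₁ * (c₁ / 3 * (box j₁).card) := by field_simp
          _ ≤ _ := mul_le_mul_of_nonneg_left hgood hc₃')
    calc _ ≤ cF * c₁ / 48 * Y * (2 * (3 / c₁) * sig Gd * sig (box j' \ m) * T) :=
          mul_le_mul (mul_le_mul_of_nonneg_right (min_le_left _ _) hY0)
            (mul_le_mul_of_nonneg_right (mul_le_mul_of_nonneg_right e1 hs') hT0)
            (mul_nonneg (mul_nonneg hs1 hs') hT0) (mul_nonneg hε1 hY0)
      _ = ∑ a ∈ Gd, cF * Y * (1 / a * (sig (box j' \ m) / 8) * T) := by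
          rw [← mul_sum, ← sum_mul, ← sum_mul, ← sig]; field_simp; ring
      _ ≤ ∑ a ∈ Gd, ∑ b ∈ box j' \ m, ∑ u ∈ Fintype.piFinset (fun i => box (j i) \ m),
          ∑ c ∈ box js \ m, (sift N y (pr m * a * b * (∏ i, u i) * c) p : ℝ) := ?_
      _ ≤ _ := sum_le_sum_of_subset_of_nonneg hGsub fun _ _ _ => sum_nonneg fun _ _ =>
          sum_nonneg fun _ _ => sum_nonneg fun _ _ => Nat.cast_nonneg _
    refine sum_le_sum fun a ha => ?_
    obtain ⟨a0, a1⟩ := mem_filter.1 ha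
    obtain ⟨a2, a3, a4⟩ := mem_box.1 (mem_sdiff.1 a0).1
    have hsub : Q'' a ⊆ box j' \ m := filter_subset _ _
    rcases H1 ω N y p (pr m * a) j' js j (Q'' a) (box js \ m) (fun i => box (j i) \ m) n1.1
      (by omega) hpB h1 h2 h4 h5 h3 (hsub.trans sdiff_subset)
      (h15 j' _ h1 (h2.trans (hpow (by norm_num))) a1) sdiff_subset
      (h15 js _ ((hpow (by norm_num)).trans h4) h5 (hs4 _))
      (fun i => ⟨sdiff_subset, h15 _ _ ((hpow (by norm_num)).trans (h3 i).1)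
        ((h3 i).2.trans (hpow (by norm_num))) (hs4 _)⟩)
      (fun l l1 l2 => by
        rcases (Nat.Prime.dvd_mul l1).1 l2 with h | h
        · exact (hm l ((prime_dvd_pr hmp l1).1 h)).2
        · rw [(Nat.prime_dvd_prime_iff_eq l1 a2).1 h]
          exact hpj.trans ((h2pow (by omega)).trans a3))
      hpj n12.le (fun i => (n11 i).1.le)
      (by
        have : 2 ^ (j' + 2) ≤ 2 ^ j₁ := h2pow (by omega)
        rw [pow_add] at this
        have : 1 * a ≤ pr m * a := Nat.mul_le_mul_right _ hm1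
        have : 0 < 2 ^ j' := Nat.two_pow_pos _
        omega)
      (by
        refine le_trans ?_ hy3
        rw [hW]
        calc _ ≤ pr m * 2 ^ (j₁ + 1) * 2 ^ (j' + 1) * 2 ^ (∑ i, j i + R) * 2 ^ (js + 1) :=
              Nat.mul_le_mul_right _ (Nat.mul_le_mul_right _ (Nat.mul_le_mul_right _
                (Nat.mul_le_mul_left _ a4.le)))
          _ = _ := by ring)
      (hpκ.trans (h2pow (by omega))) with hg | ⟨c₀, q, g, g1, g2, g3, g4, g5, g6, g7⟩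
    · rw [sum_recip, ← hT, mul_div_assoc, ← hY] at hg
      refine le_trans ?_ (hg.trans (sum_le_sum_of_subset_of_nonneg hsub fun _ _ _ =>
        sum_nonneg fun _ _ => sum_nonneg fun _ _ => Nat.cast_nonneg _))
      have := sig_le_sig sdiff_subset (hsub.trans sdiff_subset) (by norm_num) a1
      exact mul_le_mul_of_nonneg_left (mul_le_mul_of_nonneg_right (mul_le_mul_of_nonneg_left
        (by linarith only [this]) (one_div_nonneg.2 (Nat.cast_nonneg a))) hT0)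
        (mul_nonneg hcF.le hY0)
    · exfalso
      obtain ⟨τ, t1, t2, b, t3, t4⟩ := pts_of_point (W := W) hW0 hmp (hbp j') hsub a2
        (by
          refine lt_of_lt_of_le ?_ a3
          rw [← pow_mul]
          exact Nat.pow_lt_pow_right (by norm_num) (by omega))
        g1 g2 g3 g4 g5 g6 g7 a1 (by
          refine le_trans ?_ hQ'V
          have e2 : (js : ℝ) + 1 ≤ 2 * ω ^ 20 := by
            linarith only [hpow (show 14 ≤ 20 by norm_num), h20, h5]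
          calc 16 * W * ((js : ℝ) + 1) ≤ 16 * W ^ 2 * (2 * ω ^ 20) :=
                mul_le_mul (by linarith only [le_self_pow₀ hW1 two_ne_zero]) e2
                  (by linarith only [Nat.cast_nonneg (α := ℝ) js])
                  (by linarith only [sq_nonneg W])
            _ = 32 * V := by rw [hV]; ring
            _ ≤ _ := by linarith only [hV0])
      exact (mem_filter.1 t3).2 ⟨τ, t1, t2, t4⟩
  · clear H1
    rw [hθ] at h𝒜
    set 𝒜 := (box j₁ \ m).filter (onP N τ) with h𝒜def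
    set ℬ := (box j' \ m).filter (onP N τ) with hℬdef
    have hA : 𝒜 ⊆ box j₁ \ m := filter_subset _ _
    have hB : ℬ ⊆ box j' \ m := filter_subset _ _
    have hcard : ((box j₁ \ 𝒜).card : ℝ) ≤ c₁ * (box j₁).card := by
      have e1 : box j₁ \ 𝒜 ⊆ m ∪ (box j₁ \ m).filter fun y => ¬ onP N τ y := fun l hl => by
        simp only [h𝒜def, mem_union, mem_filter, mem_sdiff] at hl ⊢
        tauto
      have e2 : ((box j₁ \ 𝒜).card : ℝ) ≤
          m.card + ((box j₁ \ m).filter fun y => ¬ onP N τ y).card := by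
        exact_mod_cast (card_le_card e1).trans (card_union_le _ _)
      linarith only [e2, h𝒜, hmc, hn1V, hV0]
    have e1 : sig (box j₁ \ m) ≤ 2 * 2 * sig 𝒜 :=
      sig_le_sig sdiff_subset (hA.trans sdiff_subset) (by norm_num) (by
        have e2 : ((box j₁ \ 𝒜).card : ℝ) + 𝒜.card = (box j₁).card := by
          exact_mod_cast card_sdiff_add_card_eq_card (hA.trans sdiff_subset)
        have e3 : ((box j₁ \ m).card : ℝ) ≤ (box j₁).card := by
          exact_mod_cast card_le_card sdiff_subset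
        linarith only [e2, e3, hc2, hcard])
    have e2 : sig (box j' \ m) ≤ 2 * (4 / 3) * sig ℬ :=
      sig_le_sig sdiff_subset (hB.trans sdiff_subset) (by norm_num) (by linarith only [hℬ])
    have hsA := sig_nonneg 𝒜
    calc _ ≤ 3 * c₃ / 32 * Y * (2 * 2 * sig 𝒜 * (2 * (4 / 3) * sig ℬ) * T) :=
          mul_le_mul (mul_le_mul_of_nonneg_right (min_le_right _ _) hY0)
            (mul_le_mul_of_nonneg_right (mul_le_mul e1 e2 hs' (hs1.trans e1)) hT0)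
            (mul_nonneg (mul_nonneg hs1 hs') hT0) (mul_nonneg hε2 hY0)
      _ = ∑ u ∈ Fintype.piFinset (fun i => box (j i) \ m), ∑ c ∈ box js \ m,
          c₃ * Y * (sig 𝒜 * sig ℬ / ((pr m * (∏ i, u i) * c : ℕ) : ℝ)) := by
          simp only [div_eq_mul_one_div (sig 𝒜 * sig ℬ), ← mul_sum]
          rw [← hT]; ring
      _ ≤ ∑ u ∈ Fintype.piFinset (fun i => box (j i) \ m), ∑ c ∈ box js \ m,
          ∑ a ∈ box j₁ \ m, ∑ b ∈ box j' \ m,
            (sift N y (pr m * a * b * (∏ i, u i) * c) p : ℝ) := ?_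
      _ = _ := sum4_comm _ _ _ _ _
    refine sum_le_sum fun u hu => sum_le_sum fun c hc => ?_
    obtain ⟨t1, t2, t3, t4, t5, -⟩ := hτ
    obtain ⟨S, s1, s2, s3, s4⟩ := memberS (N := N) (τ := τ) (E := 2 ^ (js + 1)) hm hinj hu hc
      (fun i => (n11 i).2) (fun i => hpj.trans (h2pow (n11 i).1.le)) (hpj.trans (h2pow n12.le))
      t5 (by rw [prod_pow_eq_pow_sum]; exact h2pow n10) le_rfl
    have u1 : ∀ i, _ := fun i => mem_box.1 (mem_sdiff.1 (Fintype.mem_piFinset.1 hu i)).1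
    have c1 := mem_box.1 (mem_sdiff.1 hc).1
    have := H3 N τ.1 y p τ.2 j₁ j' (2 ^ (js + 1)) S 𝒜 ℬ n3 (by omega) n5
      (hpC.trans (h2pow (by omega))) hpC hE14 n8 n9 t1 t2 t3 (by exact_mod_cast t4) s2 s3
      (hA.trans sdiff_subset) (hB.trans sdiff_subset) (by omega)
      (fun a ha => ⟨fun h => by
        have a1 := mem_sdiff.1 (hA ha)
        have a2 := (mem_box'.1 a1.1).2
        rcases s4 a h with h | h | ⟨i, h⟩
        · exact a1.2 h
        · omega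
        · have := n11 i; omega, (mem_filter.1 ha).2⟩)
      (fun a ha => ⟨fun h => by
        have a1 := mem_sdiff.1 (hB ha)
        have a2 := (mem_box'.1 a1.1).2
        rcases s4 a h with h | h | ⟨i, h⟩
        · exact a1.2 h
        · omega
        · have := n11 i; omega, (mem_filter.1 ha).2⟩)
      hcard (hbox j₁ hj1).1
      (by
        have e3 := hhalf j' h1
        have e4 : ((box j').card : ℝ) ≤ 4 * ℬ.card := by
          linarith only [Nat.cast_nonneg (α := ℝ) ℬ.card, e3, hℬ]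
        have e5 : (box j').card ≤ 4 * ℬ.card := by exact_mod_cast e4
        calc 2 ^ j' ≤ j' * (4 * ℬ.card) := (hbox j' h1).1.trans (Nat.mul_le_mul_left _ e5)
          _ = _ := by ring)
      (by
        refine le_trans (Nat.mul_le_mul_right _ (Nat.pow_le_pow_left ?_ 2)) hy1
        calc _ ≤ pr m * (∏ i, 2 ^ (j i + 1)) * 2 ^ (js + 1) * 2 ^ (j₁ + 1) * 2 ^ (j' + 1) := by
              rw [s1]
              exact Nat.mul_le_mul_right _ (Nat.mul_le_mul_right _ (Nat.mul_le_mul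
                (Nat.mul_le_mul_left _ (prod_le_prod' fun i _ => (u1 i).2.2.le)) c1.2.2.le))
          _ = _ := by rw [hW]; ring)
      (by
        refine hy2.trans (Nat.mul_le_mul_right _ ?_)
        calc _ = pr m * (∏ i, 2 ^ j i) * 2 ^ js * 2 ^ j₁ * 2 ^ j' := by
              rw [prod_pow_eq_pow_sum]; ring
          _ ≤ _ := by
              rw [s1]
              exact Nat.mul_le_mul_right _ (Nat.mul_le_mul_right _ (Nat.mul_le_mul
                (Nat.mul_le_mul_left _ (prod_le_prod' fun i _ => (u1 i).2.1)) c1.2.1)))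
    rw [mul_div_assoc, ← hY, s1] at this
    refine this.trans (le_trans (sum_le_sum fun a _ => ?_)
      (sum_le_sum_of_subset_of_nonneg hA fun _ _ _ => sum_nonneg fun _ _ => Nat.cast_nonneg _))
    refine le_trans (le_of_eq (sum_congr rfl fun b _ => ?_))
      (sum_le_sum_of_subset_of_nonneg hB fun _ _ _ => Nat.cast_nonneg _)
    congr 2; ring

end Vale.Agent.P013
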