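import Vale.Agent.P013.Bilin
import Vale.Agent.P013.Fourier

/-! Arithmetic lemmas on rational points and the bilinear case. -/

open Finset

namespace Vale.Agent.P013

theorem reduce_point {A : ℤ} (hA : A ≠ 0) (x N : ℤ) : ∃ (c : ℤ) (q g : ℕ), 1 ≤ q ∧ 1 ≤ g ∧
    (q * g : ℤ) = |A| ∧ IsCoprime c (q : ℤ) ∧ |c| * g = |x| ∧
    ∀ n : ℤ, n ∣ A * N - x → n ∣ g * (q * N - c) := by
  have hg : 0 < Int.gcd A x := Int.gcd_pos_of_ne_zero_left x hA
  obtain ⟨A', x', hco, hA', hx'⟩ := Int.exists_gcd_one hg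
  set g := Int.gcd A x
  have hA0 : A' ≠ 0 := by rintro rfl; simp at hA'; exact hA hA'
  have hco' : IsCoprime x' A' := (Int.isCoprime_iff_gcd_eq_one.2 hco).symm
  have hgabs : |(g : ℤ)| = g := abs_of_nonneg (by positivity)
  rcases lt_or_gt_of_ne hA0 with h | h
  · refine ⟨-x', A'.natAbs, g, by omega, hg, ?_, ?_, ?_, fun n hn => ?_⟩
    · rw [hA', abs_mul, hgabs, Int.natCast_natAbs]
    · rw [Int.natCast_natAbs, abs_of_neg h]; exact hco'.neg_neg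
    · rw [hx', abs_mul, hgabs, abs_neg]
    · rw [Int.natCast_natAbs, abs_of_neg h]
      have : (g : ℤ) * (-A' * N - -x') = -(A * N - x) := by rw [hA', hx']; ring
      rw [this]; exact hn.neg_right
  · refine ⟨x', A'.natAbs, g, by omega, hg, ?_, ?_, ?_, fun n hn => ?_⟩
    · rw [hA', abs_mul, hgabs, Int.natCast_natAbs]
    · rw [Int.natCast_natAbs, abs_of_pos h]; exact hco'
    · rw [hx', abs_mul, hgabs]
    · rw [Int.natCast_natAbs, abs_of_pos h]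
      have : (g : ℤ) * (A' * N - x') = A * N - x := by rw [hA', hx']; ring
      rw [this]; exact hn

theorem point_eq {c c' : ℤ} {q q' : ℕ} (hq : 1 ≤ q) (hq' : 1 ≤ q') (h : IsCoprime c (q : ℤ))
    (h' : IsCoprime c' (q' : ℤ)) (e : c * q' = c' * q) : (c, q) = (c', q') := by
  have h1 : (q : ℤ) ∣ q' := h.symm.dvd_of_dvd_mul_left ⟨c', by rw [e]; ring⟩
  have h2 : (q' : ℤ) ∣ q := h'.symm.dvd_of_dvd_mul_left ⟨c, by rw [← e]; ring⟩
  have h3 : q = q' := Nat.dvd_antisymm (by exact_mod_cast h1) (by exact_mod_cast h2)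
  subst h3
  have : c = c' := mul_right_cancel₀ (by exact_mod_cast (by omega : q ≠ 0)) e
  rw [this]

theorem pr_le_of_dvd {S : Finset ℕ} (hS : ∀ l ∈ S, l.Prime) {Δ : ℤ} (hΔ : Δ ≠ 0)
    (h : ∀ l ∈ S, (l : ℤ) ∣ Δ) : (pr S : ℤ) ≤ |Δ| :=
  Int.le_of_dvd (abs_pos.2 hΔ) ((dvd_abs _ _).2 ((pr_dvd_iff hS).2 h))

theorem card_le_log {S : Finset ℕ} (hS : ∀ l ∈ S, l.Prime) {y : ℕ} (h : pr S ≤ y ^ 2) :
    (S.card : ℝ) ≤ 3 * Real.log y := by
  have h1 : (2 : ℝ) ^ S.card ≤ (y : ℝ) ^ 2 := by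
    exact_mod_cast (two_pow_card_le_pr hS).trans h
  have h2 := Real.log_le_log (by positivity) h1
  rw [Real.log_pow, Real.log_pow] at h2
  have h3 := Real.log_two_gt_d9
  have h4 : (0 : ℝ) ≤ S.card := by positivity
  push_cast at h2
  nlinarith

/-- Sum of reciprocals. -/
noncomputable def sig (Q : Finset ℕ) : ℝ := ∑ a ∈ Q, 1 / (a : ℝ)

theorem sig_nonneg (Q : Finset ℕ) : 0 ≤ sig Q := sum_nonneg fun _ _ => by positivity

theorem sig_le {Q : Finset ℕ} {j : ℕ} (h : Q ⊆ box j) : sig Q ≤ Q.card / 2 ^ j := by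
  have : sig Q ≤ Q.card • (1 / (2 : ℝ) ^ j) := sum_le_card_nsmul _ _ _ fun a ha => by
    have := (mem_box.1 (h ha)).2.1
    exact one_div_le_one_div_of_le (by positivity) (by exact_mod_cast this)
  rwa [nsmul_eq_mul, mul_one_div] at this

theorem le_sig {Q : Finset ℕ} {j : ℕ} (h : Q ⊆ box j) : Q.card / (2 * 2 ^ j) ≤ sig Q := by
  have : Q.card • (1 / (2 * (2 : ℝ) ^ j)) ≤ sig Q := card_nsmul_le_sum _ _ _ fun a ha => by
    have h1 := mem_box.1 (h ha)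
    refine one_div_le_one_div_of_le (by exact_mod_cast h1.1.pos) ?_
    rw [← pow_succ']; exact_mod_cast h1.2.2.le
  rwa [nsmul_eq_mul, mul_one_div] at this

theorem sig_le_sig {Q A : Finset ℕ} {j : ℕ} (hQ : Q ⊆ box j) (hA : A ⊆ box j) {l : ℝ}
    (hl : 0 ≤ l) (h : (Q.card : ℝ) ≤ l * A.card) : sig Q ≤ 2 * l * sig A := by
  calc sig Q ≤ Q.card / 2 ^ j := sig_le hQ
    _ ≤ l * A.card / 2 ^ j := by gcongr
    _ = 2 * l * (A.card / (2 * 2 ^ j)) := by field_simp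
    _ ≤ _ := by gcongr; exact le_sig hA

theorem gcd_bound {Ω h : ℤ} {u e : ℕ} (hh : h ≠ 0) (he : 1 ≤ e) (hc : IsCoprime Ω (u : ℤ)) :
    (Int.gcd (h * Ω) (u * e : ℕ) : ℤ) ≤ |h| * e := by
  set g := Int.gcd (h * Ω) (u * e : ℕ)
  have h1 : (g : ℤ) ∣ h * Ω := Int.gcd_dvd_left ..
  have h2 : (g : ℤ) ∣ (u * e : ℕ) := Int.gcd_dvd_right ..
  obtain ⟨a, b, hab⟩ := hc
  have h3 : (g : ℤ) ∣ h * e := by
    have : h * e = a * e * (h * Ω) + b * h * (u * e : ℕ) := by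
      push_cast; linear_combination (-(h * e)) * hab
    rw [this]
    exact (h1.mul_left _).add (h2.mul_left _)
  have h4 : h * e ≠ 0 := mul_ne_zero hh (by exact_mod_cast (by omega : e ≠ 0))
  have := Int.le_of_dvd (abs_pos.2 h4) ((dvd_abs _ _).2 h3)
  rwa [abs_mul, Nat.abs_cast] at this

end Vale.Agent.P013
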