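import Vale.Agent.P013.PropGA

/-! The concurrent case with large height: the bilinear estimate applies. -/

open Finset

namespace Vale.Agent.P013

theorem alpha_num {x Cb A B P P' M Θ E u : ℝ} (hCb : 0 < Cb) (hx : 768 * Cb ≤ x) (hx1 : 1 ≤ x)
    (hu : 1 ≤ u) (hP : 0 < P) (hP' : 0 < P') (hA : P ≤ 4 * x * A) (hB : P' ≤ 4 * x * B)
    (h1 : u ^ 4 * x ^ 3 ≤ P') (h2 : u ^ 4 * x ^ 2 ≤ E) (hM0 : 0 ≤ M) (hM : M ≤ E ^ 7)
    (hΘ0 : 0 ≤ Θ) (hΘ : Θ ≤ 3 * E ^ 6) (hE : E ^ 14 ≤ P) :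
    16 * u ^ 4 * (Cb * (P + 1 / (u ^ 4 * x ^ 3) * P * P' + B * M * (1 + Θ))) ≤ A * B := by
  have hx0 : 0 < x := by linarith
  have hA0 : 0 < A := by nlinarith
  have hB0 : 0 < B := by nlinarith
  have hE1 : 1 ≤ E := le_trans (one_le_mul_of_one_le_of_one_le (one_le_pow₀ hu)
    (one_le_pow₀ hx1)) h2
  have hAB : P * P' ≤ 16 * x ^ 2 * (A * B) := by
    calc P * P' ≤ (4 * x * A) * (4 * x * B) := by gcongr
      _ = _ := by ring
  have t1 : 48 * u ^ 4 * Cb * P ≤ A * B := by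
    refine le_of_mul_le_mul_left (le_trans ?_ hAB) (by positivity : 0 < 16 * x ^ 2)
    calc 16 * x ^ 2 * (48 * u ^ 4 * Cb * P) = P * (u ^ 4 * x ^ 2 * (768 * Cb)) := by ring
      _ ≤ P * (u ^ 4 * x ^ 2 * x) := by gcongr
      _ = P * (u ^ 4 * x ^ 3) := by ring
      _ ≤ _ := by gcongr
  have t2 : 48 * u ^ 4 * Cb * (1 / (u ^ 4 * x ^ 3) * P * P') ≤ A * B := by
    refine le_of_mul_le_mul_left (le_trans ?_ hAB) (by positivity : 0 < 16 * x ^ 2)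
    calc 16 * x ^ 2 * (48 * u ^ 4 * Cb * (1 / (u ^ 4 * x ^ 3) * P * P'))
        = P * P' * (768 * Cb / x) := by field_simp; ring
      _ ≤ P * P' * 1 := by gcongr; rwa [div_le_one hx0]
      _ = _ := mul_one _
  have t3 : 48 * u ^ 4 * Cb * (B * M * (1 + Θ)) ≤ A * B := by
    have h3 : 1 + Θ ≤ 4 * E ^ 6 := by linarith [one_le_pow₀ (n := 6) hE1]
    refine le_of_mul_le_mul_left ?_ (by positivity : 0 < 4 * x)
    calc 4 * x * (48 * u ^ 4 * Cb * (B * M * (1 + Θ)))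
        ≤ 4 * x * (48 * u ^ 4 * Cb * (B * E ^ 7 * (4 * E ^ 6))) := by gcongr
      _ = B * (u ^ 4 * x * (768 * Cb) * E ^ 13) := by ring
      _ ≤ B * (u ^ 4 * x * x * E ^ 13) := by gcongr
      _ = B * (u ^ 4 * x ^ 2 * E ^ 13) := by ring
      _ ≤ B * (E * E ^ 13) := by gcongr
      _ = B * E ^ 14 := by ring
      _ ≤ B * (4 * x * A) := by gcongr; exact hE.trans hA
      _ = _ := by ring
  nlinarith

theorem alpha_case2 {x u q rc rn e P P' y c v h l W : ℝ} (hx2 : 2 ≤ x) (hu1 : 1 ≤ u)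
    (hq0 : 0 < q) (hrc : 0 < rc) (hrn : 0 ≤ rn) (he : e ≤ u) (hP : 0 < P) (hP' : 0 < P')
    (hy : rc * rn * P * P' ≤ y) (hv0 : 0 ≤ v) (hv : v ≤ y) (hh : 1 ≤ |h|) (hl : l ≤ x)
    (he0 : 0 ≤ e) (hW : 2 * (u ^ 5 * x ^ 4) ≤ W) (h1 : W * q * y < |c|) :
    l * (P * P' * (q * rn * e)) ≤ 1 / (u ^ 4 * x ^ 3) * (|h| * |c + q * v| / rc) := by
  have hy0 : 0 ≤ y := hv0.trans hv
  have h2 : |c| - q * y ≤ |c + q * v| := by
    have := abs_sub (c + q * v) (q * v)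
    rw [add_sub_cancel_right, abs_of_nonneg (by positivity : (0 : ℝ) ≤ q * v)] at this
    nlinarith
  have h5 : 1 ≤ u ^ 5 * x ^ 4 :=
    one_le_mul_of_one_le_of_one_le (one_le_pow₀ hu1) (one_le_pow₀ (by linarith))
  have h6 : u ^ 5 * x ^ 4 * (q * y) ≤ |c + q * v| := by
    have h7 : 0 ≤ q * y := by positivity
    have h8 := mul_le_mul_of_nonneg_right hW h7
    have h9 := mul_le_mul_of_nonneg_right h5 h7
    linarith
  have hx0 : 0 < x := by linarith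
  have hu0 : 0 < u := by linarith
  calc _ ≤ x * (P * P' * (q * rn * u)) := by gcongr
    _ = x * u * q * (rc * rn * P * P') / rc := by field_simp
    _ ≤ x * u * q * y / rc := by gcongr
    _ = 1 / (u ^ 4 * x ^ 3) * (1 * (u ^ 5 * x ^ 4 * (q * y)) / rc) := by field_simp
    _ ≤ _ := by gcongr

theorem alpha_theta {x q rc rn e P P' y c v h E : ℝ} (hE : 1 ≤ E)
    (hq0 : 0 < q) (hrc : 0 < rc) (hrn : 0 < rn) (he : 1 ≤ e) (hP : 0 < P) (hP' : 0 < P')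
    (hy : y ≤ rc * rn * P * P' * x ^ 2) (hv0 : 0 ≤ v) (hv : v ≤ y) (hh : |h| ≤ E)
    (hx : x ^ 2 ≤ E) (h1 : |c| ≤ 2 * y * E ^ 4 * q) :
    |h| * |c + q * v| / rc / (P * P' * (q * rn * e)) ≤ 3 * E ^ 6 := by
  have hy0 : 0 ≤ y := hv0.trans hv
  have h2 : |c + q * v| ≤ 3 * y * E ^ 4 * q := by
    refine (abs_add_le _ _).trans ?_
    rw [abs_of_nonneg (by positivity : (0 : ℝ) ≤ q * v)]
    have : q * v ≤ y * E ^ 4 * q := by
      calc q * v ≤ q * y := by gcongr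
        _ = y * 1 * q := by ring
        _ ≤ _ := by gcongr; exact one_le_pow₀ hE
    linarith
  rw [div_le_iff₀ (by positivity), div_le_iff₀ hrc]
  calc _ ≤ E * (3 * (rc * rn * P * P' * E) * E ^ 4 * q) := by
        gcongr
        refine h2.trans ?_
        gcongr
        exact hy.trans (by gcongr)
    _ = 3 * E ^ 6 * (P * P' * (q * rn * 1)) * rc := by ring
    _ ≤ _ := by gcongr

theorem alpha_id {N c₀ Ω h : ℤ} {v q rc rn e : ℕ} {P P' : ℝ} (hP : 0 < P) (hP' : 0 < P')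
    (hq : 1 ≤ q) (hrc : 1 ≤ rc) (hrn : 1 ≤ rn) (he : 1 ≤ e) (hΩ : q * N - c₀ = rc * Ω)
    {𝒜 ℬ : Finset ℕ} (hA : ∀ a ∈ 𝒜, 0 < a) (hB : ∀ a ∈ ℬ, 0 < a) :
    ∑ i ∈ 𝒜 ×ˢ ℬ, ex ((h * (N + v) : ℤ) / ((rc * rn * i.1 * i.2 * e : ℕ) : ℝ)) /
      ((rc * rn * i.1 * i.2 : ℕ) : ℂ) = ((1 / (rc * rn * P * P') : ℝ) : ℂ) *
      ∑ a ∈ 𝒜, ∑ b ∈ ℬ, ((P / a : ℝ) : ℂ) * ((P' / b : ℝ) : ℂ) *
        ex ((((h * Ω : ℤ) : ℝ) + h * (c₀ + q * v) / rc) / (a * b * (q * rn * e : ℕ))) := by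
  have hq0 : (0 : ℝ) < q := by exact_mod_cast hq
  have hrn0 : (0 : ℝ) < rn := by exact_mod_cast hrn
  have hrc1 : (0 : ℝ) < rc := by exact_mod_cast hrc
  have he1 : (0 : ℝ) < e := by exact_mod_cast he
  rw [sum_product, mul_sum]
  refine sum_congr rfl fun a ha => ?_
  rw [mul_sum]
  refine sum_congr rfl fun b hb => ?_
  have ha0 : (0 : ℝ) < a := by exact_mod_cast hA a ha
  have hb0 : (0 : ℝ) < b := by exact_mod_cast hB b hb
  have h1 : (Ω : ℝ) = (q * N - c₀) / rc := by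
    rw [eq_div_iff hrc1.ne', mul_comm]; exact_mod_cast hΩ.symm
  have h2 : ((h * (N + v) : ℤ) : ℝ) / ((rc * rn * a * b * e : ℕ) : ℝ) =
      (((h * Ω : ℤ) : ℝ) + h * (c₀ + q * v) / rc) / (a * b * (q * rn * e : ℕ)) := by
    push_cast
    rw [h1]
    field_simp
    ring
  have h3 : (1 / ((rc * rn * a * b : ℕ) : ℝ)) = 1 / (rc * rn * P * P') * (P / a * (P' / b)) := by
    push_cast; field_simp
  rw [h2, div_eq_mul_one_div, mul_comm, ← mul_assoc, ← Complex.ofReal_mul,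
    ← Complex.ofReal_mul, ← h3]
  push_cast
  rfl

set_option maxHeartbeats 800000 in
theorem stepAlpha : ∃ (C p₀ : ℕ) (c : ℝ), 0 < c ∧ 2 ≤ C ∧ ∀ (N c₀ : ℤ)
    (y p q rc rn j₁ j' E : ℕ) (𝒜 ℬ : Finset ℕ), p₀ ≤ p → p ^ C ≤ E → p ^ C ≤ 2 ^ j' →
    E ^ 14 ≤ 2 ^ j₁ → j₁ ≤ 2 * p → j' < p → 1 ≤ q → q ≤ E ^ 2 → 1 ≤ rn → rn ≤ E ^ 4 → 1 ≤ rc →
    |c₀| ≤ 2 * y * E ^ 4 * q → IsCoprime (q * N - c₀) ((q * rn : ℕ) : ℤ) →
    (∀ a ∈ 𝒜, ∀ b ∈ ℬ, ((rc * a * b : ℕ) : ℤ) ∣ q * N - c₀) →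
    (∀ l : ℕ, l.Prime → l ∣ rc * rn → p ≤ l) → 𝒜 ⊆ box j₁ → ℬ ⊆ box j' →
    2 ^ j₁ ≤ 2 * j₁ * 𝒜.card → 2 ^ j' ≤ 4 * j' * ℬ.card →
    rc * rn * 2 ^ (j₁ + 1) * 2 ^ (j' + 1) ≤ y → y ≤ rc * rn * 2 ^ j₁ * 2 ^ j' * p ^ 2 →
    (p ^ C < q * rn ∨ (p : ℤ) ^ C * q * y < |c₀|) →
    c * y / Real.log p * (sig 𝒜 * sig ℬ / (rc * rn)) ≤
      ∑ a ∈ 𝒜, ∑ b ∈ ℬ, (sift N y (rc * rn * a * b) p : ℝ) := by
  obtain ⟨κ, pF, cF, hcF, hF⟩ := fourier_sieve
  obtain ⟨Cb, hCb, hBil⟩ := bilinear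
  refine ⟨12 * κ + 6, max (max pF 2) ⌈768 * Cb⌉₊, cF, hcF, by omega, ?_⟩
  intro N c₀ y p q rc rn j₁ j' E 𝒜 ℬ hp hE hj' hE14 hj1 hj'p hq hqE hrn hrnE hrc hc₀ hco hdiv
    hl h𝒜 hℬ hA hB hy1 hy2 hcase
  have hp2 : 2 ≤ p := le_trans (le_trans (le_max_right _ _) (le_max_left _ _)) hp
  have hpF : pF ≤ p := le_trans (le_trans (le_max_left _ _) (le_max_left _ _)) hp
  have hpC : 768 * Cb ≤ p := (Nat.ceil_le.1 (le_trans (le_max_right _ _) hp))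
  have hpow : ∀ {a b : ℕ}, a ≤ b → p ^ a ≤ p ^ b := fun h => Nat.pow_le_pow_right (by omega) h
  have hE1 : 1 ≤ E := le_trans (Nat.one_le_pow _ _ (by omega)) hE
  have hEj : E ≤ 2 ^ j₁ := le_trans (Nat.le_self_pow (by norm_num) E) hE14
  have hpa : ∀ a ∈ 𝒜, a.Prime ∧ p ^ (12 * κ + 6) ≤ a ∧ 2 ^ j₁ ≤ a ∧ a < 2 ^ (j₁ + 1) :=
    fun a ha => by
      have := mem_box.1 (h𝒜 ha)
      exact ⟨this.1, (hE.trans hEj).trans this.2.1, this.2⟩
  have hpb : ∀ b ∈ ℬ, b.Prime ∧ p ^ (12 * κ + 6) ≤ b ∧ 2 ^ j' ≤ b ∧ b < 2 ^ (j' + 1) :=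
    fun a ha => by
      have := mem_box.1 (hℬ ha)
      exact ⟨this.1, hj'.trans this.2.1, this.2⟩
  have hpp : p ≤ p ^ (12 * κ + 6) := Nat.le_self_pow (by omega) p
  have hsum : ∑ i ∈ 𝒜 ×ˢ ℬ, 1 / ((rc * rn * i.1 * i.2 : ℕ) : ℝ) = sig 𝒜 * sig ℬ / (rc * rn) := by
    rw [sum_product, sig, sig, sum_mul_sum, sum_div]
    refine sum_congr rfl fun a _ => ?_
    rw [sum_div]
    refine sum_congr rfl fun b _ => ?_
    push_cast; field_simp
  have key := hF N y p (𝒜 ×ˢ ℬ) (fun i => rc * rn * i.1 * i.2) hpF ?_ ?_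
  · rwa [hsum, sum_product] at key
  · rintro ⟨a, b⟩ hi
    obtain ⟨ha, hb⟩ := mem_product.1 hi
    obtain ⟨a1, a2, a3, a4⟩ := hpa a ha
    obtain ⟨b1, b2, b3, b4⟩ := hpb b hb
    refine ⟨?_, ?_, fun l hl' hd => ?_⟩
    · have h1 : p ^ (κ + 2) ≤ a := (hpow (by omega)).trans a2
      have h2 : 2 * p ^ κ < p ^ (κ + 2) := by
        have h3 : 4 ≤ p ^ 2 := by nlinarith
        rw [pow_add]; nlinarith [Nat.one_le_pow κ p (by omega)]
      calc 2 * p ^ κ < 1 * 1 * a * 1 := by omega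
        _ ≤ rc * rn * a * b := by gcongr; exact b1.pos
    · exact le_trans (by dsimp only; gcongr) hy1
    · have hl1 := Nat.mem_primesBelow.1 hl'
      rcases (Nat.Prime.dvd_mul hl1.2).1 hd with h | h
      · rcases (Nat.Prime.dvd_mul hl1.2).1 h with h | h
        · have := hl l hl1.2 h; omega
        · have := (Nat.prime_dvd_prime_iff_eq hl1.2 a1).1 h; omega
      · have := (Nat.prime_dvd_prime_iff_eq hl1.2 b1).1 h; omega
  clear hF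
  intro e h v he heκ hel hh hhκ hv
  rw [hsum]
  have hA0 : 𝒜.Nonempty := card_pos.1 (by
    by_contra h0
    rw [show 𝒜.card = 0 by omega] at hA
    have := Nat.one_le_two_pow (n := j₁); omega)
  have hB0 : ℬ.Nonempty := card_pos.1 (by
    by_contra h0
    rw [show ℬ.card = 0 by omega] at hB
    have := Nat.one_le_two_pow (n := j'); omega)
  obtain ⟨Ω, hΩ⟩ : (rc : ℤ) ∣ q * N - c₀ := by
    obtain ⟨a, ha⟩ := hA0
    obtain ⟨b, hb⟩ := hB0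
    exact Dvd.dvd.trans (by push_cast; exact ⟨a * b, by ring⟩) (hdiv a ha b hb)
  have hrc0 : (rc : ℤ) ≠ 0 := by exact_mod_cast (by omega : rc ≠ 0)
  have hab : ∀ a ∈ 𝒜, ∀ b ∈ ℬ, ((a * b : ℕ) : ℤ) ∣ Ω := fun a ha b hb => by
    have := hdiv a ha b hb
    rw [hΩ] at this
    push_cast at this ⊢
    rw [mul_assoc] at this
    exact (mul_dvd_mul_iff_left hrc0).1 this
  have hco' : IsCoprime Ω ((q * rn : ℕ) : ℤ) := by
    rw [hΩ] at hco; exact hco.of_mul_left_right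
  have hcop : ∀ a : ℕ, a.Prime → p ≤ a → (a : ℤ) ∣ Ω → Nat.Coprime a (q * rn * e) :=
    fun a a1 a2 a3 => by
      refine Nat.Coprime.mul_right ?_ ((Nat.Prime.coprime_iff_not_dvd a1).2 fun hd => ?_)
      · exact Nat.isCoprime_iff_coprime.1 (hco'.of_isCoprime_of_dvd_left a3)
      · have := hel a a1 hd; omega
  set x : ℝ := (p : ℝ) with hx
  set u : ℝ := x ^ κ with hu
  have hx2 : (2 : ℝ) ≤ x := by rw [hx]; exact_mod_cast hp2
  have hu1 : 1 ≤ u := one_le_pow₀ (by linarith)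
  have hxpow : ∀ {a b : ℕ}, a ≤ b → x ^ a ≤ x ^ b := fun h => pow_le_pow_right₀ (by linarith) h
  have hEr : x ^ (12 * κ + 6) ≤ E := by rw [hx]; exact_mod_cast hE
  have heu : (e : ℝ) ≤ u := by rw [hu, hx]; exact_mod_cast heκ
  have hhu : |(h : ℝ)| ≤ u := by rw [hu, hx]; exact_mod_cast hhκ
  have hh1 : 1 ≤ |(h : ℝ)| := by exact_mod_cast Int.one_le_abs hh
  have huE : u ≤ E := (hxpow (by omega)).trans hEr
  have hq0 : (0 : ℝ) < q := by exact_mod_cast hq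
  have hrn0 : (1 : ℝ) ≤ rn := by exact_mod_cast hrn
  have hrc1 : (0 : ℝ) < rc := by exact_mod_cast hrc
  have he1 : (1 : ℝ) ≤ e := by exact_mod_cast he
  have hvy : (v : ℝ) ≤ y := by exact_mod_cast hv.le
  set P : ℝ := 2 ^ j₁ with hP
  set P' : ℝ := 2 ^ j' with hP'
  have hP0 : 0 < P := by positivity
  have hP0' : 0 < P' := by positivity
  have hy1' : rc * rn * P * P' ≤ y := by
    have : rc * rn * 2 ^ j₁ * 2 ^ j' ≤ y := le_trans (by gcongr <;> omega) hy1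
    rw [hP, hP']; exact_mod_cast this
  have hy2' : (y : ℝ) ≤ rc * rn * P * P' * x ^ 2 := by rw [hP, hP', hx]; exact_mod_cast hy2
  set γ : ℝ := h * (c₀ + q * v) / rc with hγ
  have hγabs : |γ| = |(h : ℝ)| * |(c₀ : ℝ) + q * v| / rc := by
    rw [hγ, abs_div, abs_mul, abs_of_pos hrc1]
  have hb := hBil (2 ^ j₁) (2 ^ j') (q * rn * e) 𝒜 ℬ (h * Ω) γ (1 / (u ^ 4 * x ^ 3))
    (fun a => ((P / a : ℝ) : ℂ)) (fun b => ((P' / b : ℝ) : ℂ)) Nat.one_le_two_pow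
    Nat.one_le_two_pow (Nat.mul_pos (Nat.mul_pos hq hrn) he)
    (fun a ha => mem_Ico.2 ⟨(hpa a ha).2.2.1, by rw [← pow_succ']; exact (hpa a ha).2.2.2⟩)
    (fun a ha => mem_Ico.2 ⟨(hpb a ha).2.2.1, by rw [← pow_succ']; exact (hpb a ha).2.2.2⟩)
    (fun a ha => hcop a (hpa a ha).1 (hpp.trans (hpa a ha).2.1) (by
      obtain ⟨b, hb⟩ := hB0
      exact Dvd.dvd.trans (by push_cast; exact dvd_mul_right _ _) (hab a ha b hb)))
    (fun b hb => hcop b (hpb b hb).1 (hpp.trans (hpb b hb).2.1) (by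
      obtain ⟨a, ha⟩ := hA0
      exact Dvd.dvd.trans (by push_cast; exact dvd_mul_left _ _) (hab a ha b hb)))
    (fun a ha b hb => (hab a ha b hb).mul_left h)
    (fun a ha => by
      have : P ≤ a := by rw [hP]; exact_mod_cast (hpa a ha).2.2.1
      rw [Complex.norm_real, Real.norm_eq_abs, abs_of_nonneg (by positivity)]
      exact div_le_one_of_le₀ this (by positivity))
    (fun a ha => by
      have : P' ≤ a := by rw [hP']; exact_mod_cast (hpb a ha).2.2.1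
      rw [Complex.norm_real, Real.norm_eq_abs, abs_of_nonneg (by positivity)]
      exact div_le_one_of_le₀ this (by positivity))
    (by positivity) ?_
  swap
  · clear hBil
    rcases hcase with hc | hc
    · left
      have h1 : ((Int.gcd (h * Ω) (q * rn * e : ℕ) : ℤ) : ℝ) ≤ ((|h| * e : ℤ) : ℝ) := by
        exact_mod_cast gcd_bound hh he hco'
      push_cast at h1
      have h2 : u ^ 6 * x ^ 3 ≤ √((q * rn * e : ℕ) : ℝ) := by
        refine Real.le_sqrt_of_sq_le ?_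
        have h3 : p ^ (12 * κ + 6) ≤ q * rn * e :=
          hc.le.trans (Nat.le_mul_of_pos_right _ he)
        calc (u ^ 6 * x ^ 3) ^ 2 = x ^ (12 * κ + 6) := by rw [hu]; ring
          _ ≤ _ := by rw [hx]; exact_mod_cast h3
      calc _ ≤ |(h : ℝ)| * e := by exact_mod_cast h1
        _ ≤ u * u := by gcongr
        _ = 1 / (u ^ 4 * x ^ 3) * (u ^ 6 * x ^ 3) := by field_simp
        _ ≤ _ := by gcongr
    · right
      have h1 : x ^ (12 * κ + 6) * q * y < |(c₀ : ℝ)| := by rw [hx]; exact_mod_cast hc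
      have h3 : 1 + Real.log (2 ^ j') ≤ x := by
        rw [Real.log_pow]
        have h4 : (j' : ℝ) + 1 ≤ x := by rw [hx]; exact_mod_cast hj'p
        have h5 : (j' : ℝ) * Real.log 2 ≤ j' * 1 := by
          gcongr; linarith [Real.log_two_lt_d9]
        linarith
      have h4 : 2 * (u ^ 5 * x ^ 4) ≤ x ^ (12 * κ + 6) := by
        calc 2 * (u ^ 5 * x ^ 4) ≤ x * (u ^ 5 * x ^ 4) := by gcongr
          _ = x ^ (5 * κ + 5) := by rw [hu]; ring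
          _ ≤ _ := hxpow (by omega)
      rw [hγabs]
      push_cast
      exact alpha_case2 hx2 hu1 hq0 hrc1 (by positivity) heu hP0 hP0' hy1' (by positivity) hvy
        hh1 h3 (by positivity) h4 h1
  clear hBil
  have hΘ : |γ| / ((2 ^ j₁ : ℕ) * (2 ^ j' : ℕ) * (q * rn * e : ℕ)) ≤ 3 * (E : ℝ) ^ 6 := by
    rw [hγabs]
    push_cast
    exact alpha_theta (by exact_mod_cast hE1) hq0 hrc1 (by linarith) he1 hP0 hP0' hy2'
      (by positivity) hvy (hhu.trans huE) ((hxpow (by omega)).trans hEr) (by exact_mod_cast hc₀)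
  have hnum := alpha_num (A := 𝒜.card) (B := ℬ.card) (M := ((q * rn * e : ℕ) : ℝ)) (E := E)
    hCb hpC (by linarith) hu1 hP0 hP0'
    (by
      have : 2 ^ j₁ ≤ 4 * p * 𝒜.card := hA.trans (Nat.mul_le_mul_right _ (by omega))
      rw [hP, hx]; exact_mod_cast this)
    (by
      have : 2 ^ j' ≤ 4 * p * ℬ.card := hB.trans (Nat.mul_le_mul_right _ (by omega))
      rw [hP', hx]; exact_mod_cast this)
    (by
      calc u ^ 4 * x ^ 3 = x ^ (4 * κ + 3) := by rw [hu]; ring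
        _ ≤ x ^ (12 * κ + 6) := hxpow (by omega)
        _ ≤ _ := by rw [hP', hx]; exact_mod_cast hj')
    (by
      calc u ^ 4 * x ^ 2 = x ^ (4 * κ + 2) := by rw [hu]; ring
        _ ≤ x ^ (12 * κ + 6) := hxpow (by omega)
        _ ≤ _ := hEr)
    (by positivity)
    (by
      have : q * rn * e ≤ E ^ 7 := by
        calc q * rn * e ≤ E ^ 2 * E ^ 4 * E := by
              gcongr; exact heκ.trans ((hpow (by omega)).trans hE)
          _ = _ := by ring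
      exact_mod_cast this)
    (by positivity) hΘ (by rw [hP]; exact_mod_cast hE14)
  set S := ∑ a ∈ 𝒜, ∑ b ∈ ℬ, ((P / a : ℝ) : ℂ) * ((P' / b : ℝ) : ℂ) *
    ex ((((h * Ω : ℤ) : ℝ) + γ) / (a * b * (q * rn * e : ℕ))) with hS
  have hS2 : 4 * u ^ 2 * ‖S‖ ≤ 𝒜.card * ℬ.card := by
    refine le_of_sq_le_sq ?_ (by positivity)
    calc (4 * u ^ 2 * ‖S‖) ^ 2 = 16 * u ^ 4 * ‖S‖ ^ 2 := by ring
      _ ≤ 16 * u ^ 4 * (Cb * 𝒜.card * ℬ.card * ((2 ^ j₁ : ℕ) + 1 / (u ^ 4 * x ^ 3) *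
          (2 ^ j₁ : ℕ) * (2 ^ j' : ℕ) + ℬ.card * (q * rn * e : ℕ) *
          (1 + |γ| / ((2 ^ j₁ : ℕ) * (2 ^ j' : ℕ) * (q * rn * e : ℕ))))) := by gcongr
      _ = (𝒜.card * ℬ.card) * (16 * u ^ 4 * (Cb * (P + 1 / (u ^ 4 * x ^ 3) * P * P' +
          ℬ.card * (q * rn * e : ℕ) *
          (1 + |γ| / ((2 ^ j₁ : ℕ) * (2 ^ j' : ℕ) * (q * rn * e : ℕ)))))) := by
          rw [hP, hP']; push_cast; ring
      _ ≤ (𝒜.card * ℬ.card) * (𝒜.card * ℬ.card) := by gcongr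
      _ = _ := by ring
  have hid := alpha_id (h := h) (v := v) hP0 hP0' hq hrc hrn he hΩ
    (fun a ha => (hpa a ha).1.pos) (fun a ha => (hpb a ha).1.pos)
  rw [hid, ← hγ, ← hS, norm_mul, Complex.norm_real, Real.norm_eq_abs, abs_of_pos (by positivity)]
  calc x ^ (2 * κ) * (1 / (rc * rn * P * P') * ‖S‖)
      = (4 * u ^ 2 * ‖S‖) / (4 * (rc * rn * P * P')) := by rw [hu]; field_simp; ring
    _ ≤ (𝒜.card * ℬ.card) / (4 * (rc * rn * P * P')) := by gcongr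
    _ = 𝒜.card / (2 * P) * (ℬ.card / (2 * P')) / (rc * rn) := by field_simp; ring
    _ ≤ _ := by
      gcongr
      · exact sig_nonneg _
      · exact le_sig h𝒜
      · exact le_sig hℬ

end Vale.Agent.P013
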