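import Vale.Agent.P013.SWb

/-! The concurrent case with small height: upper bound, transfer, conclusion.

Proof plan. `ideal_upper`: `fund_lemma` (upper bound) with `w = p^(1/(2 s₀))`, `P` the primes
`≤ w`, `g l = 1/l`, `A = {v < y | m ∣ c₀ + q v ∧ r ∣ N + v}`, `X = y/(m r) ≥ p^1.5`, remainder `1`
(the conditions `m ∣ c₀ + q v`, `r e ∣ N + v` define one class mod `m r e`; `Int.Ico_filter_modEq_card`
or `Nat.count_modEq_card`), `Vp_le`. `ideal_eq_sift`: `q (N + v) = (q N - c₀) + (c₀ + q v)`.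
`sw_case`: `∑_𝒜 sift = ∑_𝒜 ideal ≥ ∑_box ideal - |box \ 𝒜| C' y/(2^j m r log p)`; every
`n ∈ box j` exceeds `p^C ≥ q r` for `j` large (`p^C ≤ j^(B C) < 2^j`); `box_card` gives
`|box j| ≤ 2 2^j/j`; take `c₁ = c/(4 C')`. -/

open Finset

namespace Vale.Agent.P013

theorem swc_count (y : ℕ) {M : ℕ} (hM : 0 < M) (a : ℤ) :
    |(((range y).filter fun v : ℕ => (M : ℤ) ∣ v - a).card : ℝ) - y / M| ≤ 1 := by
  have h0 : (0 : ℚ) < M := by exact_mod_cast hM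
  have h1 := Int.Ico_filter_modEq_card (a := 0) (b := y) (r := M) (by exact_mod_cast hM) a
  have h2 : ((range y).filter fun v : ℕ => (M : ℤ) ∣ v - a).card =
      ((Ico (0 : ℤ) y).filter (· ≡ a [ZMOD M])).card := card_nbij' (↑) Int.toNat
    (fun v hv => by simpa [Int.modEq_iff_dvd, dvd_sub_comm] using hv)
    (fun v hv => by
      simp only [coe_filter, mem_Ico, Set.mem_ofPred_eq, mem_range, Int.modEq_iff_dvd] at hv ⊢
      rw [Int.toNat_of_nonneg hv.1.1, dvd_sub_comm]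
      exact ⟨by omega, hv.2⟩)
    (fun v _ => by simp) fun v hv => Int.toNat_of_nonneg (mem_Ico.1 (mem_filter.1 hv).1).1
  have h3 : |((((Ico (0 : ℤ) y).filter (· ≡ a [ZMOD M])).card : ℤ) : ℚ) - y / M| ≤ 1 := by
    rw [h1, max_eq_left (sub_nonneg.2 (Int.ceil_mono (by gcongr; positivity)))]
    push_cast
    have := Int.le_ceil ((y - a : ℚ) / M)
    have := Int.ceil_lt_add_one ((y - a : ℚ) / M)
    have := Int.le_ceil ((0 - a : ℚ) / M)
    have := Int.ceil_lt_add_one ((0 - a : ℚ) / M)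
    have : (y - a : ℚ) / M = y / M + (0 - a) / M := by ring
    rw [abs_le]
    constructor <;> linarith
  rw [h2]
  simpa using (Rat.cast_le (K := ℝ)).2 h3

theorem swc_mul_dvd {a b : ℕ} (h : a.Coprime b) {n : ℤ} :
    ((a * b : ℕ) : ℤ) ∣ n ↔ (a : ℤ) ∣ n ∧ (b : ℤ) ∣ n := by
  rw [Nat.cast_mul]
  exact ⟨fun h => ⟨dvd_of_mul_right_dvd h, dvd_of_mul_left_dvd h⟩,
    fun h' => (Nat.isCoprime_iff_coprime.2 h).mul_dvd h'.1 h'.2⟩

theorem swc_dvd_mul {a b : ℕ} (h : a.Coprime b) {n : ℤ} : (a : ℤ) ∣ b * n ↔ (a : ℤ) ∣ n :=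
  ⟨(Nat.isCoprime_iff_coprime.2 h).dvd_of_dvd_mul_left, fun h => h.mul_left _⟩

theorem swc_class {m q M : ℕ} (hq : m.Coprime q) (hM : m.Coprime M) (N c₀ : ℤ) : ∃ a : ℤ,
    ∀ v : ℤ, ((m : ℤ) ∣ c₀ + q * v ∧ (M : ℤ) ∣ N + v) ↔ ((m * M : ℕ) : ℤ) ∣ v - a := by
  obtain ⟨u, w, h⟩ := Nat.isCoprime_iff_coprime.2 (hq.mul_right hM)
  push_cast at h
  refine ⟨-N - M * (w * (c₀ - q * N)), fun v => ?_⟩
  rw [swc_mul_dvd hM, ← swc_dvd_mul hq (n := v - _),
    show q * (v - (-N - M * (w * (c₀ - q * N)))) = c₀ + q * v - m * (u * (c₀ - q * N)) by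
      linear_combination (c₀ - q * N) * h,
    show v - (-N - M * (w * (c₀ - q * N))) = N + v + M * (w * (c₀ - q * N)) by ring,
    dvd_sub_left (dvd_mul_right _ _), dvd_add_left (dvd_mul_right _ _)]

theorem ideal_upper : ∃ (C : ℝ) (p₀ : ℕ), 0 < C ∧ ∀ (N c₀ : ℤ) (y p q r m : ℕ), p₀ ≤ p →
    1 ≤ r → 1 ≤ m → Nat.Coprime m q → Nat.Coprime m r →
    (∀ l : ℕ, l.Prime → l ∣ m * r → p ≤ l) → (m * r) ^ 2 * p ^ 3 ≤ y ^ 2 →
    (ideal N c₀ y q r m p : ℝ) ≤ C * y / (m * r * Real.log p) := by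
  obtain ⟨s₀, hs, H⟩ := fund_lemma
  refine ⟨2 * s₀ + 2, 2 ^ s₀, by positivity, fun N c₀ y p q r m hp hr hm hq hmr hl hy => ?_⟩
  have p2 : 2 ≤ p := (Nat.le_self_pow (by omega) 2).trans hp
  have p0 : (0 : ℝ) < p := by positivity
  have l0 : 0 < Real.log p := Real.log_pos (by exact_mod_cast p2)
  obtain ⟨w, hw, w0⟩ : ∃ w : ℝ, w ^ s₀ = p ∧ 0 ≤ w :=
    ⟨p ^ (s₀ : ℝ)⁻¹, Real.rpow_inv_natCast_pow p0.le (by omega), by positivity⟩
  have w2 : 2 ≤ w := le_of_pow_le_pow_left₀ (by omega : s₀ ≠ 0) w0 (by rw [hw]; exact_mod_cast hp)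
  have hP : ∀ l ∈ ⌈w⌉₊.primesBelow, l.Prime ∧ (l : ℝ) < w := fun l h =>
    ⟨Nat.prime_of_mem_primesBelow h, Nat.lt_ceil.1 (Nat.lt_of_mem_primesBelow h)⟩
  have hP' : ∀ l ∈ ⌈w⌉₊.primesBelow, l < p := fun l h => by
    exact_mod_cast (hP l h).2.trans_le (hw ▸ le_self_pow₀ (by linarith) (by omega))
  have X0 : (0 : ℝ) < m * r := by positivity
  have h := (H w _ (fun l => 1 / l) w2 (fun l h => ⟨(hP l h).1, (hP l h).2.le⟩)
    (fun l h => ⟨by positivity, one_div_le_one_div_of_le two_pos (by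
      exact_mod_cast (hP l h).1.two_le), by gcongr; norm_num⟩)
    ((range y).filter fun v : ℕ => (m : ℤ) ∣ c₀ + q * v ∧ (r : ℤ) ∣ N + v) (fun _ => 1)
    (fun l v => (l : ℤ) ∣ N + v) (y / (m * r)) 1 (by positivity) (fun _ _ => zero_le_one)
    fun s h _ => by
      have h1 : ∀ l ∈ s, l.Prime := fun l a => (hP l (h a)).1
      have h2 : (m * r).Coprime (pr s) := Nat.coprime_of_dvd fun l a b c =>
        (hl l a b).not_gt (hP' l (h ((prime_dvd_pr h1 a).1 c)))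
      obtain ⟨a, ha⟩ := swc_class (M := r * pr s) hq
        (hmr.mul_right (Nat.Coprime.coprime_mul_right h2)) N c₀
      have h3 := swc_count y (M := m * (r * pr s)) (by have := pr_pos h1; positivity) a
      simp only [← ha, swc_mul_dvd (Nat.Coprime.coprime_mul_left h2), pr_dvd_iff h1] at h3
      rw [filter_filter, sum_const, prod_div_distrib, ← pr_cast, div_mul_div_comm]
      simpa [and_assoc, mul_assoc] using h3).2
  rw [sum_const, nsmul_one, filter_filter] at h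
  have h2 : Vp ⌈w⌉₊ ≤ s₀ / Real.log p := by
    refine (Vp_le (by exact_mod_cast w2.trans (Nat.le_ceil w))).trans ?_
    rw [← hw, Real.log_pow, div_mul_cancel_left₀ (by positivity), one_div]
    exact inv_anti₀ (Real.log_pos (by linarith)) (Real.log_le_log (by linarith) (Nat.le_ceil w))
  have h3 : m * r * Real.log p * p ≤ 2 * y := by
    have a : Real.log p ≤ 2 * √p := by
      have := Real.log_le_sub_one_of_pos (Real.sqrt_pos.2 p0)
      rw [Real.log_sqrt p0.le] at this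
      linarith
    have b : m * r * √p * p ≤ y := le_of_pow_le_pow_left₀ two_ne_zero (by positivity) (by
      rw [mul_pow, mul_pow, Real.sq_sqrt p0.le, mul_assoc, ← pow_succ']
      exact_mod_cast hy)
    nlinarith [mul_le_mul_of_nonneg_left a (mul_pos X0 p0).le]
  refine (Nat.cast_le.2 (card_le_card fun v hv => ?_)).trans (h.trans ?_)
  · simp only [mem_filter] at hv ⊢
    exact ⟨hv.1, ⟨hv.2.1, hv.2.2.1⟩, fun l a =>
      hv.2.2.2 l (Nat.mem_primesBelow.2 ⟨hP' l a, (hP l a).1⟩)⟩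
  rw [hw, mul_one, add_mul, add_div]
  refine add_le_add ((mul_le_mul_of_nonneg_left h2 (by positivity)).trans_eq (by field_simp)) ?_
  rw [le_div_iff₀' (by positivity)]
  exact h3

theorem ideal_eq_sift {N c₀ : ℤ} {y p q r m : ℕ} (hm : (m : ℤ) ∣ q * N - c₀)
    (hq : Nat.Coprime m q) (hr : Nat.Coprime m r) :
    ideal N c₀ y q r m p = sift N y (m * r) p := by
  refine congrArg card (filter_congr fun v _ => ?_)
  rw [swc_mul_dvd hr, ← swc_dvd_mul hq (n := N + v), and_assoc,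
    show (q : ℤ) * (N + v) = q * N - c₀ + (c₀ + q * v) by ring, dvd_add_right hm]

theorem sw_case (C : ℕ) : ∃ (c c₁ : ℝ) (p₀ : ℕ), 0 < c ∧ 0 < c₁ ∧ ∀ B : ℕ, ∃ j₀ : ℕ,
    ∀ (N c₀ : ℤ) (y p q r m j : ℕ) (𝒜 : Finset ℕ), j₀ ≤ j → p₀ ≤ p → p ≤ j ^ B → 1 ≤ q →
    1 ≤ r → 1 ≤ m → IsCoprime (q * N - c₀) ((q * r : ℕ) : ℤ) → (m : ℤ) ∣ q * N - c₀ →
    (∀ l : ℕ, l.Prime → l ∣ m * r → p ≤ l) → q * r ≤ p ^ C → |c₀| ≤ p ^ C * q * y →
    (m * r * 2 ^ (j + 1)) ^ 2 * p ^ 3 ≤ y ^ 2 → y ≤ m * r * 2 ^ j * p ^ 2 →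
    𝒜 ⊆ box j → (∀ n ∈ 𝒜, (n : ℤ) ∣ q * N - c₀ ∧ ¬ n ∣ m) →
    ((box j \ 𝒜).card : ℝ) ≤ c₁ * (box j).card →
    c * y / Real.log p * ∑ n ∈ box j, 1 / ((n * m * r : ℕ) : ℝ) ≤
      ∑ n ∈ 𝒜, (sift N y (n * m * r) p : ℝ) := by
  obtain ⟨c, p₀, hc, H⟩ := ideal_lower C
  obtain ⟨C', p₁, hC', H'⟩ := ideal_upper
  obtain ⟨j₁, hj₁, hb⟩ := box_card
  refine ⟨c / 4, c / (4 * C'), max (max p₀ p₁) 2, by positivity, by positivity, fun B => ?_⟩
  obtain ⟨j₀, H⟩ := H B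
  obtain ⟨j₂, hj₂⟩ := Filter.eventually_atTop.1 ((tendsto_pow_const_div_const_pow_of_one_lt
    (B * (C + 1)) one_lt_two).eventually (gt_mem_nhds one_pos))
  refine ⟨max (max j₀ j₁) j₂, fun N c₀ y p q r m j 𝒜 hj hp hpB hq hr hm h1 h2 h3 h4 h5 h6 h7 h8
    h9 h10 => ?_⟩
  simp only [max_le_iff] at hj hp
  have l0 : 0 < Real.log p := Real.log_pos (by exact_mod_cast hp.2)
  have j0 : (0 : ℝ) < j := by exact_mod_cast hj₁.trans hj.1.2
  have a1 : p ^ (C + 1) < 2 ^ j := by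
    refine (Nat.pow_le_pow_left hpB _).trans_lt ?_
    have := hj₂ j hj.2
    rw [div_lt_one (by positivity), pow_mul] at this
    exact_mod_cast this
  have a2 : ∀ k : ℕ, (k : ℤ) ∣ q * N - c₀ → k.Coprime q ∧ k.Coprime r := fun k hk =>
    Nat.coprime_mul_iff_right.1 (Nat.isCoprime_iff_coprime.1 (h1.of_isCoprime_of_dvd_left hk))
  have a3 : ∑ n ∈ 𝒜, (sift N y (n * m * r) p : ℝ) = ∑ n ∈ 𝒜, (ideal N c₀ y q r (n * m) p : ℝ) :=
    sum_congr rfl fun n hn => by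
      have := (swc_mul_dvd ((Nat.Prime.coprime_iff_not_dvd (mem_box.1 (h8 hn)).1).2
        (h9 n hn).2)).2 ⟨(h9 n hn).1, h2⟩
      rw [ideal_eq_sift this (a2 _ this).1 (a2 _ this).2]
  have a4 : ∀ n ∈ box j \ 𝒜, (ideal N c₀ y q r (n * m) p : ℝ) ≤
      C' * y / (2 ^ j * m * r * Real.log p) := fun n hn => by
    obtain ⟨b1, b2, b3⟩ := mem_box.1 (mem_sdiff.1 hn).1
    have b4 : q * r < n := h4.trans_lt ((Nat.pow_le_pow_right (by omega) C.le_succ).trans_lt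
      (a1.trans_le b2))
    have b5 := Nat.coprime_mul_iff_right.1 (Nat.coprime_of_lt_prime (by positivity) b4 b1)
    refine (H' N c₀ y p q r (n * m) hp.1.2 hr (Nat.mul_pos b1.pos hm) (b5.1.mul_left (a2 m h2).1)
      (b5.2.mul_left (a2 m h2).2) (fun l a b => ?_) (le_trans ?_ h6)).trans ?_
    · rw [mul_assoc, a.dvd_mul, Nat.prime_dvd_prime_iff_eq a b1] at b
      exact b.elim (fun e => e ▸ ((Nat.le_self_pow (by omega) p).trans a1.le).trans b2) (h3 l a)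
    · rw [mul_assoc n, mul_comm n]
      gcongr
    · push_cast
      gcongr
      exact_mod_cast b2
  have a5 : ∑ n ∈ box j, 1 / ((n * m * r : ℕ) : ℝ) ≤ (box j).card * (1 / (2 ^ j * m * r)) := by
    rw [← nsmul_eq_mul]
    refine sum_le_card_nsmul _ _ _ fun n hn => ?_
    push_cast
    gcongr
    exact_mod_cast (mem_box.1 hn).2.1
  have a6 := H N c₀ y p q r m j hj.1.1 hp.1.1 hpB hq hr hm h1 h2 h3 h4 h5 h6 h7
  have a7 := (sum_le_card_nsmul _ _ _ a4).trans ((nsmul_eq_mul _ _).trans_le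
    (mul_le_mul_of_nonneg_right (h10.trans (mul_le_mul_of_nonneg_left (hb j hj.1.2).2
      (by positivity))) (by positivity)))
  rw [← sum_sdiff h8] at a6
  rw [a3]
  refine (mul_le_mul_of_nonneg_left (a5.trans (mul_le_mul_of_nonneg_right (hb j hj.1.2).2
    (by positivity))) (by positivity)).trans (le_trans (le_of_eq ?_)
      (sub_le_iff_le_add'.2 (a6.trans (add_le_add a7 le_rfl))))
  field_simp
  ring

end Vale.Agent.P013
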