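import Vale.Agent.P013.PropGB
import Vale.Agent.P013.SWc
import Vale.Agent.P013.InvD

/-! The concurrent case, and the extraction of a rational point from a biased family. -/

open Finset

namespace Vale.Agent.P013

theorem step3 : ∃ (C p₀ : ℕ) (c c₁ : ℝ), 0 < c ∧ 0 < c₁ ∧ c₁ ≤ 1 / 2 ∧ 2 ≤ C ∧ ∀ B : ℕ, ∃ j₀ : ℕ,
    ∀ (N c₀ : ℤ) (y p q j₁ j' E : ℕ) (S 𝒜 ℬ : Finset ℕ), j₀ ≤ j₁ → p₀ ≤ p → p ≤ j₁ ^ B →
    p ^ C ≤ E → p ^ C ≤ 2 ^ j' → E ^ 14 ≤ 2 ^ j₁ → j₁ ≤ 2 * p → j' < p → 1 ≤ q → q ≤ E ^ 2 →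
    IsCoprime c₀ (q : ℤ) → |c₀| ≤ 2 * y * E ^ 4 * q → (∀ l ∈ S, l.Prime ∧ p ≤ l) →
    pr (S.filter fun l : ℕ => ¬ (l : ℤ) ∣ q * N - c₀) ≤ E ^ 4 → 𝒜 ⊆ box j₁ → ℬ ⊆ box j' →
    j₁ ≠ j' → (∀ a ∈ 𝒜, a ∉ S ∧ (a : ℤ) ∣ q * N - c₀) → (∀ b ∈ ℬ, b ∉ S ∧ (b : ℤ) ∣ q * N - c₀) →
    ((box j₁ \ 𝒜).card : ℝ) ≤ c₁ * (box j₁).card → 2 ^ j₁ ≤ j₁ * (box j₁).card →
    2 ^ j' ≤ 4 * j' * ℬ.card → (pr S * 2 ^ (j₁ + 1) * 2 ^ (j' + 1)) ^ 2 * p ^ 3 ≤ y ^ 2 →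
    y ≤ pr S * 2 ^ j₁ * 2 ^ j' * p ^ 2 →
    c * y / Real.log p * (sig 𝒜 * sig ℬ / pr S) ≤
      ∑ a ∈ 𝒜, ∑ b ∈ ℬ, (sift N y (pr S * a * b) p : ℝ) := by
  obtain ⟨C, pA, cA, hcA, hC, hA⟩ := stepAlpha
  obtain ⟨cS, c₁, pS, hcS, hc₁, hS⟩ := sw_case C
  refine ⟨C, max (max pA pS) 2, min cA cS, min c₁ (1 / 2), lt_min hcA hcS,
    lt_min hc₁ (by norm_num), min_le_right _ _, hC, fun B => ?_⟩
  obtain ⟨j₀, hS⟩ := hS B
  refine ⟨j₀, ?_⟩
  intro N c₀ y p q j₁ j' E S 𝒜 ℬ hj hp hpB hE hj' hE14 hj1 hj'p hq hqE hco hc₀ hSp hn h𝒜 hℬ hne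
    ha hb hcard hbox hB hy1 hy2
  have hp2 : 2 ≤ p := le_trans (le_max_right _ _) hp
  have hpA : pA ≤ p := le_trans (le_trans (le_max_left _ _) (le_max_left _ _)) hp
  have hpS : pS ≤ p := le_trans (le_trans (le_max_right _ _) (le_max_left _ _)) hp
  set Sc := S.filter fun l : ℕ => (l : ℤ) ∣ q * N - c₀ with hSc
  set Sn := S.filter fun l : ℕ => ¬ (l : ℤ) ∣ q * N - c₀ with hSn
  have hScp : ∀ l ∈ Sc, l.Prime := fun l hl => (hSp l (mem_filter.1 hl).1).1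
  have hSnp : ∀ l ∈ Sn, l.Prime := fun l hl => (hSp l (mem_filter.1 hl).1).1
  have hsplit : pr S = pr Sc * pr Sn := (prod_filter_mul_prod_filter_not S _ _).symm
  have hcoΩ : IsCoprime (q * N - c₀) ((q * pr Sn : ℕ) : ℤ) := by
    push_cast
    refine IsCoprime.mul_right ?_ ?_
    · have := (hco.neg_left.add_mul_left_left N)
      rwa [show -c₀ + q * N = q * N - c₀ by ring] at this
    · rw [pr, Nat.cast_prod]
      refine IsCoprime.prod_right fun l hl => ?_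
      exact ((Int.prime_iff_natAbs_prime.2 (by simpa using hSnp l hl)).irreducible.coprime_iff_not_dvd.2
        (mem_filter.1 hl).2).symm
  have hl : ∀ l : ℕ, l.Prime → l ∣ pr Sc * pr Sn → p ≤ l := fun l h1 h2 => by
    rw [← hsplit, prime_dvd_pr (fun l hl => (hSp l hl).1) h1] at h2
    exact (hSp l h2).2
  have hab : ∀ a ∈ 𝒜, ∀ b ∈ ℬ, a ≠ b := fun a h1 b h2 h => by
    have h3 := (mem_box'.1 (h𝒜 h1)).2
    rw [h, (mem_box'.1 (hℬ h2)).2] at h3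
    exact hne h3.symm
  have hbc : ∀ b ∈ ℬ, ((b * pr Sc : ℕ) : ℤ) ∣ q * N - c₀ := fun b h2 => by
    rw [← pr_insert (fun h => (hb b h2).1 (mem_filter.1 h).1), pr_dvd_iff]
    · intro l hl
      rcases mem_insert.1 hl with rfl | hl
      · exact (hb l h2).2
      · exact (mem_filter.1 hl).2
    · intro l hl
      rcases mem_insert.1 hl with rfl | hl
      · exact (mem_box.1 (hℬ h2)).1
      · exact hScp l hl
  have hnd : ∀ a ∈ 𝒜, ∀ b ∈ ℬ, ¬ a ∣ b * pr Sc := fun a h1 b h2 h => by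
    have a1 := (mem_box.1 (h𝒜 h1)).1
    rcases (Nat.Prime.dvd_mul a1).1 h with h | h
    · exact hab a h1 b h2 ((Nat.prime_dvd_prime_iff_eq a1 (mem_box.1 (hℬ h2)).1).1 h)
    · exact (ha a h1).1 (mem_filter.1 ((prime_dvd_pr hScp a1).1 h)).1
  have hlog : 0 < Real.log p := Real.log_pos (by exact_mod_cast hp2)
  have hmono : ∀ c' : ℝ, min cA cS ≤ c' → min cA cS * y / Real.log p * (sig 𝒜 * sig ℬ / pr S) ≤
      c' * y / Real.log p * (sig 𝒜 * sig ℬ / pr S) := fun c' h => by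
    have := sig_nonneg 𝒜
    have := sig_nonneg ℬ
    gcongr
  by_cases hcase : p ^ C < q * pr Sn ∨ (p : ℤ) ^ C * q * y < |c₀|
  · refine (hmono _ (min_le_left _ _)).trans ?_
    have := hA N c₀ y p q (pr Sc) (pr Sn) j₁ j' E 𝒜 ℬ hpA hE hj' hE14 hj1 hj'p hq hqE
      (pr_pos hSnp) hn (pr_pos hScp) hc₀ hcoΩ (fun a h1 b h2 => ?_) hl h𝒜 hℬ ?_ hB ?_
      (by rw [← hsplit]; exact hy2) hcase
    · rwa [← Nat.cast_mul, ← hsplit] at this
    · have h3 : IsCoprime (a : ℤ) ((b * pr Sc : ℕ) : ℤ) := Nat.isCoprime_iff_coprime.2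
        ((Nat.Prime.coprime_iff_not_dvd (mem_box.1 (h𝒜 h1)).1).2 (hnd a h1 b h2))
      have h4 := h3.mul_dvd (ha a h1).2 (hbc b h2)
      push_cast at h4 ⊢
      rwa [show (pr Sc : ℤ) * a * b = a * (b * pr Sc) by ring]
    · have h1 : ((box j₁).card : ℝ) ≤ 2 * 𝒜.card := by
        have h2 := card_sdiff_add_card_eq_card h𝒜
        have h3 : (((box j₁ \ 𝒜).card : ℕ) : ℝ) + 𝒜.card = (box j₁).card := by exact_mod_cast h2
        have h4 : min c₁ (1 / 2) * ((box j₁).card : ℝ) ≤ 1 / 2 * (box j₁).card := by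
          gcongr; exact min_le_right _ _
        linarith
      have h2 : (box j₁).card ≤ 2 * 𝒜.card := by exact_mod_cast h1
      calc 2 ^ j₁ ≤ j₁ * (2 * 𝒜.card) := hbox.trans (Nat.mul_le_mul_left _ h2)
        _ = _ := by ring
    · rw [← hsplit]
      have h1 : 1 ≤ p ^ 3 := Nat.one_le_pow _ _ (by omega)
      exact (Nat.pow_le_pow_iff_left two_ne_zero).1
        ((Nat.le_mul_of_pos_right _ h1).trans hy1)
  · rw [not_or, not_lt, not_lt] at hcase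
    refine (hmono _ (min_le_right _ _)).trans ?_
    rw [sum_comm, sig.eq_1 ℬ, mul_sum, sum_div, mul_sum]
    refine sum_le_sum fun b h2 => ?_
    obtain ⟨b1, b2, b3⟩ := mem_box.1 (hℬ h2)
    have := hS N c₀ y p q (pr Sn) (b * pr Sc) j₁ 𝒜 hj hpS hpB hq (pr_pos hSnp)
      (Nat.mul_pos b1.pos (pr_pos hScp)) hcoΩ (hbc b h2) (fun l h3 h4 => ?_) hcase.1 hcase.2
      ?_ ?_ h𝒜 (fun a h1 => ⟨(ha a h1).2, hnd a h1 b h2⟩)
      (hcard.trans (by gcongr; exact min_le_left _ _))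
    · refine le_trans ?_ (this.trans (le_of_eq (sum_congr rfl fun a _ => ?_)))
      · gcongr
        refine le_trans ?_ (sum_le_sum_of_subset_of_nonneg h𝒜 fun _ _ _ => by positivity)
        rw [sig, sum_mul, sum_div]
        refine le_of_eq (sum_congr rfl fun a _ => ?_)
        rw [hsplit]; push_cast; ring
      · rw [hsplit]; congr 2; ring
    · rw [mul_assoc] at h4
      rcases (Nat.Prime.dvd_mul h3).1 h4 with h | h
      · rw [(Nat.prime_dvd_prime_iff_eq h3 b1).1 h]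
        exact (Nat.le_self_pow (by omega) p).trans (hj'.trans b2)
      · exact hl l h3 h
    · refine le_trans (Nat.mul_le_mul_right _ (Nat.pow_le_pow_left ?_ 2)) hy1
      rw [hsplit]
      calc b * pr Sc * pr Sn * 2 ^ (j₁ + 1) = pr Sc * pr Sn * 2 ^ (j₁ + 1) * b := by ring
        _ ≤ _ := by gcongr
    · refine hy2.trans (Nat.mul_le_mul_right _ ?_)
      rw [hsplit]
      calc pr Sc * pr Sn * 2 ^ j₁ * 2 ^ j' ≤ pr Sc * pr Sn * 2 ^ j₁ * b := by gcongr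
        _ = _ := by ring

theorem step1 : ∃ (κ p₀ : ℕ) (c : ℝ), 0 < c ∧ ∀ B : ℕ, ∃ (R B' : ℕ) (ω₀ : ℝ), ∀ (ω : ℝ) (N : ℤ)
    (y p M j' js : ℕ) (j : Fin R → ℕ) (Q' Qs : Finset ℕ) (Q : Fin R → Finset ℕ), ω₀ ≤ ω →
    p₀ ≤ p → p ≤ ω ^ B → ω ^ 2 ≤ j' → j' ≤ ω ^ 4 → ω ^ 12 ≤ js → js ≤ ω ^ 14 →
    (∀ i, ω ^ 6 ≤ j i ∧ j i ≤ ω ^ 10) → Q' ⊆ box j' → (2 : ℝ) ^ j' ≤ ω ^ 15 * Q'.card →
    Qs ⊆ box js → (2 : ℝ) ^ js ≤ ω ^ 15 * Qs.card →
    (∀ i, Q i ⊆ box (j i) ∧ (2 : ℝ) ^ j i ≤ ω ^ 15 * (Q i).card) →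
    (∀ l : ℕ, l.Prime → l ∣ M → p ≤ l) → p ≤ 2 ^ j' → j' ≤ js → (∀ i, j' ≤ j i) →
    2 * p ^ κ < M → M * 2 ^ (j' + 1) * (∏ i, 2 ^ (j i + 1)) * 2 ^ (js + 1) ≤ y →
    p ^ κ ≤ 2 ^ (js + 1) →
    (c * y / Real.log p * ∑ b ∈ Q', ∑ u ∈ Fintype.piFinset Q, ∑ r ∈ Qs,
        1 / ((M * b * (∏ i, u i) * r : ℕ) : ℝ) ≤
      ∑ b ∈ Q', ∑ u ∈ Fintype.piFinset Q, ∑ r ∈ Qs,
        (sift N y (M * b * (∏ i, u i) * r) p : ℝ)) ∨
    ∃ (c₀ : ℤ) (q g : ℕ), 1 ≤ q ∧ 1 ≤ g ∧ q * g ≤ (2 ^ (js + 1)) ^ 2 ∧ IsCoprime c₀ (q : ℤ) ∧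
      |c₀| ≤ 2 * y * (2 ^ (js + 1)) ^ 4 * q ∧ (M : ℤ) ∣ g * (q * N - c₀) ∧
      (Q'.card : ℝ) ≤ ω ^ B' * (Q'.filter fun b : ℕ => (b : ℤ) ∣ g * (q * N - c₀)).card := by
  obtain ⟨κ, pF, cF, hcF, hF⟩ := fourier_sieve
  refine ⟨κ, max pF 2, cF, hcF, fun B => ?_⟩
  obtain ⟨R, ω₀, hI⟩ := inverse_thm (2 * κ * B + 15)
  refine ⟨R, 6 * (2 * κ * B + 15) + 1, max ω₀ 1, ?_⟩
  intro ω N y p M j' js j Q' Qs Q hω hp hpB h1 h2 h3 h4 h5 hQ' hQ'c hQs hQsc hQ hM hpj hjs hji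
    hM2 hy hκ
  have hω1 : 1 ≤ ω := le_trans (le_max_right _ _) hω
  have hp2 : 2 ≤ p := le_trans (le_max_right _ _) hp
  have hw : ω ^ 15 ≤ ω ^ (2 * κ * B + 15) := pow_le_pow_right₀ hω1 (by omega)
  have hM0 : 0 < M := by omega
  rw [or_iff_not_imp_right]
  intro hno
  have key := hF N y p (Q' ×ˢ (Fintype.piFinset Q ×ˢ Qs))
    (fun i => M * i.1 * (∏ k, i.2.1 k) * i.2.2) (le_trans (le_max_left _ _) hp) ?_ ?_
  · simpa only [sum_product] using key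
  · rintro ⟨b, u, r⟩ hi
    obtain ⟨hb, hi⟩ := mem_product.1 hi
    obtain ⟨hu, hr⟩ := mem_product.1 hi
    obtain ⟨b1, b2, b3⟩ := mem_box.1 (hQ' hb)
    obtain ⟨r1, r2, r3⟩ := mem_box.1 (hQs hr)
    have u1 : ∀ k, _ := fun k => mem_box.1 ((hQ k).1 (Fintype.mem_piFinset.1 hu k))
    dsimp only at *
    refine ⟨?_, ?_, fun l hl' hd => ?_⟩
    · calc 2 * p ^ κ < M * 1 * 1 * 1 := by omega
        _ ≤ _ := by
          gcongr
          · exact b1.pos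
          · exact prod_pos fun k _ => (u1 k).1.pos
          · exact r1.pos
    · refine le_trans ?_ hy
      gcongr with k
      exact (u1 k).2.2.le
    · have hl1 := Nat.mem_primesBelow.1 hl'
      rcases (Nat.Prime.dvd_mul hl1.2).1 hd with h | h
      · rcases (Nat.Prime.dvd_mul hl1.2).1 h with h | h
        · rcases (Nat.Prime.dvd_mul hl1.2).1 h with h | h
          · have := hM l hl1.2 h; omega
          · have := (Nat.prime_dvd_prime_iff_eq hl1.2 b1).1 h; omega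
        · obtain ⟨k, -, hk⟩ := (Prime.dvd_finset_prod_iff hl1.2.prime _).1 h
          have := (Nat.prime_dvd_prime_iff_eq hl1.2 (u1 k).1).1 hk
          have := (u1 k).2.1
          have := Nat.pow_le_pow_right (show 0 < 2 by norm_num) (hji k)
          omega
      · have := (Nat.prime_dvd_prime_iff_eq hl1.2 r1).1 h
        have := Nat.pow_le_pow_right (show 0 < 2 by norm_num) hjs
        omega
  clear hF
  intro e h v he heκ hel hh hhκ hv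
  by_contra hbias
  apply hno
  rw [not_le] at hbias
  simp only [sum_product] at hbias
  have hMr : (0 : ℝ) < M := by exact_mod_cast hM0
  obtain ⟨q, x, hq1, hq2, hx, hd, hc⟩ := hI ω j' js j Q' Qs Q (le_trans (le_max_left _ _) hω)
    h1 h2 h3 h4 h5 hQ' (hQ'c.trans (by gcongr)) hQs (hQsc.trans (by gcongr))
    (fun i => ⟨(hQ i).1, (hQ i).2.trans (by gcongr)⟩) (h * (N + v)) (M * e)
    (Nat.mul_pos hM0 he) (by
      have e1 : ∑ b ∈ Q', ∑ u ∈ Fintype.piFinset Q, ∑ r ∈ Qs,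
          1 / ((b * (∏ i, u i) * r : ℕ) : ℝ) = M * ∑ b ∈ Q', ∑ u ∈ Fintype.piFinset Q, ∑ r ∈ Qs,
          1 / ((M * b * (∏ i, u i) * r : ℕ) : ℝ) := by
        simp only [mul_sum]
        refine sum_congr rfl fun b _ => sum_congr rfl fun u _ => sum_congr rfl fun r _ => ?_
        rw [mul_assoc M, mul_assoc M, Nat.cast_mul M]
        field_simp
      have e2 : ∑ b ∈ Q', ∑ u ∈ Fintype.piFinset Q, ∑ r ∈ Qs,
          ex ((h * (N + v) : ℤ) / ((M * e * b * (∏ i, u i) * r : ℕ) : ℝ)) /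
            ((b * (∏ i, u i) * r : ℕ) : ℂ) = M * ∑ b ∈ Q', ∑ u ∈ Fintype.piFinset Q, ∑ r ∈ Qs,
          ex ((h * (N + v) : ℤ) / ((M * b * (∏ i, u i) * r * e : ℕ) : ℝ)) /
            ((M * b * (∏ i, u i) * r : ℕ) : ℂ) := by
        simp only [mul_sum]
        refine sum_congr rfl fun b _ => sum_congr rfl fun u _ => sum_congr rfl fun r _ => ?_
        have : (M : ℂ) ≠ 0 := by exact_mod_cast hM0.ne'
        rw [show M * e * b * (∏ i, u i) * r = M * b * (∏ i, u i) * r * e by ring,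
          show M * b * (∏ i, u i) * r = M * (b * (∏ i, u i) * r) by ring, Nat.cast_mul M]
        field_simp
      rw [e1, e2, norm_mul, Complex.norm_natCast, mul_left_comm]
      gcongr
      refine hbias.le.trans ?_
      gcongr
      calc (p : ℝ) ^ (2 * κ) ≤ (ω ^ B) ^ (2 * κ) := by gcongr
        _ = ω ^ (2 * κ * B) := by rw [← pow_mul, mul_comm]
        _ ≤ _ := pow_le_pow_right₀ hω1 (by omega))
  clear hI hbias
  set E := 2 ^ (js + 1) with hE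
  have hqh : (q : ℤ) * h ≠ 0 := mul_ne_zero (by exact_mod_cast (by omega : q ≠ 0)) hh
  obtain ⟨c₀, q₀, g, g1, g2, g3, g4, g5, g6⟩ := reduce_point hqh (x - q * h * v) N
  have hid : (q : ℤ) * (h * (N + v)) - x = q * h * N - (x - q * h * v) := by ring
  have hhE : |h| ≤ E := hhκ.trans (by exact_mod_cast hκ)
  refine ⟨c₀, q₀, g, g1, g2, ?_, g4, ?_, g6 _ ?_, hc.trans ?_⟩
  · have : ((q₀ * g : ℕ) : ℤ) ≤ (E ^ 2 : ℕ) := by
      push_cast
      rw [g3, abs_mul, Nat.abs_cast, sq]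
      gcongr
    exact_mod_cast this
  · have hMy : M ≤ y := le_trans (by
      calc M = M * 1 * 1 * 1 := by ring
        _ ≤ _ := by
          gcongr
          · exact Nat.one_le_two_pow
          · exact Nat.one_le_iff_ne_zero.2 (by positivity)
          · exact Nat.one_le_two_pow) hy
    have a1 : M * e * 2 ^ (j' + 2 * js + 3) ≤ y * E ^ 4 := by
      calc M * e * 2 ^ (j' + 2 * js + 3) ≤ y * E * 2 ^ ((js + 1) * 3) := by
            gcongr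
            · exact heκ.trans hκ
            · norm_num
            · omega
        _ = _ := by rw [pow_mul, ← hE]; ring
    have a2 : |x| ≤ y * E ^ 4 := hx.trans (by exact_mod_cast a1)
    have a3 : (1 : ℤ) ≤ q₀ * g := by exact_mod_cast Nat.mul_pos g1 g2
    have a4 : (1 : ℤ) ≤ E ^ 4 := by exact_mod_cast Nat.one_le_pow 4 E (by positivity)
    have a5 : |x - q * h * v| ≤ y * E ^ 4 + q₀ * g * y := by
      refine (abs_sub _ _).trans ?_
      rw [abs_mul, ← g3, Nat.abs_cast]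
      gcongr
    have a6 : (0 : ℤ) ≤ y := by positivity
    have a7 : (y : ℤ) * E ^ 4 * 1 ≤ y * E ^ 4 * (q₀ * g) := by gcongr
    have a8 : (q₀ : ℤ) * g * y * 1 ≤ q₀ * g * y * E ^ 4 := by gcongr
    refine le_of_mul_le_mul_right ?_ (show (0 : ℤ) < g by exact_mod_cast g2)
    rw [g5]
    have : ((2 : ℤ) ^ (js + 1)) = E := by rw [hE]; push_cast; rfl
    rw [this]
    nlinarith
  · rw [← hid]
    exact Dvd.dvd.trans (by push_cast; exact dvd_mul_right _ _) hd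
  · gcongr
    exact g6 _ (by rw [hid])

end Vale.Agent.P013
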