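import Vale.Agent.P013.PropGC
import Vale.Agent.P013.Family

/-! The list of rational points attached to a family. -/

open Finset

namespace Vale.Agent.P013

/-- The prime `n` passes through the rational point `τ.1 / τ.2`. -/
def onP (N : ℤ) (τ : ℤ × ℕ) (n : ℕ) : Prop := (n : ℤ) ∣ τ.2 * N - τ.1

open Classical in
/-- The rational points of small height lying on many primes of `Q`. -/
def pts (N : ℤ) (y E : ℕ) (θ : ℝ) (m Q : Finset ℕ) : Set (ℤ × ℕ) :=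
  {τ | 1 ≤ τ.2 ∧ τ.2 ≤ E ^ 2 ∧ IsCoprime τ.1 (τ.2 : ℤ) ∧ |τ.1| ≤ 2 * y * E ^ 4 * τ.2 ∧
    pr (m.filter fun l => ¬ onP N τ l) ≤ E ^ 2 ∧ θ * Q.card ≤ (Q.filter (onP N τ)).card}

open Classical in
theorem pts_common {N : ℤ} {y E : ℕ} {θ : ℝ} {m Q : Finset ℕ} {τ τ' : ℤ × ℕ}
    (h : τ ∈ pts N y E θ m Q) (h' : τ' ∈ pts N y E θ m Q) (hne : τ ≠ τ') (hE : 4 * E ^ 8 ≤ y)
    {X : Finset ℕ} (hX : ∀ l ∈ X, l.Prime) :
    ((X.filter fun x => onP N τ x ∧ onP N τ' x).card : ℝ) ≤ 3 * Real.log y := by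
  obtain ⟨c, q⟩ := τ
  obtain ⟨c', q'⟩ := τ'
  obtain ⟨a1, a2, a3, a4, -⟩ := h
  obtain ⟨b1, b2, b3, b4, -⟩ := h'
  dsimp only at *
  have hp : ∀ l ∈ X.filter fun x => onP N (c, q) x ∧ onP N (c', q') x, l.Prime :=
    fun l hl => hX l (mem_filter.1 hl).1
  refine card_le_log hp ?_
  have hΔ : c * q' - c' * q ≠ 0 := fun h0 => hne (point_eq a1 b1 a3 b3 (by linarith))
  have h1 := pr_le_of_dvd hp hΔ fun l hl => by
    obtain ⟨d1, d2⟩ := (mem_filter.1 hl).2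
    have : c * q' - c' * q = q * (q' * N - c') - q' * (q * N - c) := by ring
    rw [this]
    exact (Dvd.dvd.mul_left d2 _).sub (Dvd.dvd.mul_left d1 _)
  have a2' : (q : ℤ) ≤ E ^ 2 := by exact_mod_cast a2
  have b2' : (q' : ℤ) ≤ E ^ 2 := by exact_mod_cast b2
  have hE' : (4 : ℤ) * E ^ 8 ≤ y := by exact_mod_cast hE
  have h2 : |c * q' - c' * q| ≤ (y : ℤ) ^ 2 := by
    calc |c * q' - c' * q| ≤ |c| * q' + |c'| * q := by
          refine (abs_sub _ _).trans ?_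
          rw [abs_mul, abs_mul, Nat.abs_cast, Nat.abs_cast]
      _ ≤ (2 * y * E ^ 4 * E ^ 2) * E ^ 2 + (2 * y * E ^ 4 * E ^ 2) * E ^ 2 := by
          gcongr
          · exact a4.trans (by gcongr)
          · exact b4.trans (by gcongr)
      _ = y * (4 * E ^ 8) := by ring
      _ ≤ y * y := by gcongr
      _ = _ := by ring
  exact_mod_cast h1.trans h2

open Classical in
theorem pts_of_point {N c₀ : ℤ} {y js q g a : ℕ} {W : ℝ} {m Q Q'' : Finset ℕ} (hW : 0 < W)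
    (hm : ∀ l ∈ m, l.Prime) (hQ : ∀ l ∈ Q, l.Prime) (hsub : Q'' ⊆ Q) (ha : a.Prime)
    (haE : (2 ^ (js + 1)) ^ 2 < a) (hq : 1 ≤ q) (hg : 1 ≤ g) (hqg : q * g ≤ (2 ^ (js + 1)) ^ 2)
    (hco : IsCoprime c₀ (q : ℤ)) (hc : |c₀| ≤ 2 * y * (2 ^ (js + 1)) ^ 4 * q)
    (hM : ((pr m * a : ℕ) : ℤ) ∣ g * (q * N - c₀))
    (h1 : (Q''.card : ℝ) ≤ W * (Q''.filter fun b : ℕ => (b : ℤ) ∣ g * (q * N - c₀)).card)
    (h2 : (Q.card : ℝ) ≤ 4 * Q''.card) (h3 : 16 * W * (js + 1) ≤ Q.card) :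
    ∃ τ ∈ pts N y (2 ^ (js + 1)) (1 / (8 * W)) m Q, onP N τ a ∧ ∃ b ∈ Q'', onP N τ b := by
  have hgE : g ≤ (2 ^ (js + 1)) ^ 2 := (Nat.le_mul_of_pos_left g hq).trans hqg
  have hg0 : (g : ℤ) ≠ 0 := by exact_mod_cast (by omega : g ≠ 0)
  have hdv : ∀ l : ℕ, l.Prime → (l : ℤ) ∣ g * (q * N - c₀) → ¬ onP N (c₀, q) l → (l : ℤ) ∣ g :=
    fun l hl h hn => ((Nat.prime_iff_prime_int.1 hl).dvd_or_dvd h).resolve_right hn
  have hle : ∀ S : Finset ℕ, (∀ l ∈ S, l.Prime) → (∀ l ∈ S, (l : ℤ) ∣ g) →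
      pr S ≤ (2 ^ (js + 1)) ^ 2 := fun S hS h => by
    have := pr_le_of_dvd hS hg0 h
    rw [Nat.abs_cast] at this
    exact le_trans (by exact_mod_cast this) hgE
  set X := Q''.filter fun b : ℕ => (b : ℤ) ∣ g * (q * N - c₀) with hX
  have hX1 : (X.filter fun b => ¬ onP N (c₀, q) b).card ≤ 2 * (js + 1) := by
    have hp : ∀ l ∈ X.filter fun b => ¬ onP N (c₀, q) b, l.Prime :=
      fun l hl => hQ l (hsub (mem_filter.1 (mem_filter.1 hl).1).1)
    have h4 := (two_pow_card_le_pr hp).trans (hle _ hp fun l hl =>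
      hdv l (hp l hl) (mem_filter.1 (mem_filter.1 hl).1).2 (mem_filter.1 hl).2)
    rw [← pow_mul] at h4
    have := (Nat.pow_le_pow_iff_right (by norm_num)).1 h4
    omega
  have hX2 : X.card ≤ (Q''.filter (onP N (c₀, q))).card + 2 * (js + 1) := by
    rw [← card_filter_add_card_filter_not (s := X) (onP N (c₀, q))]
    gcongr
    exact filter_subset _ _
  have hX3 : (X.card : ℝ) ≤ (Q''.filter (onP N (c₀, q))).card + 2 * (js + 1) := by
    exact_mod_cast hX2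
  have hX4 : 1 / (8 * W) * Q.card ≤ (Q''.filter (onP N (c₀, q))).card := by
    rw [one_div, inv_mul_le_iff₀ (by positivity)]
    have := mul_le_mul_of_nonneg_left hX3 hW.le
    nlinarith
  refine ⟨(c₀, q), ⟨hq, (Nat.le_mul_of_pos_right q hg).trans hqg, hco, by exact_mod_cast hc,
    hle _ (fun l hl => hm l (mem_filter.1 hl).1) fun l hl => ?_, hX4.trans ?_⟩, ?_, ?_⟩
  · refine hdv l (hm l (mem_filter.1 hl).1) (Dvd.dvd.trans ?_ hM) (mem_filter.1 hl).2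
    exact Int.natCast_dvd_natCast.2 ((dvd_prod_of_mem _ (mem_filter.1 hl).1).mul_right a)
  · exact_mod_cast card_le_card (filter_subset_filter _ hsub)
  · by_contra hn
    have h4 := hdv a ha (Dvd.dvd.trans (Int.natCast_dvd_natCast.2 (dvd_mul_left _ _)) hM) hn
    have := Nat.le_of_dvd hg (Int.natCast_dvd_natCast.1 h4)
    omega
  · have h4 : (0 : ℝ) < Q.card := lt_of_lt_of_le (by positivity) h3
    have h5 : (0 : ℝ) < (Q''.filter (onP N (c₀, q))).card := lt_of_lt_of_le (by positivity) hX4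
    obtain ⟨b, hb⟩ := card_pos.1 (by exact_mod_cast h5 : 0 < (Q''.filter (onP N (c₀, q))).card)
    exact ⟨b, (mem_filter.1 hb).1, (mem_filter.1 hb).2⟩

theorem big_pow (D : ℕ) : ∃ ω₀ : ℝ, ∀ (ω : ℝ) (j : ℕ), ω₀ ≤ ω → ω ^ 2 ≤ j →
    ω ^ D * j ≤ 2 ^ j := by
  have h := tendsto_pow_const_div_const_pow_of_one_lt (D + 1) (show (1 : ℝ) < 2 by norm_num)
  obtain ⟨j₀, hj₀⟩ := Filter.eventually_atTop.1 (h.eventually (ge_mem_nhds one_pos))
  refine ⟨max 1 j₀, fun ω j hω hj => ?_⟩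
  have h1 : 1 ≤ ω := le_trans (le_max_left _ _) hω
  have h2 : ω ≤ j := le_trans (by nlinarith) hj
  have h3 : j₀ ≤ j := by exact_mod_cast (le_trans (le_max_right _ _) hω).trans h2
  have h4 := hj₀ j h3
  rw [div_le_one (by positivity)] at h4
  calc ω ^ D * j ≤ (j : ℝ) ^ D * j := by gcongr
    _ = (j : ℝ) ^ (D + 1) := by ring
    _ ≤ _ := h4

theorem sum_recip {R : ℕ} (M a : ℕ) (X Qs : Finset ℕ) (Q : Fin R → Finset ℕ) :
    ∑ b ∈ X, ∑ u ∈ Fintype.piFinset Q, ∑ c ∈ Qs, 1 / ((M * a * b * (∏ i, u i) * c : ℕ) : ℝ) =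
      1 / a * sig X * ∑ u ∈ Fintype.piFinset Q, ∑ c ∈ Qs, 1 / ((M * (∏ i, u i) * c : ℕ) : ℝ) := by
  rw [sig, mul_assoc, sum_mul, mul_sum]
  refine sum_congr rfl fun b _ => ?_
  simp only [mul_sum]
  refine sum_congr rfl fun u _ => sum_congr rfl fun c _ => ?_
  rw [show M * a * b * (∏ i, u i) * c = a * (b * (M * (∏ i, u i) * c)) by ring, Nat.cast_mul a,
    Nat.cast_mul b]
  simp only [one_div, mul_inv]

open Classical in
theorem memberS {R : ℕ} {N : ℤ} {τ : ℤ × ℕ} {m : Finset ℕ} {p E js : ℕ} {j u : Fin R → ℕ}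
    {c : ℕ} (hm : ∀ q ∈ m, q.Prime ∧ p ≤ q) (hj : Function.Injective j)
    (hu : u ∈ Fintype.piFinset (fun i => box (j i) \ m)) (hc : c ∈ box js \ m)
    (hjs : ∀ i, j i < js) (hp : ∀ i, p ≤ 2 ^ j i) (hp' : p ≤ 2 ^ js)
    (h1 : pr (m.filter fun l => ¬ onP N τ l) ≤ E ^ 2) (h2 : ∏ i, 2 ^ (j i + 1) ≤ E)
    (h3 : 2 ^ (js + 1) ≤ E) :
    ∃ S : Finset ℕ, pr S = pr m * (∏ i, u i) * c ∧ (∀ l ∈ S, l.Prime ∧ p ≤ l) ∧
      pr (S.filter fun l : ℕ => ¬ (l : ℤ) ∣ τ.2 * N - τ.1) ≤ E ^ 4 ∧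
      ∀ l ∈ S, l ∈ m ∨ Nat.log 2 l = js ∨ ∃ i, Nat.log 2 l = j i := by
  have u1 : ∀ i, u i ∈ box (j i) := fun i => (mem_sdiff.1 (Fintype.mem_piFinset.1 hu i)).1
  have c1 := (mem_sdiff.1 hc).1
  have key : ∀ m' ⊆ m, pr (insert c (m' ∪ univ.image u)) = pr m' * (∏ i, u i) * c := by
    intro m' hm'
    rw [pr_insert, (pr_family hj (m := m') (x := u) ?_).1, mul_comm]
    · exact Fintype.mem_piFinset.2 fun i => mem_sdiff.2
        ⟨u1 i, fun h => (mem_sdiff.1 (Fintype.mem_piFinset.1 hu i)).2 (hm' h)⟩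
    · intro h
      rcases mem_union.1 h with h | h
      · exact (mem_sdiff.1 hc).2 (hm' h)
      · obtain ⟨i, -, hi⟩ := mem_image.1 h
        have e1 := (mem_box'.1 (u1 i)).2
        rw [hi, (mem_box'.1 c1).2] at e1
        have := hjs i
        omega
  have hS : ∀ l ∈ insert c (m ∪ univ.image u), l.Prime ∧ p ≤ l := by
    intro l hl
    rcases mem_insert.1 hl with rfl | hl
    · exact ⟨(mem_box.1 c1).1, hp'.trans (mem_box.1 c1).2.1⟩
    rcases mem_union.1 hl with hl | hl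
    · exact hm l hl
    · obtain ⟨i, -, rfl⟩ := mem_image.1 hl
      exact ⟨(mem_box.1 (u1 i)).1, (hp i).trans (mem_box.1 (u1 i)).2.1⟩
  refine ⟨insert c (m ∪ univ.image u), key m subset_rfl, hS, ?_, fun l hl => ?_⟩
  · calc _ ≤ pr (insert c ((m.filter fun l => ¬ onP N τ l) ∪ univ.image u)) := by
          refine prod_le_prod_of_subset_of_one_le' (fun l hl => ?_) fun l hl _ => ?_
          · obtain ⟨l1, l2⟩ := mem_filter.1 hl
            simp only [mem_insert, mem_union, mem_filter] at l1 ⊢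
            unfold onP
            tauto
          · exact (hS l (insert_subset_insert _
              (union_subset_union (filter_subset _ _) subset_rfl) hl)).1.pos
      _ = _ := key _ (filter_subset _ _)
      _ ≤ E ^ 2 * E * E := by
          gcongr
          · exact le_trans (prod_le_prod' fun i _ => (mem_box.1 (u1 i)).2.2.le) h2
          · exact (mem_box.1 c1).2.2.le.trans h3
      _ = _ := by ring
  · rcases mem_insert.1 hl with rfl | hl
    · exact Or.inr (Or.inl (mem_box'.1 c1).2)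
    rcases mem_union.1 hl with hl | hl
    · exact Or.inl hl
    · obtain ⟨i, -, rfl⟩ := mem_image.1 hl
      exact Or.inr (Or.inr ⟨i, (mem_box'.1 (u1 i)).2⟩)

end Vale.Agent.P013
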