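import Vale.Agent.P013.Mertens

/-! A weighted count of admissible cofactors `t`.

Proof plan. Use `t = pr s * t₂`, `s ⊆ P' = {l ∈ P₁ | l ≤ p^0.01}`, `pr s ≤ p^0.3`, `t₂` prime in
`(3T'/4, T']`, `T' = T/pr s ≥ p^1.1`, `t₂ ∤ Q`; `(s, t₂) ↦ t` is injective (`t₂ ≥ p`,
`pr_injOn` applied to `insert t₂ s`). `short_primes` gives `∑ 1/t₂ ≥ 1/(8 C log p)` before
removing the at most `C` prime divisors `≥ p` of `Q`, each of weight `≤ 2/p` (for `C = 0` the
hypotheses are contradictory). Markov: `∑_{s ⊆ P'} log (pr s)/pr s ≤ (∑_{P'} log l/l) ∏_{P'}(1+1/l)`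
and `mertens1` give `∑_{pr s ≤ p^0.3} 1/pr s ≥ (1/2) ∏_{P'} (1 + 1/l)`. Finally
`(1 + 1/l)(1 - 1/(l-1)) = (l+1)(l-2)/(l(l-1))`, whose product over all integers `3 ≤ l ≤ n`
telescopes to `(n+1)/(3(n-1)) ≥ 1/3`, and `∏_{p^0.01 < l < p} (1 - 1/(l-1)) ≥ exp (-4 ∑ 1/l)`
is bounded below by `mertens0`. -/

open Finset

namespace Vale.Agent.P013

theorem swa_markov (P : Finset ℕ) (h : ∀ l ∈ P, 0 < l) :
    ∑ s ∈ P.powerset, 1 / (pr s : ℝ) = ∏ l ∈ P, (1 + 1 / (l : ℝ)) ∧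
      ∑ s ∈ P.powerset, Real.log (pr s) / pr s ≤
        (∑ l ∈ P, Real.log l / l) * ∏ l ∈ P, (1 + 1 / (l : ℝ)) := by
  induction P using Finset.induction_on with
  | empty => simp
  | insert a P ha ih =>
    obtain ⟨h1, h2⟩ := ih fun l hl => h l (mem_insert_of_mem hl)
    have a0 : (0 : ℝ) < a := by exact_mod_cast h a (mem_insert_self _ _)
    have e : ∀ s ∈ P.powerset, (pr (insert a s) : ℝ) = a * pr s := fun s hs => by
      rw [pr_insert fun h => ha (mem_powerset.1 hs h), Nat.cast_mul]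
    have e1 : ∑ s ∈ P.powerset, 1 / (pr (insert a s) : ℝ) = 1 / a * ∏ l ∈ P, (1 + 1 / (l : ℝ)) := by
      rw [← h1, mul_sum]
      exact sum_congr rfl fun s hs => by rw [e s hs, div_mul_div_comm, mul_one]
    have e2 : ∑ s ∈ P.powerset, Real.log (pr (insert a s)) / pr (insert a s) =
        Real.log a / a * ∏ l ∈ P, (1 + 1 / (l : ℝ)) +
          1 / a * ∑ s ∈ P.powerset, Real.log (pr s) / pr s := by
      rw [← h1, mul_sum, mul_sum, ← sum_add_distrib]
      refine sum_congr rfl fun s hs => ?_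
      have : (0 : ℝ) < pr s := by
        exact_mod_cast prod_pos fun l hl => h l (mem_insert_of_mem (mem_powerset.1 hs hl))
      rw [e s hs, Real.log_mul a0.ne' this.ne']
      field_simp
    rw [sum_powerset_insert ha, sum_powerset_insert ha, prod_insert ha, sum_insert ha, h1, e1, e2]
    refine ⟨by ring, ?_⟩
    have : 0 ≤ Real.log a / a * (1 / a) * ∏ l ∈ P, (1 + 1 / (l : ℝ)) := by positivity
    nlinarith [mul_le_mul_of_nonneg_left h2 (one_div_pos.2 a0).le]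

theorem swa_prod {s : Finset ℕ} {a : ℕ → ℝ} {B : ℝ} (h : ∀ l ∈ s, 0 ≤ a l ∧ a l ≤ 1 / 2)
    (hB : ∑ l ∈ s, a l ≤ B) : Real.exp (-(2 * B)) ≤ ∏ l ∈ s, (1 - a l) := by
  refine (Real.exp_le_exp.2 (neg_le_neg (mul_le_mul_of_nonneg_left hB two_pos.le))).trans ?_
  rw [mul_sum, ← sum_neg_distrib, Real.exp_sum]
  refine prod_le_prod (fun _ _ => (Real.exp_pos _).le) fun l hl => ?_
  obtain ⟨h1, h2⟩ := h l hl
  rw [Real.exp_neg, inv_le_iff_one_le_mul₀ (Real.exp_pos _)]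
  nlinarith [mul_le_mul_of_nonneg_left (Real.add_one_le_exp (2 * a l)) (by linarith : 0 ≤ 1 - a l)]

theorem cofactor_sum (C : ℕ) : ∃ (c : ℝ) (p₀ : ℕ), 0 < c ∧ ∀ (p Q : ℕ) (T : ℝ) (P₁ : Finset ℕ),
    p₀ ≤ p → 0 < T → (p : ℝ) ^ 7 ≤ T ^ 5 → T ≤ (p : ℝ) ^ C → P₁ ⊆ p.primesBelow → 2 ∉ P₁ →
    1 ≤ Q → Q ≤ p ^ C →
    c / Real.log p ≤ (∏ l ∈ P₁, (1 - 1 / ((l : ℝ) - 1))) *
      ∑ t ∈ (Ioc ⌊3 * T / 4⌋₊ ⌊T⌋₊).filter
        (fun t => ∀ l ∈ t.primeFactors, l ∈ P₁ ∨ (p ≤ l ∧ ¬ l ∣ Q)), 1 / (t : ℝ) := by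
  obtain ⟨C₀, c0, H0⟩ := mertens0
  obtain ⟨C₁, c1, H1⟩ := mertens1
  obtain ⟨x₀, H2⟩ := short_primes
  obtain ⟨W, W1, W2, W3⟩ : ∃ W : ℝ, Real.exp (C₁ + 1) ≤ W ∧ x₀ ≤ W ∧ 1600 * (C + 1) ^ 2 ≤ W :=
    ⟨max _ (max _ _), le_max_left _ _, le_max_of_le_right (le_max_left _ _),
      le_max_of_le_right (le_max_right _ _)⟩
  refine ⟨Real.exp (-(2 * 8)) * Real.exp (-(2 * (2 * (100 + C₀)))) / 2 / (16 * (C + 1)), ⌈W ^ 100⌉₊,
    by positivity, fun p Q T P₁ hp T0 hT hT' hP h2 Q1 hQ => ?_⟩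
  obtain ⟨w, hw, w0⟩ : ∃ w : ℝ, w ^ 100 = p ∧ 0 ≤ w :=
    ⟨p ^ ((100 : ℕ) : ℝ)⁻¹, Real.rpow_inv_natCast_pow (by positivity) (by omega), by positivity⟩
  have hW : W ≤ w := le_of_pow_le_pow_left₀ (n := 100) (by omega) w0 ((Nat.ceil_le.1 hp).trans_eq hw.symm)
  have w1 : C₁ + 1 ≤ Real.log w := (Real.le_log_iff_exp_le ((Real.exp_pos _).trans_le
    (W1.trans hW))).2 (W1.trans hW)
  have w2 : 2 ≤ w := by nlinarith [C.cast_nonneg (α := ℝ)]
  have w3 : ∀ {a b : ℕ}, a ≤ b → w ^ a ≤ w ^ b := fun h => pow_le_pow_right₀ (by linarith) h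
  have lp : Real.log p = 100 * Real.log w := by rw [← hw, Real.log_pow]; norm_num
  have l0 : 0 < Real.log p := by linarith
  have lw : 0 < Real.log w := by linarith
  have p1 : 1 < p := by
    have : (1 : ℝ) < p := (one_lt_pow₀ (by linarith) (by omega)).trans_eq hw
    exact_mod_cast this
  have hpr : ∀ l ∈ P₁, l.Prime := fun l h => Nat.prime_of_mem_primesBelow (hP h)
  have h3 : ∀ l ∈ P₁, (3 : ℝ) ≤ l := fun l h => by
    exact_mod_cast lt_of_le_of_ne (hpr l h).two_le fun e => h2 (e ▸ h)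
  have hT2 : w ^ 140 ≤ T := le_of_pow_le_pow_left₀ (n := 5) (by omega) T0.le (by
    rw [← pow_mul]; rwa [← hw, ← pow_mul] at hT)
  obtain ⟨P', hP'⟩ : ∃ P', P' = P₁.filter fun l : ℕ => (l : ℝ) ≤ w := ⟨_, rfl⟩
  have sub : P' ⊆ P₁ := hP' ▸ filter_subset _ _
  obtain ⟨S, hS⟩ : ∃ S, S = P'.powerset.filter fun s => (pr s : ℝ) ≤ w ^ 30 := ⟨_, rfl⟩
  have s1 : ∀ s ∈ S, s ⊆ P₁ := fun s h => (mem_powerset.1 (mem_filter.1 (hS ▸ h)).1).trans sub
  have s2 : ∀ s ∈ S, (0 : ℝ) < pr s := fun s h => by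
    exact_mod_cast pr_pos fun l a => hpr l (s1 s h a)
  have s3 : ∀ s ∈ S, w ^ 110 ≤ T / pr s := fun s h => by
    rw [le_div_iff₀ (s2 s h)]
    refine (mul_le_mul_of_nonneg_left (mem_filter.1 (hS.subset h)).2 (by positivity)).trans ?_
    rwa [← pow_add]
  have s4 : ∀ s ∈ S, ∀ t ∈ PI (3 * (T / pr s) / 4) (T / pr s),
      t.Prime ∧ p ≤ t ∧ 3 * T / 4 < pr s * t ∧ pr s * t ≤ T := fun s h t ht => by
    have a := s2 s h
    obtain ⟨b, c, d⟩ := (mem_PI (by positivity)).1 ht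
    refine ⟨b, ?_, ?_, (le_div_iff₀' a).1 d⟩
    · have : w ^ 100 * w ≤ w ^ 110 := (pow_succ w 100).symm.trans_le (w3 (by omega))
      have : (p : ℝ) ≤ t := by nlinarith [s3 s h, pow_nonneg w0 100]
      exact_mod_cast this
    · rwa [← div_lt_iff₀' a, div_right_comm, mul_div_assoc 3 T]
  have a1 : ∀ s ∈ S, 1 / (16 * (C + 1) * Real.log p) ≤
      ∑ t ∈ PI (3 * (T / pr s) / 4) (T / pr s) with ¬ t ∣ Q, 1 / (t : ℝ) := fun s h => by
    have b1 := H2 _ ((W2.trans hW).trans ((le_self_pow₀ (by linarith) (by omega)).trans (s3 s h)))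
    have b2 : ((PI (3 * (T / pr s) / 4) (T / pr s)).filter (· ∣ Q)).card ≤ C := by
      refine (Nat.pow_le_pow_iff_right p1).1 ((pow_card_le_prod _ (fun t => t) _ fun t ht =>
        (s4 s h t (mem_filter.1 ht).1).2.1).trans (le_trans (Nat.le_of_dvd Q1 ?_) hQ))
      exact Int.natCast_dvd_natCast.1 ((pr_dvd_iff fun t ht => (s4 s h t (mem_filter.1 ht).1).1).2
        fun t ht => Int.natCast_dvd_natCast.2 (mem_filter.1 ht).2)
    have b3 : ∑ t ∈ PI (3 * (T / pr s) / 4) (T / pr s) with t ∣ Q, 1 / (t : ℝ) ≤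
        1 / (16 * (C + 1) * Real.log p) := by
      refine (sum_le_card_nsmul _ _ (1 / p : ℝ) fun t ht => one_div_le_one_div_of_le (by positivity)
        (by exact_mod_cast (s4 s h t (mem_filter.1 ht).1).2.1)).trans ?_
      rw [nsmul_eq_mul, mul_one_div, div_le_div_iff₀ (by positivity) (by positivity), one_mul, lp,
        ← hw]
      have : (((PI (3 * (T / pr s) / 4) (T / pr s)).filter (· ∣ Q)).card : ℝ) ≤ C + 1 := by
        exact_mod_cast b2.trans C.le_succ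
      refine (mul_le_mul this (le_refl _) (by positivity) (by positivity)).trans
        (le_trans ?_ (w3 (by omega : 2 ≤ 100)))
      nlinarith [mul_le_mul (W3.trans hW) (Real.log_le_self w0) (by linarith) w0]
    have b4 : 2 * (1 / (16 * (C + 1) * Real.log p)) ≤ 1 / (8 * Real.log (T / pr s)) := by
      have c1 : 1 < T / pr s := (one_lt_pow₀ (by linarith) (by omega)).trans_le (s3 s h)
      have c2 : Real.log (T / pr s) ≤ C * Real.log p := by
        rw [← Real.log_pow]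
        refine Real.log_le_log (by linarith) (le_trans (div_le_self T0.le ?_) hT')
        exact_mod_cast pr_pos fun l a => hpr l (s1 s h a)
      have c3 := Real.log_pos c1
      rw [mul_one_div, div_le_div_iff₀ (by positivity) (by positivity)]
      nlinarith
    rw [← sum_filter_add_sum_filter_not _ (· ∣ Q)] at b1
    linarith
  have a2 : ∑ s ∈ S, ∑ t ∈ PI (3 * (T / pr s) / 4) (T / pr s) with ¬ t ∣ Q, 1 / ((pr s * t : ℕ) : ℝ)
      ≤ ∑ t ∈ (Ioc ⌊3 * T / 4⌋₊ ⌊T⌋₊).filter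
        (fun t => ∀ l ∈ t.primeFactors, l ∈ P₁ ∨ (p ≤ l ∧ ¬ l ∣ Q)), 1 / (t : ℝ) := by
    rw [sum_sigma', ← sum_image (g := fun x : Σ _ : Finset ℕ, ℕ => pr x.1 * x.2)
      (f := fun t : ℕ => 1 / (t : ℝ))]
    · refine sum_le_sum_of_subset_of_nonneg (image_subset_iff.2 fun ⟨s, t⟩ h => ?_)
        fun _ _ _ => by positivity
      simp only [mem_sigma, mem_filter] at h
      obtain ⟨b, c, d, e⟩ := s4 s h.1 t h.2.1
      refine mem_filter.2 ⟨mem_Ioc.2 ⟨(Nat.floor_lt (by positivity)).2 (by exact_mod_cast d),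
        Nat.le_floor (by exact_mod_cast e)⟩, fun l hl => ?_⟩
      have := Nat.prime_of_mem_primeFactors hl
      rcases this.dvd_mul.1 (Nat.dvd_of_mem_primeFactors hl) with a | a
      · exact Or.inl (s1 s h.1 ((prime_dvd_pr (fun l a => hpr l (s1 s h.1 a)) this).1 a))
      · obtain rfl := (Nat.prime_dvd_prime_iff_eq this b).1 a
        exact Or.inr ⟨c, h.2.2⟩
    · rintro ⟨s, t⟩ h ⟨s', t'⟩ h' e
      simp only [coe_sigma, Set.mem_sigma_iff, mem_coe, mem_filter] at h h' e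
      obtain ⟨b, c, -⟩ := s4 s h.1 t h.2.1
      obtain rfl : t = t' := by
        rcases b.dvd_mul.1 (e ▸ Nat.dvd_mul_left t (pr s)) with a | a
        · exact absurd (Nat.lt_of_mem_primesBelow (hP (s1 s' h'.1 ((prime_dvd_pr
            (fun l a => hpr l (s1 s' h'.1 a)) b).1 a)))) c.not_gt
        · exact (Nat.prime_dvd_prime_iff_eq b (s4 s' h'.1 t' h'.2.1).1).1 a
      rw [pr_injOn (fun l a => hpr l (s1 s h.1 a)) (fun l a => hpr l (s1 s' h'.1 a))
        (Nat.eq_of_mul_eq_mul_right b.pos e)]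
  have a3 : (∏ l ∈ P', (1 + 1 / (l : ℝ))) / 2 ≤ ∑ s ∈ S, 1 / (pr s : ℝ) := by
    obtain ⟨b1, b2⟩ := swa_markov P' fun l h => (hpr l (sub h)).pos
    have b3 : ∑ l ∈ P', Real.log l / l ≤ 15 * Real.log w := by
      refine (sum_le_sum_of_subset_of_nonneg (t := PI 1 w) (fun l h => (mem_PI zero_le_one).2
        ⟨hpr l (sub h), by linarith [h3 l (sub h)], (mem_filter.1 (hP'.subset h)).2⟩)
          fun _ _ _ => by positivity).trans ?_
      have := (abs_le.1 (H1 1 w le_rfl (by linarith))).2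
      rw [Real.log_one] at this
      linarith
    have b4 : 30 * Real.log w * ∑ s ∈ P'.powerset with ¬ (pr s : ℝ) ≤ w ^ 30, 1 / (pr s : ℝ) ≤
        ∑ s ∈ P'.powerset, Real.log (pr s) / pr s := by
      rw [mul_sum]
      refine (sum_le_sum fun s h => ?_).trans (sum_le_sum_of_subset_of_nonneg (filter_subset _ _)
        fun _ _ _ => by positivity)
      rw [mul_one_div]
      refine div_le_div_of_nonneg_right ?_ (by positivity)
      simpa using Real.log_le_log (by positivity) (not_le.1 (mem_filter.1 h).2).le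
    have b5 := b4.trans (b2.trans (mul_le_mul_of_nonneg_right b3 (by positivity)))
    rw [← sum_filter_add_sum_filter_not _ fun s => (pr s : ℝ) ≤ w ^ 30, ← hS] at b1
    nlinarith
  have a4 : Real.exp (-(2 * 8)) ≤ (∏ l ∈ P', (1 - 1 / ((l : ℝ) - 1))) *
      ∏ l ∈ P', (1 + 1 / (l : ℝ)) := by
    rw [← prod_mul_distrib, prod_congr rfl (g := fun l : ℕ => 1 - 2 / (l * (l - 1) : ℝ))
      fun l h => by
        have := h3 l (sub h)
        have : (l : ℝ) - 1 ≠ 0 := by linarith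
        field_simp
        ring]
    refine swa_prod (fun l h => ?_) ((sum_le_sum (g := fun l : ℕ => 4 * ((l : ℝ) ^ 2)⁻¹)
      fun l h => ?_).trans ?_)
    · have := h3 l (sub h)
      exact ⟨div_nonneg two_pos.le (by nlinarith), div_le_of_le_mul₀ (by nlinarith) (by norm_num)
        (by nlinarith)⟩
    · have := h3 l (sub h)
      rw [← div_eq_mul_inv, div_le_div_iff₀ (by nlinarith) (by positivity)]
      nlinarith
    · have := (sum_le_sum_of_subset_of_nonneg (s := P') (fun l h => mem_Ioo.2 ⟨(hpr l (sub h)).pos,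
        Nat.lt_of_mem_primesBelow (hP (sub h))⟩) fun _ _ _ => by positivity).trans
          (sum_Ioo_inv_sq_le (α := ℝ) 0 p)
      rw [← mul_sum]
      norm_num at this
      linarith
  have a5 : Real.exp (-(2 * (2 * (100 + C₀)))) ≤ ∏ l ∈ P₁ \ P', (1 - 1 / ((l : ℝ) - 1)) := by
    refine swa_prod (fun l h => ?_) ((sum_le_sum (g := fun l : ℕ => 2 * (1 / (l : ℝ)))
      fun l h => ?_).trans ?_)
    · have := h3 l (mem_sdiff.1 h).1
      exact ⟨div_nonneg one_pos.le (by linarith), one_div_le_one_div_of_le two_pos (by linarith)⟩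
    · have := h3 l (mem_sdiff.1 h).1
      rw [mul_one_div, div_le_div_iff₀ (by linarith) (by positivity)]
      linarith
    · have b1 := (abs_le.1 (H0 w p (by linarith) ((le_self_pow₀ (by linarith) (by omega)).trans_eq hw))).2
      have b2 : C₀ / Real.log w ≤ C₀ := div_le_self c0.le (by linarith)
      rw [lp, Real.log_mul (by norm_num) (by linarith)] at b1
      rw [← mul_sum]
      refine mul_le_mul_of_nonneg_left ((sum_le_sum_of_subset_of_nonneg (t := PI w p) (fun l h => ?_)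
        fun _ _ _ => by positivity).trans (by linarith [Real.log_le_self (x := 100) (by norm_num)]))
          two_pos.le
      obtain ⟨a, b⟩ := mem_sdiff.1 h
      exact (mem_PI w0).2 ⟨hpr l a, not_le.1 fun e => b (hP' ▸ mem_filter.2 ⟨a, e⟩),
        by exact_mod_cast (Nat.lt_of_mem_primesBelow (hP a)).le⟩
  have a6 : 0 ≤ ∏ l ∈ P', (1 - 1 / ((l : ℝ) - 1)) := prod_nonneg fun l h => sub_nonneg.2
    (div_le_one_of_le₀ (by linarith [h3 l (sub h)]) (by linarith [h3 l (sub h)]))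
  have a7 : (∑ s ∈ S, 1 / (pr s : ℝ)) * (1 / (16 * (C + 1) * Real.log p)) ≤ _ := le_trans (by
    rw [sum_mul]
    refine sum_le_sum fun s h => (mul_le_mul_of_nonneg_left (a1 s h) (by positivity)).trans_eq ?_
    simp only [mul_sum, Nat.cast_mul, div_mul_div_comm, mul_one]) a2
  rw [← prod_sdiff sub]
  refine le_trans ?_ (mul_le_mul_of_nonneg_left ((mul_le_mul_of_nonneg_right a3
    (by positivity)).trans a7) (mul_nonneg ((Real.exp_pos _).le.trans a5) a6))
  refine le_of_eq_of_le ?_ ((mul_le_mul_of_nonneg_right (mul_le_mul a5 a4 (by positivity)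
    ((Real.exp_pos _).le.trans a5)) (show 0 ≤ 1 / 2 * (1 / (16 * (C + 1) * Real.log p)) by
      positivity)).trans_eq (by ring))
  field_simp

end Vale.Agent.P013
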