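import Vale.Agent.P013.SWbX1

/-! Auxiliary lemmas for `ideal_lower`: geometry, counting and numerics. -/

open Finset

namespace Vale.Agent.P013

theorem swb_geo (c₀ Y : ℝ) (hY : 0 < Y) : ∃ (σ : ℤ) (Z : ℝ), (σ = 1 ∨ σ = -1) ∧ Y / 4 ≤ Z ∧
    Z ≤ |c₀| + Y ∧ ∀ w : ℝ, Z < w → w ≤ Z + Y / 8 → c₀ ≤ σ * w ∧ σ * w < c₀ + Y := by
  rcases le_or_gt (-(Y / 2)) c₀ with h | h
  · refine ⟨1, c₀ + 3 * Y / 4, Or.inl rfl, by linarith, by linarith [le_abs_self c₀],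
      fun w h1 h2 => ?_⟩
    push_cast
    constructor <;> linarith
  · refine ⟨-1, -c₀ - Y / 4, Or.inr rfl, by linarith, by linarith [neg_abs_le c₀],
      fun w h1 h2 => ?_⟩
    push_cast
    constructor <;> linarith

theorem swb_inj (N c₀ k : ℤ) {y q r m n p : ℕ} (hq : 1 ≤ q) (hk : k ≠ 0) (hm : 1 ≤ m) (hn : 1 ≤ n)
    (S : Finset ℕ) (h : ∀ t ∈ S, c₀ ≤ m * k * t * n ∧ m * k * t * n < c₀ + q * y ∧
      ((q * r : ℕ) : ℤ) ∣ (q * N - c₀) + m * k * t * n ∧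
      ∀ l ∈ p.primesBelow, ¬ ((q * l : ℕ) : ℤ) ∣ (q * N - c₀) + m * k * t * n) :
    S.card ≤ ideal N c₀ y q r (n * m) p := by
  have q0 : (0 : ℤ) < q := by exact_mod_cast hq
  have key : ∀ t ∈ S, (q : ℤ) * (((m * k * t * n - c₀) / q).toNat : ℕ) = m * k * t * n - c₀ := by
    intro t ht
    obtain ⟨h1, -, h3, -⟩ := h t ht
    have h4 : (q : ℤ) ∣ m * k * t * n - c₀ := by
      have h5 := (Int.natCast_dvd_natCast.2 (dvd_mul_right q r)).trans h3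
      have h6 := dvd_sub h5 (dvd_mul_right (q : ℤ) N)
      rwa [show (q * N - c₀) + m * k * t * n - q * N = m * k * t * n - c₀ by ring] at h6
    rw [Int.toNat_of_nonneg (Int.ediv_nonneg (by linarith) q0.le), Int.mul_ediv_cancel' h4]
  refine card_le_card_of_injOn (fun t => ((m * k * t * n - c₀) / q).toNat) (fun t ht => ?_)
    fun t ht t' ht' e => ?_
  · have h0 := key t ht
    obtain ⟨-, h2, h3, h4⟩ := h t ht
    beta_reduce
    generalize ((m * k * t * n - c₀) / q).toNat = v at h0 ⊢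
    have e : (q * N - c₀) + m * k * t * n = q * (N + v) := by linarith
    rw [e] at h3 h4
    rw [mem_coe, mem_filter, mem_range]
    refine ⟨?_, ⟨k * t, by push_cast; linarith⟩, ?_, fun l hl h5 => h4 l hl ?_⟩
    · have h5 : (q : ℤ) * v < q * y := by linarith
      exact_mod_cast lt_of_mul_lt_mul_left h5 q0.le
    · push_cast at h3
      exact (mul_dvd_mul_iff_left q0.ne').1 h3
    · push_cast
      exact mul_dvd_mul_left _ h5
  · have h1 := key t ht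
    have h2 := key t' ht'
    dsimp only at e
    rw [e, h2] at h1
    have h3 : (m * k * n : ℤ) * t' = (m * k * n : ℤ) * t := by linarith
    have h4 : (m * k * n : ℤ) ≠ 0 :=
      mul_ne_zero (mul_ne_zero (by exact_mod_cast (by omega : m ≠ 0)) hk)
        (by exact_mod_cast (by omega : n ≠ 0))
    exact_mod_cast (mul_left_cancel₀ h4 h3).symm

theorem swb_count {j : ℕ} (hj : 1 ≤ j) (T : Finset ℕ) (S : ℕ → Finset ℕ) (I : ℕ → ℕ)
    (h1 : ∀ t ∈ T, S t ⊆ box j) (h2 : ∀ n ∈ box j, (T.filter fun t => n ∈ S t).card ≤ I n) :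
    ∑ t ∈ T, ∑ n ∈ S t, Real.log n ≤ 2 * j * ∑ n ∈ box j, (I n : ℝ) := by
  have h3 : ∀ t ∈ T, ∑ n ∈ S t, Real.log n ≤ 2 * j * ∑ n ∈ box j, if n ∈ S t then (1 : ℝ) else 0 := by
    intro t ht
    rw [← sum_filter, filter_mem_eq_inter, inter_eq_right.2 (h1 t ht), mul_sum]
    refine sum_le_sum fun n hn => ?_
    obtain ⟨a, -, b⟩ := mem_box.1 (h1 t ht hn)
    have b' : (n : ℝ) ≤ 2 ^ (j + 1) := by exact_mod_cast b.le
    have h4 := Real.log_le_log (by exact_mod_cast a.pos) b'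
    have h5 : (1 : ℝ) ≤ j := by exact_mod_cast hj
    have h6 := Real.log_two_lt_d9
    rw [Real.log_pow] at h4
    push_cast at h4
    nlinarith
  refine (sum_le_sum h3).trans ?_
  rw [← mul_sum, sum_comm]
  refine mul_le_mul_of_nonneg_left (sum_le_sum fun n hn => ?_) (by positivity)
  rw [sum_boole]
  exact_mod_cast h2 n hn

theorem swb_num (B K : ℕ) (M : ℝ) : ∃ j₀ : ℕ, ∀ j p : ℕ, j₀ ≤ j → p ≤ j ^ B →
    1 ≤ j ∧ p ≤ 2 ^ j ∧ M * (p : ℝ) ^ K ≤ Real.log (2 ^ j) ^ (2 * B * K + 1) := by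
  obtain ⟨j₁, h⟩ := Filter.eventually_atTop.1
    ((tendsto_pow_const_div_const_pow_of_one_lt B one_lt_two).eventually
      (gt_mem_nhds zero_lt_one))
  refine ⟨max j₁ (max 4 ⌈2 * M⌉₊), fun j p hj hp => ?_⟩
  have h1 := h j ((le_max_left _ _).trans hj)
  have h2 : 4 ≤ j := (le_max_left _ _).trans ((le_max_right _ _).trans hj)
  have h3 : 2 * M ≤ j := Nat.ceil_le.1 ((le_max_right _ _).trans ((le_max_right _ _).trans hj))
  have h4 : (4 : ℝ) ≤ j := by exact_mod_cast h2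
  have hp' : (p : ℝ) ≤ (j : ℝ) ^ B := by exact_mod_cast hp
  refine ⟨by omega, ?_, ?_⟩
  · rw [div_lt_one (by positivity)] at h1
    exact_mod_cast hp'.trans h1.le
  · have h5 : (j : ℝ) / 2 ≤ Real.log (2 ^ j) := by
      rw [Real.log_pow]
      nlinarith [Real.log_two_gt_d9]
    have h6 : (j : ℝ) ≤ Real.log (2 ^ j) ^ 2 := by nlinarith
    rw [pow_succ, mul_comm, mul_assoc, pow_mul, pow_mul]
    refine mul_le_mul_of_nonneg ?_ (by linarith) (by positivity) (by linarith)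
    exact pow_le_pow_left₀ (by positivity) (hp'.trans (pow_le_pow_left₀ (by positivity) h6 B)) K

theorem swb_T_lower {p : ℕ} {T : ℝ} (hp : 2 ^ 20 ≤ p) (hT : 0 < T) (h : (p : ℝ) ^ 3 ≤ 16 * T ^ 2) :
    (p : ℝ) ^ 7 ≤ T ^ 5 := by
  have hp' : (2 : ℝ) ^ 20 ≤ p := by exact_mod_cast hp
  refine (abs_le_of_sq_le_sq' ?_ (by positivity)).2
  have h1 := pow_le_pow_left₀ (by positivity) h 5
  have h2 := mul_le_mul_of_nonneg_right hp' (show 0 ≤ (p : ℝ) ^ 14 by positivity)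
  have e1 : ((p : ℝ) ^ 3) ^ 5 = p * p ^ 14 := by ring
  have e2 : (16 * T ^ 2) ^ 5 = 2 ^ 20 * (T ^ 5) ^ 2 := by ring
  have e3 : ((p : ℝ) ^ 7) ^ 2 = p ^ 14 := by ring
  rw [e1, e2] at h1
  rw [e3]
  exact le_of_mul_le_mul_left (h2.trans h1) (by positivity)

theorem swb_T {p q r m y ε P Z X : ℝ} (hp : 2 ≤ p) (hq : 1 ≤ q) (hr : 1 ≤ r) (hm : 1 ≤ m)
    (hP : 0 < P) (e1 : 1 ≤ ε) (e2 : ε ≤ 2) (hy : 0 ≤ y) (h1 : (m * r * (2 * P)) ^ 2 * p ^ 3 ≤ y ^ 2)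
    (h2 : y ≤ m * r * P * p ^ 2) (hX : q * r ≤ X) (z1 : q * y / 4 ≤ Z) (z2 : Z ≤ X * q * y + q * y) :
    p ^ 3 ≤ 16 * (Z / (m * ε * P)) ^ 2 ∧ Z / (m * ε * P) ≤ X ^ 2 * p ^ 3 := by
  have m0 : 0 < m * ε * P := by positivity
  have X1 : 1 ≤ X := le_trans (one_le_mul_of_one_le_of_one_le hq hr) hX
  constructor
  · rw [div_pow, ← mul_div_assoc, le_div_iff₀ (by positivity)]
    have k1 : y ≤ 4 * Z := by nlinarith
    have k2 : m * ε * P ≤ m * r * (2 * P) := by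
      have : ε ≤ r * 2 := by linarith
      calc m * ε * P ≤ m * (r * 2) * P := by gcongr
        _ = _ := by ring
    calc p ^ 3 * (m * ε * P) ^ 2 ≤ p ^ 3 * (m * r * (2 * P)) ^ 2 := by gcongr
      _ ≤ y ^ 2 := by linarith
      _ ≤ (4 * Z) ^ 2 := by gcongr
      _ = 16 * Z ^ 2 := by ring
  · rw [div_le_iff₀ m0]
    calc Z ≤ X * q * y + 1 * q * y := by linarith
      _ ≤ X * q * y + X * q * y := by gcongr
      _ = 2 * X * q * y := by ring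
      _ ≤ p * X * q * (m * r * P * p ^ 2) := by gcongr
      _ = X * (q * r) * p ^ 3 * (m * 1 * P) := by ring
      _ ≤ X * X * p ^ 3 * (m * ε * P) := by gcongr
      _ = _ := by ring

theorem swb_W {Z Y d P t : ℝ} (hd : 0 < d) (hP : 0 < P) (hY : 0 ≤ Y) (hZ : 0 < Z) (z1 : Y / 4 ≤ Z)
    (t1 : 3 * (Z / (d * P)) / 4 < t) (t2 : t ≤ Z / (d * P)) :
    0 < t ∧ P ≤ Z / (d * t) ∧ Z / (d * t) ≤ (Z + Y / 8) / (d * t) ∧
      (Z + Y / 8) / (d * t) < 2 * P := by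
  have t0 : 0 < t := lt_trans (by positivity) t1
  rw [le_div_iff₀ (by positivity)] at t2
  rw [← mul_div_assoc, div_div, div_lt_iff₀ (by positivity)] at t1
  refine ⟨t0, ?_, ?_, ?_⟩
  · rw [le_div_iff₀ (by positivity)]
    linarith
  · gcongr
    linarith
  · rw [div_lt_iff₀ (by positivity)]
    linarith

theorem swb_u {Ω σ : ℤ} {p q r m ε t : ℕ} (hp : 2 < p) (hcop : IsCoprime Ω ((q * r : ℕ) : ℤ))
    (hmd : (m : ℤ) ∣ Ω) (hpr : ∀ l : ℕ, l.Prime → l ∣ m * r → p ≤ l) (hσ : σ = 1 ∨ σ = -1)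
    (hε : ε = 1 ∧ (2 ∣ q ∨ 2 ∣ Ω) ∨ ε = 2 ∧ ¬ 2 ∣ q ∧ ¬ 2 ∣ Ω) (t0 : t ≠ 0)
    (ht : ∀ l ∈ t.primeFactors, l ∈ swbP Ω q p ∨ (p ≤ l ∧ ¬ l ∣ q * r)) :
    IsCoprime (m * (σ * ε) * t : ℤ) ((q * r : ℕ) : ℤ) ∧
      (∀ l ∈ p.primesBelow, (l : ℤ) ∣ Ω → ¬ (l : ℤ) ∣ m * (σ * ε) * t) ∧
      (2 ∣ q ∨ 2 ∣ Ω ∨ (2 : ℤ) ∣ m * (σ * ε) * t) := by
  have hε' : ∀ l : ℕ, l.Prime → l ∣ ε → l = 2 ∧ ¬ 2 ∣ q ∧ ¬ 2 ∣ Ω := by
    intro l hl h
    rcases hε with ⟨rfl, -⟩ | ⟨rfl, h2⟩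
    · exact absurd (Nat.dvd_one.1 h) hl.ne_one
    · exact ⟨(Nat.prime_dvd_prime_iff_eq hl Nat.prime_two).1 h, h2⟩
  have ht' : ∀ l : ℕ, l.Prime → l ∣ t →
      (l < p ∧ ¬ l ∣ q ∧ ¬ (l : ℤ) ∣ Ω) ∨ (p ≤ l ∧ ¬ l ∣ q * r) := by
    intro l hl h
    refine (ht l (Nat.mem_primeFactors.2 ⟨hl, h, t0⟩)).imp_left fun h1 => ?_
    obtain ⟨h2, -, h3⟩ := mem_filter.1 h1
    exact ⟨(Nat.mem_primesBelow.1 h2).1, h3⟩
  have e : (m * (σ * ε) * t : ℤ) = σ * ((m * ε * t : ℕ) : ℤ) := by push_cast; ring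
  have hc : Nat.Coprime (m * ε * t) (q * r) := by
    refine Nat.coprime_of_dvd fun l hl h1 h2 => ?_
    rcases (hl.dvd_mul.1 h1).imp_left hl.dvd_mul.1 with (h | h) | h
    · have h3 := hcop.isUnit_of_dvd' ((Int.natCast_dvd_natCast.2 h).trans hmd)
        (Int.natCast_dvd_natCast.2 h2)
      exact (Nat.prime_iff_prime_int.1 hl).not_isUnit h3
    · obtain ⟨rfl, h3, -⟩ := hε' l hl h
      rcases hl.dvd_mul.1 h2 with h4 | h4
      · exact h3 h4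
      · exact absurd (hpr 2 hl (h4.mul_left _)) (by omega)
    · rcases ht' l hl h with ⟨h3, h4, -⟩ | ⟨-, h3⟩
      · rcases hl.dvd_mul.1 h2 with h5 | h5
        · exact h4 h5
        · exact absurd (hpr l hl (h5.mul_left _)) (by omega)
      · exact h3 h2
  refine ⟨?_, fun l hl h1 h2 => ?_, ?_⟩
  · rw [e]
    have := Nat.isCoprime_iff_coprime.2 hc
    rcases hσ with rfl | rfl
    · rwa [one_mul]
    · rw [neg_one_mul]
      exact this.neg_left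
  · obtain ⟨l1, l2⟩ := Nat.mem_primesBelow.1 hl
    have h3 : l ∣ m * ε * t := by
      rw [e] at h2
      rcases hσ with rfl | rfl
      · rw [one_mul] at h2
        exact Int.natCast_dvd_natCast.1 h2
      · rw [neg_one_mul, dvd_neg] at h2
        exact Int.natCast_dvd_natCast.1 h2
    rcases (l2.dvd_mul.1 h3).imp_left l2.dvd_mul.1 with (h | h) | h
    · exact absurd (hpr l l2 (h.mul_right _)) (by omega)
    · obtain ⟨rfl, -, h4⟩ := hε' l l2 h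
      exact h4 h1
    · rcases ht' l l2 h with ⟨-, -, h4⟩ | ⟨h4, -⟩
      · exact h4 h1
      · omega
  · rcases hε with ⟨-, h | h⟩ | ⟨rfl, -⟩
    · exact Or.inl h
    · exact Or.inr (Or.inl h)
    · exact Or.inr (Or.inr ⟨m * σ * t, by push_cast; ring⟩)

theorem swb_fin {c y d P p l j S E I : ℝ} (hc : 0 < c) (hy : 0 ≤ y) (hd : 0 < d) (hP : 0 ≤ P)
    (hp : 1 ≤ p) (l0 : 0 < l) (hl : l ≤ p) (hj : 0 < j) (h1 : (d * (2 * P)) ^ 2 * p ^ 3 ≤ y ^ 2)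
    (h2 : c / l ≤ S) (h3 : y / (32 * d) * S - E ≤ 2 * j * I) (h4 : E ≤ c * P / 32) :
    c / 128 * y / (d * l * j) ≤ I := by
  have k1 : d * (2 * P) * l ≤ y := by
    refine (abs_le_of_sq_le_sq' (le_trans ?_ h1) hy).2
    rw [mul_pow]
    refine mul_le_mul_of_nonneg_left ?_ (sq_nonneg _)
    exact (pow_le_pow_left₀ l0.le hl 2).trans (pow_le_pow_right₀ hp (by norm_num))
  have k2 : c * P / 32 ≤ c * y / (64 * d * l) := by
    rw [div_le_div_iff₀ (by norm_num) (by positivity)]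
    nlinarith
  have k3 := mul_le_mul_of_nonneg_left h2 (show 0 ≤ y / (32 * d) by positivity)
  have k4 : y / (32 * d) * (c / l) = 2 * (c * y / (64 * d * l)) := by field_simp; ring
  have k5 : c / 128 * y / (d * l * j) = c * y / (64 * d * l) / (2 * j) := by field_simp; ring
  rw [k5, div_le_iff₀ (by positivity)]
  linarith

end Vale.Agent.P013
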