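import Vale.Agent.P013.SWa
import Vale.Agent.P013.SW
import Vale.Agent.P013.Fund
import Vale.Agent.P013.SWbX2

/-! The concurrent case with small height: lower bound by switching to the top prime.

Proof plan. `Ω = q N - c₀`, `P = 2^j`, `Y = q y`. Choose a sign `σ = ±1` and a real `Z` with
`Y/4 ≤ Z ≤ |c₀| + Y` such that `Z < w ≤ Z + Y/8` implies `c₀ ≤ σ w < c₀ + Y`
(`σ = 1, Z = c₀ + 3Y/4` if `c₀ ≥ -Y/2`; `σ = -1, Z = -c₀ - Y/4` otherwise). `T = Z/(m P)`,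
`p^1.5/2 ≤ T ≤ p^(2C+3)`. `P₁` = odd primes `< p` dividing neither `q` nor `Ω`. Let `ε₂ = 2` if
`2 ∤ q` and `2 ∤ Ω`, else `ε₂ = 1`; `t = ε₂ t'` with `t'` in the set of `cofactor_sum` for
`T/ε₂`, `Q = q r`. So `3T/4 < t ≤ T`. For such `t` the window
`PI W₁ W₂`, `W₁ = Z/(m t)`, `W₂ = (Z + Y/8)/(m t)` lies in `box j`. A prime `n` in the window with
`q r ∣ W := Ω + σ n m t` and `q l ∤ W` for all active `l` (active: `l < p` and `l ∣ q`, or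
`l ∈ P₁` and `l ∤ t`) gives `v = (σ n m t - c₀)/q ∈ [0, y)` counted by
`ideal N c₀ y q r (n m) p` (`W = q (N + v)`; for inactive `l < p`: if `l ∣ Ω` then `l ∤ n m t`,
if `l ∤ Ω` then `l ∣ t`; either way `l ∤ W`), and `t ↦ v` is injective for fixed `n`.
For fixed `t` apply `fund_lemma` (`w = p`) to the primes of the window with `q r ∣ W`, weight
`log n`, `g l = 1/l` if `l ∣ q`, `1/(l-1)` otherwise, `X = (W₂ - W₁)/φ(q r)`: for `e = pr s`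
the condition is `q r e ∣ W`, one reduced class mod `q r e ≤ p^(C+s₀) ≤ (log W₁)^A`, and
`φ(q r e) ∏ g = φ(q r)` (`Nat.totient_mul_of_prime_of_dvd`, `..._of_not_dvd`);
`siegel_walfisz A` at `W₁` and `W₂` gives the remainder `4 C_A P/(log P)^A`. Sum over `t`: the
main term is `≥ (q y/(16 m φ(q r))) ∏_{l ∣ q, l<p}(1 - 1/l) ∏_{P₁}(1 - 1/(l-1)) ∑ 1/t
≥ c y/(m r log p)` (`φ(q r) ≤ r φ(q)`, `Nat.totient_eq_mul_prod_factors`), which is `≥ c P`,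
and the errors total `≤ p^(2C+3+s₀) 4 C_A P/(log P)^A ≤ c P/2` for `A` large in terms of
`B, C, s₀` and `j` large. Divide by `log (2P) ≤ 2 j`. -/

open Finset

namespace Vale.Agent.P013

theorem ideal_lower (C : ℕ) : ∃ (c : ℝ) (p₀ : ℕ), 0 < c ∧ ∀ B : ℕ, ∃ j₀ : ℕ,
    ∀ (N c₀ : ℤ) (y p q r m j : ℕ), j₀ ≤ j → p₀ ≤ p → p ≤ j ^ B → 1 ≤ q → 1 ≤ r → 1 ≤ m →
    IsCoprime (q * N - c₀) ((q * r : ℕ) : ℤ) → (m : ℤ) ∣ q * N - c₀ →
    (∀ l : ℕ, l.Prime → l ∣ m * r → p ≤ l) → q * r ≤ p ^ C → |c₀| ≤ p ^ C * q * y →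
    (m * r * 2 ^ (j + 1)) ^ 2 * p ^ 3 ≤ y ^ 2 → y ≤ m * r * 2 ^ j * p ^ 2 →
    c * y / (m * r * Real.log p * j) ≤ ∑ n ∈ box j, (ideal N c₀ y q r (n * m) p : ℝ) := by
  obtain ⟨c₁, p₁, hc₁, hco⟩ := cofactor_sum (2 * C + 3)
  obtain ⟨s₀, hone⟩ := swb_one
  refine ⟨c₁ / 128, max p₁ (2 ^ 20), by positivity, fun B => ?_⟩
  obtain ⟨CA, hCA, hSW⟩ := swb_window (2 * B * (2 * C + 3 + s₀) + 1)
  obtain ⟨j₀, hj₀⟩ := swb_num B (2 * C + 3 + s₀) (32 * CA / c₁ + 1)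
  refine ⟨j₀, fun N c₀ y p q r m j hj hp hpB hq hr hm hcop hmd hpr hqr hc₀ hy1 hy2 => ?_⟩
  obtain ⟨j1, hpj, hL⟩ := hj₀ j p hj hpB
  have hp1 : p₁ ≤ p := (le_max_left _ _).trans hp
  have hp2 : 2 ^ 20 ≤ p := (le_max_right _ _).trans hp
  have p2 : 2 < p := lt_of_lt_of_le (by norm_num) hp2
  have p2' : (2 : ℝ) < p := by exact_mod_cast p2
  have q1 : (1 : ℝ) ≤ q := by exact_mod_cast hq
  have r1 : (1 : ℝ) ≤ r := by exact_mod_cast hr
  have m1 : (1 : ℝ) ≤ m := by exact_mod_cast hm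
  have hy1' : ((m : ℝ) * r * (2 * 2 ^ j)) ^ 2 * (p : ℝ) ^ 3 ≤ (y : ℝ) ^ 2 := by
    rw [← pow_succ']
    exact_mod_cast hy1
  have hy2' : (y : ℝ) ≤ m * r * 2 ^ j * (p : ℝ) ^ 2 := by exact_mod_cast hy2
  have hqr' : (q : ℝ) * r ≤ (p : ℝ) ^ C := by exact_mod_cast hqr
  have hc₀' : |(c₀ : ℝ)| ≤ (p : ℝ) ^ C * q * y := by exact_mod_cast hc₀
  have hpj' : (p : ℝ) ≤ 2 ^ j := by exact_mod_cast hpj
  have y0 : (0 : ℝ) < y := by
    refine lt_of_le_of_ne (by positivity) fun e => ?_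
    rw [← e] at hy1'
    have : 0 < ((m : ℝ) * r * (2 * 2 ^ j)) ^ 2 * (p : ℝ) ^ 3 := by positivity
    linarith
  have Y0 : (0 : ℝ) < q * y := by positivity
  obtain ⟨σ, Z, hσ, z1, z2, hZ⟩ := swb_geo c₀ (q * y) Y0
  have Z0 : 0 < Z := lt_of_lt_of_le (by positivity) z1
  obtain ⟨ε, hε⟩ : ∃ ε : ℕ, ε = 1 ∧ (2 ∣ q ∨ 2 ∣ q * N - c₀) ∨
      ε = 2 ∧ ¬ 2 ∣ q ∧ ¬ 2 ∣ q * N - c₀ := by
    by_cases h : 2 ∣ q ∨ 2 ∣ q * N - c₀
    · exact ⟨1, Or.inl ⟨rfl, h⟩⟩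
    · exact ⟨2, Or.inr ⟨rfl, not_or.1 h⟩⟩
  have e12 : (1 : ℝ) ≤ ε ∧ (ε : ℝ) ≤ 2 := by
    rcases hε with ⟨rfl, -⟩ | ⟨rfl, -⟩ <;> norm_num
  have d0 : (0 : ℝ) < m * ε := by have := e12.1; positivity
  obtain ⟨T1, T2⟩ := swb_T p2'.le q1 r1 m1 (by positivity) e12.1 e12.2 y0.le hy1' hy2' hqr' z1
    (by linarith)
  rw [← pow_mul, ← pow_add, mul_comm C] at T2
  have T0 : 0 < Z / (m * ε * 2 ^ j) := by positivity
  have hcof := hco p (q * r) _ (swbP (q * N - c₀) q p) hp1 T0 (swb_T_lower hp2 T0 T1) T2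
    (filter_subset _ _) (fun h => (mem_filter.1 h).2.1 rfl) (Nat.mul_pos hq hr)
    (hqr.trans (Nat.pow_le_pow_right (by omega) (by omega)))
  generalize hT : (Ioc ⌊3 * (Z / (m * ε * 2 ^ j)) / 4⌋₊ ⌊Z / (m * ε * 2 ^ j)⌋₊).filter
    (fun t => ∀ l ∈ t.primeFactors, l ∈ swbP (q * N - c₀) q p ∨ (p ≤ l ∧ ¬ l ∣ q * r)) = 𝒯 at hcof
  have hTc : (𝒯.card : ℝ) ≤ (p : ℝ) ^ (2 * C + 3) := by
    have h1 : 𝒯.card ≤ ⌊Z / (m * ε * 2 ^ j)⌋₊ := by
      rw [← hT]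
      exact (card_filter_le _ _).trans (by rw [Nat.card_Ioc]; omega)
    exact ((Nat.le_floor_iff T0.le).1 h1).trans T2
  have hW : ∀ t ∈ 𝒯, (0 : ℝ) < t ∧ 2 ^ j ≤ Z / (m * ε * t) ∧
      Z / (m * ε * t) ≤ (Z + q * y / 8) / (m * ε * t) ∧
      (Z + q * y / 8) / (m * ε * t) < 2 * 2 ^ j := by
    intro t ht
    rw [← hT, mem_filter, mem_Ioc, Nat.floor_lt (by positivity), Nat.le_floor_iff T0.le] at ht
    exact swb_W d0 (by positivity) Y0.le Z0 z1 ht.1.1 ht.1.2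
  have P2 : (2 : ℝ) ≤ 2 ^ j := p2'.le.trans hpj'
  have L0 : 0 < Real.log (2 ^ j) := Real.log_pos (by linarith)
  have hK : (p : ℝ) ^ (2 * C + 3 + s₀) ≤ Real.log (2 ^ j) ^ (2 * B * (2 * C + 3 + s₀) + 1) := by
    refine le_trans (le_mul_of_one_le_left (by positivity) ?_) hL
    have : 0 ≤ 32 * CA / c₁ := by positivity
    linarith
  have Pi0 : 0 ≤ ∏ l ∈ swbP (q * N - c₀) q p, (1 - 1 / ((l : ℝ) - 1)) := by
    refine prod_nonneg fun l hl => ?_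
    have h2 : (2 : ℝ) ≤ l := by
      exact_mod_cast (Nat.prime_of_mem_primesBelow (mem_filter.1 hl).1).two_le
    exact sub_nonneg.2 ((div_le_one (by linarith)).2 (by linarith))
  have hS : ∀ t ∈ 𝒯, y / (32 * (m * r)) * ((∏ l ∈ swbP (q * N - c₀) q p, (1 - 1 / ((l : ℝ) - 1)))
      * (1 / (t : ℝ))) - (p : ℝ) ^ s₀ * (CA * 2 ^ j /
        Real.log (2 ^ j) ^ (2 * B * (2 * C + 3 + s₀) + 1)) ≤
      ∑ n ∈ swbS (q * N - c₀) (m * (σ * ε) * t) q r p (Z / (m * ε * t))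
        ((Z + q * y / 8) / (m * ε * t)), Real.log n := by
    intro t ht
    obtain ⟨t0, w1, w2, w3⟩ := hW t ht
    rw [← hT] at ht
    obtain ⟨u1, u2, u3⟩ := swb_u p2 hcop hmd hpr hσ hε (by exact_mod_cast t0.ne')
      (mem_filter.1 ht).2
    refine le_trans (sub_le_sub_right ?_ _) (hone _ _ q r p _ _ _ p2.le hq hr (hpj'.trans w1) w2
      (fun l hl h => hpr l hl (h.mul_left _)) hcop u1 u2 u3 fun M M1 M2 c1 c2 =>
        hSW _ _ _ M _ _ P2 w1 w2 w3.le M1 (M2.trans (le_trans ?_ hK)) c1 c2)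
    · have e : ((Z + q * y / 8) / (m * ε * t) - Z / (m * ε * t)) / (q * r : ℕ)
          = y / (8 * ε * (m * r)) * (1 / (t : ℝ)) := by
        have := e12.1
        push_cast
        field_simp
        ring
      have k : (y : ℝ) / (16 * (m * r)) ≤ y / (8 * ε * (m * r)) := by
        have := e12.1
        gcongr
        linarith [e12.2]
      rw [e]
      have k2 := mul_le_mul_of_nonneg_right k (mul_nonneg Pi0 (show 0 ≤ 1 / (t : ℝ) by positivity))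
      have e2 : (y : ℝ) / (32 * (m * r)) = y / (16 * (m * r)) / 2 := by field_simp; ring
      rw [e2]
      linarith
    · rw [pow_add]
      refine mul_le_mul_of_nonneg_right ?_ (by positivity)
      push_cast
      exact hqr'.trans (pow_le_pow_right₀ (by linarith) (by omega))
  have hC := swb_count j1 𝒯 (fun t => swbS (q * N - c₀) (m * (σ * ε) * t) q r p (Z / (m * ε * t))
    ((Z + q * y / 8) / (m * ε * t))) (fun n => ideal N c₀ y q r (n * m) p) ?_ ?_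
  · have hsum := (sum_le_sum hS).trans hC
    rw [sum_sub_distrib, ← mul_sum, ← mul_sum, sum_const, nsmul_eq_mul] at hsum
    refine swb_fin hc₁ y0.le (by positivity) (by positivity) (by linarith)
      (Real.log_pos (by linarith)) ((Real.log_le_sub_one_of_pos (by linarith)).trans (by linarith))
      (by exact_mod_cast j1) hy1' hcof hsum ?_
    rw [← mul_assoc, ← mul_div_assoc, div_le_div_iff₀ (by positivity) (by norm_num)]
    have k1 : 32 * CA * (p : ℝ) ^ (2 * C + 3 + s₀) ≤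
        c₁ * Real.log (2 ^ j) ^ (2 * B * (2 * C + 3 + s₀) + 1) := by
      refine le_trans ?_ (mul_le_mul_of_nonneg_left hL hc₁.le)
      rw [← mul_assoc, mul_add, mul_div_cancel₀ _ hc₁.ne']
      exact mul_le_mul_of_nonneg_right (by linarith) (by positivity)
    calc (𝒯.card : ℝ) * (p : ℝ) ^ s₀ * (CA * 2 ^ j) * 32
        ≤ (p : ℝ) ^ (2 * C + 3) * (p : ℝ) ^ s₀ * (CA * 2 ^ j) * 32 := by gcongr
      _ = 32 * CA * (p : ℝ) ^ (2 * C + 3 + s₀) * 2 ^ j := by rw [pow_add _ (2 * C + 3)]; ring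
      _ ≤ c₁ * Real.log (2 ^ j) ^ (2 * B * (2 * C + 3 + s₀) + 1) * 2 ^ j := by gcongr
      _ = _ := by ring
  · intro t ht n hn
    obtain ⟨-, w1, -, w3⟩ := hW t ht
    obtain ⟨n1, n2, n3⟩ := (mem_PI (le_trans (by positivity) w1)).1 (mem_filter.1 hn).1
    have k1 : (2 : ℝ) ^ j ≤ n := w1.trans n2.le
    have k2 : (n : ℝ) < 2 ^ (j + 1) := by rw [pow_succ']; exact n3.trans_lt w3
    exact mem_box.2 ⟨n1, by exact_mod_cast k1, by exact_mod_cast k2⟩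
  · intro n hn
    have k0 : σ * ε ≠ 0 := by
      rcases hσ with rfl | rfl <;> rcases hε with ⟨rfl, -⟩ | ⟨rfl, -⟩ <;> norm_num
    refine swb_inj N c₀ (σ * ε) hq k0 hm (mem_box.1 hn).1.one_le _ fun t ht => ?_
    obtain ⟨ht, hn⟩ := mem_filter.1 ht
    obtain ⟨t0, w1, -, -⟩ := hW t ht
    obtain ⟨h1, h2⟩ := mem_filter.1 hn
    obtain ⟨-, n2, n3⟩ := (mem_PI (le_trans (by positivity) w1)).1 h1
    rw [div_lt_iff₀ (by positivity)] at n2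
    rw [le_div_iff₀ (by positivity)] at n3
    obtain ⟨a, b⟩ := hZ _ n2 n3
    rw [show (σ : ℝ) * (n * (m * ε * t)) = ((m * (σ * ε) * t * n : ℤ) : ℝ) by push_cast; ring]
      at a b
    exact ⟨by exact_mod_cast a, by exact_mod_cast b, h2⟩

end Vale.Agent.P013
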