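import Vale.Agent.P013.SW
import Vale.Agent.P013.Fund

/-! Auxiliary lemmas for `ideal_lower`: one window of primes. -/

open Finset

namespace Vale.Agent.P013

theorem swb_class {Ω u M : ℤ} (h1 : IsCoprime Ω M) (h2 : IsCoprime u M) :
    ∃ a : ℤ, IsCoprime a M ∧ ∀ n : ℤ, M ∣ Ω + u * n ↔ M ∣ n - a := by
  obtain ⟨u', k, hk⟩ := h2
  have h3 : IsCoprime u' M := ⟨u, k, by rw [← hk]; ring⟩
  refine ⟨-(Ω * u'), (h1.mul_left h3).neg_left, fun n => ⟨fun h => ?_, fun h => ?_⟩⟩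
  · have e : n - -(Ω * u') = u' * (Ω + u * n) + M * (k * n) := by
      linear_combination (-n) * hk
    rw [e]
    exact dvd_add (h.mul_left _) (dvd_mul_right _ _)
  · have e : Ω + u * n = u * (n - -(Ω * u')) + M * (k * Ω) := by
      linear_combination (-Ω) * hk
    rw [e]
    exact dvd_add (h.mul_left _) (dvd_mul_right _ _)

theorem swb_split {W₁ W₂ : ℝ} (h0 : 0 ≤ W₁) (h : W₁ ≤ W₂) (c : ℕ → Prop) [DecidablePred c]
    (f : ℕ → ℝ) : ∑ n ∈ (PI W₁ W₂).filter c, f n =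
      ∑ n ∈ (PI 0 W₂).filter c, f n - ∑ n ∈ (PI 0 W₁).filter c, f n := by
  rw [eq_sub_iff_add_eq, ← sum_union]
  · refine sum_congr ?_ fun _ _ => rfl
    ext n
    simp only [mem_union, mem_filter, mem_PI h0, mem_PI le_rfl]
    constructor
    · rintro (⟨⟨a, b, d⟩, e⟩ | ⟨⟨a, b, d⟩, e⟩)
      · exact ⟨⟨a, h0.trans_lt b, d⟩, e⟩
      · exact ⟨⟨a, b, d.trans h⟩, e⟩
    · rintro ⟨⟨a, b, d⟩, e⟩
      rcases lt_or_ge W₁ n with g | g
      · exact Or.inl ⟨⟨a, g, d⟩, e⟩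
      · exact Or.inr ⟨⟨a, b, g⟩, e⟩
  · rw [disjoint_left]
    intro n h1 h2
    simp only [mem_filter, mem_PI h0, mem_PI le_rfl] at h1 h2
    linarith [h1.1.2.1, h2.1.2.2]

theorem swb_window (A : ℕ) : ∃ C : ℝ, 0 < C ∧ ∀ (P W₁ W₂ : ℝ) (M : ℕ) (Ω u : ℤ), 2 ≤ P → P ≤ W₁ →
    W₁ ≤ W₂ → W₂ ≤ 2 * P → 1 ≤ M → (M : ℝ) ≤ Real.log P ^ A → IsCoprime Ω (M : ℤ) →
    IsCoprime u (M : ℤ) →
    |∑ n ∈ (PI W₁ W₂).filter (fun n : ℕ => (M : ℤ) ∣ Ω + u * n), Real.log n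
      - (W₂ - W₁) / M.totient| ≤ C * P / Real.log P ^ A := by
  obtain ⟨C, hC, H⟩ := siegel_walfisz A
  refine ⟨4 * C, by positivity, fun P W₁ W₂ M Ω u hP h1 h2 h3 hM hM' c1 c2 => ?_⟩
  obtain ⟨a, ha, hn⟩ := swb_class c1 c2
  have l0 : 0 < Real.log P := Real.log_pos (by linarith)
  have key : ∀ W, P ≤ W → W ≤ 2 * P →
      |∑ n ∈ (PI 0 W).filter (fun n : ℕ => (M : ℤ) ∣ Ω + u * n), Real.log n - W / M.totient| ≤
        2 * C * P / Real.log P ^ A := by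
    intro W k1 k2
    have k3 : Real.log P ^ A ≤ Real.log W ^ A :=
      pow_le_pow_left₀ l0.le (Real.log_le_log (by linarith) k1) A
    simp only [hn]
    refine (H W M a (hP.trans k1) hM (hM'.trans k3) ha).trans ?_
    refine div_le_div₀ (by nlinarith) (by nlinarith) (by positivity) k3
  have k1 := abs_le.1 (key W₁ h1 (h2.trans h3))
  have k2 := abs_le.1 (key W₂ (h1.trans h2) h3)
  rw [swb_split (by linarith) h2, sub_div, show 4 * C * P / Real.log P ^ A =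
    2 * C * P / Real.log P ^ A + 2 * C * P / Real.log P ^ A by ring, abs_le]
  constructor <;> linarith [k1.1, k1.2, k2.1, k2.2]

/-- The local densities. -/
noncomputable def swbG (q l : ℕ) : ℝ := if l ∣ q then 1 / (l : ℝ) else 1 / ((l : ℝ) - 1)

theorem swb_tot {q r : ℕ} (s : Finset ℕ) (hs : ∀ l ∈ s, l.Prime ∧ ¬ l ∣ r) :
    ((q * r * pr s).totient : ℝ) * ∏ l ∈ s, swbG q l = (q * r).totient := by
  induction s using Finset.induction_on with
  | empty => simp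
  | insert l s hl ih =>
    have h1 := hs l (mem_insert_self _ _)
    have h2 : ∀ l ∈ s, l.Prime ∧ ¬ l ∣ r := fun k hk => hs k (mem_insert_of_mem hk)
    have h3 : (2 : ℝ) ≤ l := by exact_mod_cast h1.1.two_le
    rw [← ih h2, prod_insert hl, pr_insert hl, show q * r * (l * pr s) = l * (q * r * pr s) by ring,
      swbG]
    split_ifs with h
    · rw [Nat.totient_mul_of_prime_of_dvd h1.1 ((h.mul_right _).mul_right _)]
      have : (l : ℝ) ≠ 0 := by linarith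
      push_cast
      field_simp
    · have h4 : ¬ l ∣ q * r * pr s := by
        rw [h1.1.dvd_mul, h1.1.dvd_mul, prime_dvd_pr (fun k hk => (h2 k hk).1) h1.1]
        tauto
      rw [Nat.totient_mul_of_prime_of_not_dvd h1.1 h4]
      have : (l : ℝ) - 1 ≠ 0 := by linarith
      push_cast [Nat.cast_sub h1.1.one_le]
      field_simp

theorem swb_tot_le {n : ℕ} (s : Finset ℕ) (hs : s ⊆ n.primeFactors) :
    (n.totient : ℝ) ≤ n * ∏ l ∈ s, (1 - 1 / (l : ℝ)) := by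
  have h := congrArg (fun x : ℚ => (x : ℝ)) (Nat.totient_eq_mul_prod_factors n)
  push_cast at h
  rw [h]
  simp only [one_div]
  refine mul_le_mul_of_nonneg_left (prod_le_prod_of_subset_of_le_one hs (fun l hl => ?_)
    fun l _ _ => ?_) (by positivity)
  · have : (1 : ℝ) ≤ l := by exact_mod_cast (Nat.prime_of_mem_primeFactors hl).one_le
    exact sub_nonneg.2 (inv_le_one_of_one_le₀ this)
  · exact sub_le_self _ (by positivity)

/-- The odd primes below `p` dividing neither `q` nor `Ω`. -/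
def swbP (Ω : ℤ) (q p : ℕ) : Finset ℕ :=
  p.primesBelow.filter fun l => l ≠ 2 ∧ ¬ l ∣ q ∧ ¬ (l : ℤ) ∣ Ω

/-- The primes of the window surviving the sieve. -/
noncomputable def swbS (Ω u : ℤ) (q r p : ℕ) (W₁ W₂ : ℝ) : Finset ℕ :=
  (PI W₁ W₂).filter fun n : ℕ => ((q * r : ℕ) : ℤ) ∣ Ω + u * n ∧
    ∀ l ∈ p.primesBelow, ¬ ((q * l : ℕ) : ℤ) ∣ Ω + u * n

theorem swb_dvd_iff {q r : ℕ} (hq : 1 ≤ q) {s : Finset ℕ} (hs : ∀ l ∈ s, l.Prime ∧ ¬ l ∣ r)
    (W : ℤ) : (((q * r : ℕ) : ℤ) ∣ W ∧ ∀ l ∈ s, ((q * l : ℕ) : ℤ) ∣ W) ↔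
      ((q * r * pr s : ℕ) : ℤ) ∣ W := by
  have q0 : (q : ℤ) ≠ 0 := by exact_mod_cast (by omega : q ≠ 0)
  constructor
  · rintro ⟨⟨k, rfl⟩, h⟩
    rw [Nat.cast_mul (q * r)]
    refine mul_dvd_mul_left _ ((pr_dvd_iff fun l hl => (hs l hl).1).2 fun l hl => ?_)
    have h1 := h l hl
    push_cast at h1
    rw [mul_assoc, mul_dvd_mul_iff_left q0] at h1
    rcases (Nat.prime_iff_prime_int.1 (hs l hl).1).dvd_or_dvd h1 with h2 | h2
    · exact absurd (Int.natCast_dvd_natCast.1 h2) (hs l hl).2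
    · exact h2
  · intro h
    refine ⟨(Int.natCast_dvd_natCast.2 (dvd_mul_right _ _)).trans h, fun l hl => ?_⟩
    refine (Int.natCast_dvd_natCast.2 ?_).trans h
    rw [mul_assoc]
    exact mul_dvd_mul_left _ ((dvd_prod_of_mem _ hl).mul_left _)

theorem swb_cop {x : ℤ} {n : ℕ} {s : Finset ℕ} (h : IsCoprime x (n : ℤ))
    (hs : ∀ l ∈ s, l.Prime ∧ ¬ (l : ℤ) ∣ x) : IsCoprime x ((n * pr s : ℕ) : ℤ) := by
  rw [Nat.cast_mul, pr, Nat.cast_prod]
  refine h.mul_right (IsCoprime.prod_right fun l hl => ?_)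
  exact ((Nat.prime_iff_prime_int.1 (hs l hl).1).coprime_iff_not_dvd.2 (hs l hl).2).symm

theorem swbG_bd {q l : ℕ} (hl : l.Prime) (h : l = 2 → 2 ∣ q) :
    0 ≤ swbG q l ∧ swbG q l ≤ 1 / 2 ∧ swbG q l ≤ 2 / l := by
  have h2 : (2 : ℝ) ≤ l := by exact_mod_cast hl.two_le
  rw [swbG]
  split_ifs with hq
  · exact ⟨by positivity, one_div_le_one_div_of_le two_pos h2,
      div_le_div_of_nonneg_right one_le_two (by positivity)⟩
  · have h3 : 3 ≤ l := by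
      have := hl.two_le
      rcases Nat.eq_or_lt_of_le this with e | e
      · exact absurd (e ▸ h e.symm) hq
      · exact e
    have h4 : (3 : ℝ) ≤ l := by exact_mod_cast h3
    refine ⟨div_nonneg zero_le_one (by linarith), one_div_le_one_div_of_le two_pos (by linarith), ?_⟩
    rw [div_le_div_iff₀ (by linarith) (by linarith)]
    linarith

theorem swb_main_term {Ω : ℤ} {q r p : ℕ} (hq : 1 ≤ q) (hr : 1 ≤ r) (Act : Finset ℕ)
    (hA : ∀ l ∈ Act, l ∈ p.primesBelow ∧ ¬ (l : ℤ) ∣ Ω ∧ (l = 2 → 2 ∣ q)) :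
    ((q * r).totient : ℝ) * ∏ l ∈ swbP Ω q p, (1 - 1 / ((l : ℝ) - 1)) ≤
      (q * r : ℕ) * ∏ l ∈ Act, (1 - swbG q l) := by
  have hP : ∀ l ∈ swbP Ω q p, 0 ≤ 1 - 1 / ((l : ℝ) - 1) ∧ 1 - 1 / ((l : ℝ) - 1) ≤ 1 := by
    intro l hl
    have h2 : (2 : ℝ) ≤ l := by
      exact_mod_cast (Nat.prime_of_mem_primesBelow (mem_filter.1 hl).1).two_le
    exact ⟨sub_nonneg.2 ((div_le_one (by linarith)).2 (by linarith)),
      sub_le_self _ (div_nonneg zero_le_one (by linarith))⟩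
  rw [← prod_filter_mul_prod_filter_not Act (fun l => l ∣ q), ← mul_assoc]
  refine mul_le_mul ?_ ?_ (prod_nonneg fun l hl => (hP l hl).1) (mul_nonneg (by positivity)
    (prod_nonneg fun l hl => ?_))
  · refine (swb_tot_le (Act.filter fun l => l ∣ q) fun l hl => ?_).trans (le_of_eq ?_)
    · obtain ⟨h1, h2⟩ := mem_filter.1 hl
      exact Nat.mem_primeFactors.2 ⟨Nat.prime_of_mem_primesBelow (hA l h1).1, h2.mul_right _,
        by positivity⟩
    · congr 1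
      exact prod_congr rfl fun l hl => by rw [swbG, if_pos (mem_filter.1 hl).2]
  · refine (prod_le_prod_of_subset_of_le_one (s := Act.filter fun l => ¬ l ∣ q) (fun l hl => ?_)
      (fun l hl => (hP l hl).1) fun l hl _ => (hP l hl).2).trans (le_of_eq ?_)
    · obtain ⟨h1, h2⟩ := mem_filter.1 hl
      obtain ⟨h3, h4, h5⟩ := hA l h1
      exact mem_filter.2 ⟨h3, fun e => h2 (e ▸ h5 e), h2, h4⟩
    · exact prod_congr rfl fun l hl => by rw [swbG, if_neg (mem_filter.1 hl).2]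
  · obtain ⟨h3, -, h5⟩ := hA l (mem_filter.1 hl).1
    have := (swbG_bd (Nat.prime_of_mem_primesBelow h3) h5).2.1
    linarith

theorem swb_one : ∃ s₀ : ℕ, ∀ (Ω u : ℤ) (q r p : ℕ) (W₁ W₂ ρ : ℝ), 2 ≤ p → 1 ≤ q → 1 ≤ r →
    (p : ℝ) ≤ W₁ → W₁ ≤ W₂ → (∀ l : ℕ, l.Prime → l ∣ r → p ≤ l) →
    IsCoprime Ω ((q * r : ℕ) : ℤ) → IsCoprime u ((q * r : ℕ) : ℤ) →
    (∀ l ∈ p.primesBelow, (l : ℤ) ∣ Ω → ¬ (l : ℤ) ∣ u) → (2 ∣ q ∨ 2 ∣ Ω ∨ 2 ∣ u) →
    (∀ M : ℕ, 1 ≤ M → (M : ℝ) ≤ (q * r : ℕ) * (p : ℝ) ^ s₀ → IsCoprime Ω (M : ℤ) →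
      IsCoprime u (M : ℤ) →
      |∑ n ∈ (PI W₁ W₂).filter (fun n : ℕ => (M : ℤ) ∣ Ω + u * n), Real.log n
        - (W₂ - W₁) / M.totient| ≤ ρ) →
    (W₂ - W₁) / (q * r : ℕ) * (∏ l ∈ swbP Ω q p, (1 - 1 / ((l : ℝ) - 1))) / 2 - (p : ℝ) ^ s₀ * ρ
      ≤ ∑ n ∈ swbS Ω u q r p W₁ W₂, Real.log n := by
  obtain ⟨s₀, -, hF⟩ := fund_lemma
  refine ⟨s₀, fun Ω u q r p W₁ W₂ ρ hp hq hr hW h12 hrp c1 c2 hΩu hpar hSW => ?_⟩
  set Act := p.primesBelow.filter fun l : ℕ => ¬ (l : ℤ) ∣ Ω ∧ ¬ (l : ℤ) ∣ u with hAct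
  have hA : ∀ l ∈ Act, l ∈ p.primesBelow ∧ ¬ (l : ℤ) ∣ Ω ∧ (l = 2 → 2 ∣ q) := by
    intro l hl
    obtain ⟨h1, h2, h3⟩ := mem_filter.1 hl
    refine ⟨h1, h2, fun e => ?_⟩
    subst e
    rcases hpar with h | h | h
    · exact h
    · exact absurd h h2
    · exact absurd h h3
  have hA2 : ∀ l ∈ Act, l.Prime ∧ ¬ l ∣ r := by
    intro l hl
    obtain ⟨h1, h2⟩ := Nat.mem_primesBelow.1 (hA l hl).1
    exact ⟨h2, fun h => absurd (hrp l h2 h) (by omega)⟩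
  have t0 : (0 : ℝ) < (q * r).totient := by exact_mod_cast Nat.totient_pos.2 (by positivity)
  have hW0 : 0 ≤ W₁ := le_trans (by positivity) hW
  have hlog : ∀ n : ℕ, 0 ≤ Real.log n := fun n => Real.log_natCast_nonneg n
  have H := (hF p Act (swbG q) (by exact_mod_cast hp)
    (fun l hl => ⟨(hA2 l hl).1, by exact_mod_cast (Nat.mem_primesBelow.1 (hA l hl).1).1.le⟩)
    (fun l hl => swbG_bd (hA2 l hl).1 (hA l hl).2.2)
    ((PI W₁ W₂).filter fun n : ℕ => ((q * r : ℕ) : ℤ) ∣ Ω + u * n) (fun n => Real.log n)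
    (fun l n => ((q * l : ℕ) : ℤ) ∣ Ω + u * n) ((W₂ - W₁) / (q * r).totient) ρ
    (div_nonneg (by linarith) t0.le) (fun n _ => hlog n) ?_).1
  · refine le_trans (sub_le_sub_right (div_le_div_of_nonneg_right ?_ zero_le_two) _)
      (H.trans (sum_le_sum_of_subset_of_nonneg (fun n hn => ?_) fun n _ _ => hlog n))
    · have h1 := swb_main_term hq hr Act hA
      have h2 : (0 : ℝ) < (q * r : ℕ) := by positivity
      rw [div_mul_eq_mul_div, div_mul_eq_mul_div, div_le_div_iff₀ h2 t0]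
      have h3 := mul_le_mul_of_nonneg_left h1 (sub_nonneg.2 h12)
      linarith
    · simp only [mem_filter] at hn
      obtain ⟨⟨h1, h2⟩, h3⟩ := hn
      refine mem_filter.2 ⟨h1, h2, fun l hl h4 => ?_⟩
      obtain ⟨h5, h6⟩ := Nat.mem_primesBelow.1 hl
      have h7 : (l : ℤ) ∣ Ω + u * n := (Int.natCast_dvd_natCast.2 (dvd_mul_left _ _)).trans h4
      obtain ⟨n1, n2, -⟩ := (mem_PI hW0).1 h1
      by_cases hΩ : (l : ℤ) ∣ Ω
      · rcases (Nat.prime_iff_prime_int.1 h6).dvd_or_dvd ((dvd_add_right hΩ).1 h7) with h8 | h8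
        · exact hΩu l hl hΩ h8
        · have h9 := (Nat.prime_dvd_prime_iff_eq h6 n1).1 (Int.natCast_dvd_natCast.1 h8)
          have h10 : (p : ℝ) < n := hW.trans_lt n2
          have h11 : p < n := by exact_mod_cast h10
          omega
      · by_cases hu : (l : ℤ) ∣ u
        · exact hΩ ((dvd_add_left (hu.mul_right _)).1 h7)
        · exact h3 l (mem_filter.2 ⟨hl, hΩ, hu⟩) h4
  · intro s hs hle
    have hs2 : ∀ l ∈ s, l.Prime ∧ ¬ l ∣ r := fun l hl => hA2 l (hs hl)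
    have p0 := pr_pos fun l hl => (hs2 l hl).1
    have H := hSW (q * r * pr s) (Nat.one_le_iff_ne_zero.2 (by positivity))
      (by rw [Nat.cast_mul (q * r)]; exact mul_le_mul_of_nonneg_left hle (by positivity))
      (swb_cop c1 fun l hl => ⟨(hs2 l hl).1, (mem_filter.1 (hs hl)).2.1⟩)
      (swb_cop c2 fun l hl => ⟨(hs2 l hl).1, (mem_filter.1 (hs hl)).2.2⟩)
    have t1 : (0 : ℝ) < (q * r * pr s).totient := by
      exact_mod_cast Nat.totient_pos.2 (by positivity)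
    have e : (W₂ - W₁) / (q * r).totient * ∏ l ∈ s, swbG q l
        = (W₂ - W₁) / (q * r * pr s).totient := by
      rw [eq_div_iff t1.ne', mul_assoc, mul_comm (∏ l ∈ s, swbG q l), swb_tot s hs2,
        div_mul_cancel₀ _ t0.ne']
    rw [e]
    refine le_of_eq_of_le ?_ H
    congr 2
    refine sum_congr ?_ fun _ _ => rfl
    ext n
    simp only [mem_filter, and_assoc, swb_dvd_iff hq hs2]

end Vale.Agent.P013
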