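import Mathlib

/-! Non negative coefficients for the proof of Siegel's theorem. -/

open Finset DirichletCharacter
open scoped ComplexOrder

namespace Vale.Agent.P013

variable {N : ℕ}

/-- A character as an arithmetic function. -/
noncomputable def saT (χ : DirichletCharacter ℂ N) : ArithmeticFunction ℂ :=
  toArithmeticFunction (χ ·)

/-- Coefficients of `ζ L(χ₁) L(χ₂) L(χ₁ χ₂)`. -/
noncomputable def saFour (χ₁ χ₂ : DirichletCharacter ℂ N) : ArithmeticFunction ℂ :=
  zetaMul χ₁ * (saT χ₂ * saT (χ₁ * χ₂))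

theorem saT_apply (χ : DirichletCharacter ℂ N) {n : ℕ} (hn : n ≠ 0) : saT χ n = χ n :=
  (χ.apply_eq_toArithmeticFunction_apply hn).symm

theorem sa_twist (χ₁ χ₂ : DirichletCharacter ℂ N) (n : ℕ) :
    (saT χ₂ * saT (χ₁ * χ₂)) n = χ₂ n * zetaMul χ₁ n := by
  rw [zetaMul, ArithmeticFunction.mul_apply, ArithmeticFunction.mul_apply, mul_sum]
  refine sum_congr rfl fun x hx => ?_
  have h1 := Nat.left_ne_zero_of_mem_divisorsAntidiagonal hx
  have h2 := Nat.right_ne_zero_of_mem_divisorsAntidiagonal hx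
  rw [saT_apply _ h1, saT_apply _ h2, ← (Nat.mem_divisorsAntidiagonal.1 hx).1,
    ← χ₁.apply_eq_toArithmeticFunction_apply h2, ArithmeticFunction.natCoe_apply,
    ArithmeticFunction.zeta_apply_ne h1, Nat.cast_mul, map_mul, MulChar.mul_apply]
  push_cast
  ring

theorem saFour_comm (χ₁ χ₂ : DirichletCharacter ℂ N) : saFour χ₁ χ₂ = saFour χ₂ χ₁ := by
  simp only [saFour, zetaMul, saT, mul_comm χ₂ χ₁]
  ring

theorem saFour_mult (χ₁ χ₂ : DirichletCharacter ℂ N) : (saFour χ₁ χ₂).IsMultiplicative :=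
  χ₁.isMultiplicative_zetaMul.mul ((isMultiplicative_toArithmeticFunction χ₂).mul
    (isMultiplicative_toArithmeticFunction (χ₁ * χ₂)))

theorem sa_zetaMul_neg {χ : DirichletCharacter ℂ N} {p : ℕ} (hp : p.Prime) (h : χ p = -1)
    (j : ℕ) : zetaMul χ (p ^ j) = if _root_.Even (j + 1) then 0 else 1 := by
  rw [zetaMul, ArithmeticFunction.coe_zeta_mul_apply, Nat.sum_divisors_prime_pow hp,
    ← neg_one_geom_sum]
  refine sum_congr rfl fun i _ => ?_
  rw [← χ.apply_eq_toArithmeticFunction_apply (pow_ne_zero _ hp.ne_zero), Nat.cast_pow, map_pow, h]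

theorem saFour_pp {χ₁ χ₂ : DirichletCharacter ℂ N} (h1 : χ₁ ^ 2 = 1) {p : ℕ} (hp : p.Prime)
    (h : 0 ≤ χ₂ p ∨ (χ₁ p = -1 ∧ χ₂ p = -1)) (k : ℕ) : 0 ≤ saFour χ₁ χ₂ (p ^ k) := by
  rw [saFour, ArithmeticFunction.mul_apply]
  refine sum_nonneg fun x hx => mul_nonneg (zetaMul_nonneg h1 _) ?_
  obtain ⟨j, -, hj⟩ := (Nat.dvd_prime_pow hp).1
    (Nat.dvd_of_mem_divisors (Nat.snd_mem_divisors_of_mem_antidiagonal hx))
  rw [sa_twist, hj, Nat.cast_pow, map_pow]
  rcases h with h | ⟨h, h'⟩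
  · exact mul_nonneg (pow_nonneg h j) (zetaMul_nonneg h1 _)
  · rw [sa_zetaMul_neg hp h, h']
    split_ifs with hj
    · simp
    · rw [Nat.even_add_one, not_not] at hj
      simp [hj.neg_one_pow]

theorem saFour_nonneg {χ₁ χ₂ : DirichletCharacter ℂ N} (h1 : χ₁ ^ 2 = 1) (h2 : χ₂ ^ 2 = 1)
    (n : ℕ) : 0 ≤ saFour χ₁ χ₂ n := by
  rcases eq_or_ne n 0 with rfl | hn
  · simp
  rw [(saFour_mult χ₁ χ₂).multiplicative_factorization _ hn]
  refine prod_nonneg fun p hp => ?_
  have hp' := Nat.prime_of_mem_primeFactors hp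
  rcases MulChar.isQuadratic_iff_sq_eq_one.2 h2 p with h | h | h
  · exact saFour_pp h1 hp' (.inl h.ge) _
  · exact saFour_pp h1 hp' (.inl (h ▸ zero_le_one)) _
  rcases MulChar.isQuadratic_iff_sq_eq_one.2 h1 p with h' | h' | h'
  · exact saFour_comm χ₁ χ₂ ▸ saFour_pp h2 hp' (.inl h'.ge) _
  · exact saFour_comm χ₁ χ₂ ▸ saFour_pp h2 hp' (.inl (h' ▸ zero_le_one)) _
  · exact saFour_pp h1 hp' (.inr ⟨h', h⟩) _

theorem saT_summable (χ : DirichletCharacter ℂ N) {s : ℂ} (hs : 1 < s.re) :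
    LSeriesSummable (saT χ) s :=
  (LSeriesSummable_congr _ fun h => saT_apply χ h).2 (LSeriesSummable_of_one_lt_re χ hs)

theorem saFour_summable (χ₁ χ₂ : DirichletCharacter ℂ N) {s : ℂ} (hs : 1 < s.re) :
    LSeriesSummable (saFour χ₁ χ₂) s :=
  ArithmeticFunction.LSeriesSummable_mul (χ₁.LSeriesSummable_zetaMul hs)
    (ArithmeticFunction.LSeriesSummable_mul (saT_summable χ₂ hs) (saT_summable _ hs))

variable [NeZero N]

theorem saT_LSeries (χ : DirichletCharacter ℂ N) {s : ℂ} (hs : 1 < s.re) :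
    LSeries (saT χ) s = LFunction χ s := by
  rw [LFunction_eq_LSeries χ hs]
  exact LSeries_congr (fun h => saT_apply χ h) s

theorem sa_zetaMul_LSeries (χ : DirichletCharacter ℂ N) {s : ℂ} (hs : 1 < s.re) :
    LSeries (zetaMul χ) s = riemannZeta s * LFunction χ s := by
  rw [← saT_LSeries χ hs, ← ArithmeticFunction.LSeries_zeta_eq_riemannZeta hs]
  exact ArithmeticFunction.LSeries_mul' (ArithmeticFunction.LSeriesSummable_zeta_iff.2 hs)
    (saT_summable χ hs)

theorem saFour_LSeries (χ₁ χ₂ : DirichletCharacter ℂ N) {s : ℂ} (hs : 1 < s.re) :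
    LSeries (saFour χ₁ χ₂) s =
      riemannZeta s * (LFunction χ₁ s * LFunction χ₂ s * LFunction (χ₁ * χ₂) s) := by
  have h1 := ArithmeticFunction.LSeries_mul' (χ₁.LSeriesSummable_zetaMul hs)
    (ArithmeticFunction.LSeriesSummable_mul (saT_summable χ₂ hs) (saT_summable (χ₁ * χ₂) hs))
  have h2 := ArithmeticFunction.LSeries_mul' (saT_summable χ₂ hs) (saT_summable (χ₁ * χ₂) hs)
  refine h1.trans ?_
  rw [h2, sa_zetaMul_LSeries χ₁ hs, saT_LSeries _ hs, saT_LSeries _ hs]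
  ring

/-- An entire function that is real to the right of `1` is real on the real line. -/
theorem sa_real {h : ℂ → ℂ} (hh : Differentiable ℂ h) (h1 : ∀ u : ℝ, 1 < u → (h u).im = 0)
    (u : ℝ) : (h u).im = 0 := by
  have hd : Differentiable ℂ (starRingEnd ℂ ∘ h ∘ starRingEnd ℂ) := fun z =>
    differentiableAt_conj_conj_iff.2 (hh _)
  have e : (starRingEnd ℂ ∘ h ∘ starRingEnd ℂ) = h := by
    refine AnalyticOnNhd.eq_of_frequently_eq (z₀ := 2) (fun z _ => hd.analyticAt z)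
      (fun z _ => hh.analyticAt z) ?_
    have t : Filter.Tendsto (fun x : ℝ => (x : ℂ)) (nhdsWithin 2 {2}ᶜ) (nhdsWithin 2 {2}ᶜ) := by
      refine tendsto_nhdsWithin_iff.2 ⟨?_, ?_⟩
      · exact (Complex.continuous_ofReal.tendsto 2).mono_left nhdsWithin_le_nhds
      · filter_upwards [self_mem_nhdsWithin] with x hx h
        exact hx (Complex.ofReal_injective h)
    refine t.frequently (Filter.Eventually.frequently ?_)
    filter_upwards [mem_nhdsWithin_of_mem_nhds (lt_mem_nhds (show (1 : ℝ) < 2 by norm_num))]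
      with x hx
    simp only [Function.comp, Complex.conj_ofReal]
    exact Complex.conj_eq_iff_im.2 (h1 x hx)
  have := congrFun e u
  simp only [Function.comp, Complex.conj_ofReal] at this
  exact Complex.conj_eq_iff_im.1 this

theorem sa_lift_le {Q : ℕ} [NeZero Q] {Q' : ℕ} [NeZero (Q' * Q)] (χ : DirichletCharacter ℂ Q)
    (hχ : χ ≠ 1) : ‖LFunction (changeLevel (Nat.dvd_mul_left Q Q') χ) 1‖ ≤
      2 ^ Q'.primeFactors.card * ‖LFunction χ 1‖ := by
  have h0 : Q' * Q ≠ 0 := NeZero.ne _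
  rw [LFunction_changeLevel _ χ (.inl hχ), norm_mul, mul_comm, norm_prod]
  refine mul_le_mul_of_nonneg_right ?_ (norm_nonneg _)
  rw [← prod_subset (s₁ := Q'.primeFactors) (Nat.primeFactors_mono (Nat.dvd_mul_right Q' Q) h0)]
  · rw [← prod_const]
    refine prod_le_prod (fun _ _ => norm_nonneg _) fun p hp => (norm_sub_le _ _).trans ?_
    have hp' := (Nat.prime_of_mem_primeFactors hp).one_le
    have h1 : ‖(p : ℂ) ^ (-1 : ℂ)‖ ≤ 1 := by
      rw [Complex.cpow_neg_one, norm_inv, Complex.norm_natCast]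
      exact inv_le_one_of_one_le₀ (by exact_mod_cast hp')
    rw [norm_one, norm_mul]
    nlinarith [χ.norm_le_one (p : ZMod Q), norm_nonneg (χ p), norm_nonneg ((p : ℂ) ^ (-1 : ℂ))]
  · intro p hp hp'
    have hpp := Nat.prime_of_mem_primeFactors hp
    have hd : p ∣ Q := ((Nat.Prime.dvd_mul hpp).1 (Nat.dvd_of_mem_primeFactors hp)).resolve_left
      fun h => hp' (Nat.mem_primeFactors.2 ⟨hpp, h, left_ne_zero_of_mul h0⟩)
    have : χ p = 0 := χ.map_nonunit fun hu => by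
      rw [ZMod.isUnit_prime_iff_not_dvd hpp] at hu
      exact hu hd
    simp [this]

end Vale.Agent.P013
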