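import Vale.Agent.P013.SiegelE
import Vale.Agent.P013.SiegelA

/-! Siegel's theorem `L(1, χ) ≫ Q^(-ε)` for quadratic characters. -/

open Finset DirichletCharacter
open scoped ComplexOrder

namespace Vale.Agent.P013

theorem sg_disc : ∃ C : ℝ, 1 ≤ C ∧ ∀ (Q : ℕ) [NeZero Q] (χ : DirichletCharacter ℂ Q), χ ≠ 1 →
    ∀ s : ℂ, ‖s - 2‖ ≤ 3 / 2 → ‖LFunction χ s‖ ≤ C * Q := by
  obtain ⟨C, hC, h⟩ := Lfun_growth (ε := 1 / 2) (by norm_num) le_rfl
  refine ⟨9 / 2 * C + 1, by linarith, fun Q _ χ hχ s hs => ?_⟩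
  have a3 : ‖s‖ ≤ 7 / 2 := by
    have := norm_add_le (s - 2) 2
    rw [sub_add_cancel, Complex.norm_two] at this
    linarith
  have a4 : 1 - 1 / 2 ≤ s.re := by
    have := neg_le_of_abs_le ((Complex.abs_re_le_norm (s - 2)).trans hs)
    simp only [Complex.sub_re, Complex.re_ofNat] at this
    linarith
  have a5 := h Q χ hχ s a4
  rw [show (2 : ℝ) * (1 / 2) = 1 by norm_num, Real.rpow_one] at a5
  have hQ : (0 : ℝ) ≤ Q := Nat.cast_nonneg Q
  nlinarith [mul_le_mul_of_nonneg_left a3 (mul_nonneg hC.le hQ)]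

theorem sg_one_le (Q : ℕ) [NeZero Q] : (1 : ℝ) ≤ Q := by exact_mod_cast NeZero.one_le

theorem sg_est : ∃ c C : ℝ, 0 < c ∧ 1 ≤ C ∧ ∀ (Q : ℕ) [NeZero Q] (χ : DirichletCharacter ℂ Q),
    χ ≠ 1 → χ ^ 2 = 1 → ∀ σ : ℝ, 7 / 8 ≤ σ → σ < 1 →
    ((riemannZeta σ * LFunction χ σ).re ≤ 0 →
      c * (1 - σ) * (C * Q) ^ (-4 * (1 - σ)) ≤ ‖LFunction χ 1‖) ∧
    (∀ χ' : DirichletCharacter ℂ Q, χ' ≠ 1 → χ' ^ 2 = 1 → χ * χ' ≠ 1 → LFunction χ σ = 0 →
      c * (1 - σ) * (C * Q) ^ (-12 * (1 - σ)) ≤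
        ‖LFunction χ 1‖ * ‖LFunction χ' 1‖ * ‖LFunction (χ * χ') 1‖) := by
  obtain ⟨c, hc, hE⟩ := estermann
  obtain ⟨C, hC, hD⟩ := sg_disc
  refine ⟨c, C, hc, hC, fun Q _ χ h1 h2 σ hσ hσ1 => ?_⟩
  have hM : 1 ≤ C * Q := one_le_mul_of_one_le_of_one_le hC (sg_one_le Q)
  refine ⟨fun hre => ?_, fun χ' h1' h2' h3 h0 => ?_⟩
  · exact (hE (zetaMul χ) (LFunction χ) (C * Q) σ (zetaMul_nonneg h2)
      χ.isMultiplicative_zetaMul.map_one
      (LSeries.abscissaOfAbsConv_le_of_forall_lt_LSeriesSummable (x := 1)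
        fun y hy => χ.LSeriesSummable_zetaMul hy) (differentiable_LFunction h1)
      (fun s hs => sa_zetaMul_LSeries χ hs) hM (hD Q χ h1) hσ hσ1 hre).trans
      (Complex.re_le_norm _)
  · have h4 := hE (saFour χ χ') (fun s => LFunction χ s * LFunction χ' s * LFunction (χ * χ') s)
      ((C * Q) ^ 3) σ (saFour_nonneg h2 h2') (saFour_mult χ χ').map_one
      (LSeries.abscissaOfAbsConv_le_of_forall_lt_LSeriesSummable (x := 1)
        fun y hy => saFour_summable χ χ' hy)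
      (((differentiable_LFunction h1).mul (differentiable_LFunction h1')).mul
        (differentiable_LFunction h3))
      (fun s hs => saFour_LSeries χ χ' hs) (one_le_pow₀ hM) (fun s hs => by
        rw [norm_mul, norm_mul, pow_succ, sq]
        have := hD Q χ h1 s hs
        have := hD Q χ' h1' s hs
        have := hD Q _ h3 s hs
        gcongr) hσ hσ1 (by simp [h0])
    rw [← Real.rpow_natCast, ← Real.rpow_mul (by linarith)] at h4
    rw [← norm_mul, ← norm_mul, show -12 * (1 - σ) = (3 : ℕ) * (-4 * (1 - σ)) by push_cast; ring]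
    exact h4.trans (Complex.re_le_norm _)

theorem sg_sign {Q : ℕ} [NeZero Q] {χ : DirichletCharacter ℂ Q} (h1 : χ ≠ 1) (h2 : χ ^ 2 = 1)
    {σ : ℝ} (hσ : σ < 1) (hZ : ∀ u : ℝ, σ ≤ u → u < 1 → Zf u ≠ 0)
    (hL : ∀ u : ℝ, σ ≤ u → u < 1 → LFunction χ u ≠ 0) :
    (riemannZeta σ * LFunction χ σ).re ≤ 0 := by
  have hd : Differentiable ℂ fun s => Zf s * LFunction χ s :=
    differentiable_Zf.mul (differentiable_LFunction h1)
  have hpos : ∀ u : ℝ, 1 < u → 0 ≤ Zf u * LFunction χ u := fun u hu => by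
    rw [Zf_eq (by exact_mod_cast hu.ne'), mul_assoc, ← sa_zetaMul_LSeries χ (by simpa using hu)]
    refine mul_nonneg (by exact_mod_cast (sub_pos.2 hu).le)
      (tsum_nonneg fun n => LSeries.term_nonneg (zetaMul_nonneg h2 n) u)
  have hreal := sa_real hd fun u hu => (Complex.le_def.1 (hpos u hu)).2.symm
  have hne : ∀ u : ℝ, σ ≤ u → Zf u * LFunction χ u ≠ 0 := fun u hu => by
    rcases lt_trichotomy u 1 with h | rfl | h
    · exact mul_ne_zero (hZ u hu h) (hL u hu h)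
    · simpa [Zf_one] using LFunction_apply_one_ne_zero h1
    · rw [Zf_eq (by exact_mod_cast h.ne')]
      exact mul_ne_zero (mul_ne_zero (sub_ne_zero.2 (by exact_mod_cast h.ne'))
        (riemannZeta_ne_zero_of_one_le_re (by simpa using h.le)))
        (LFunction_ne_zero_of_one_le_re χ (.inl h1) (by simpa using h.le))
  have hge : 0 ≤ (Zf σ * LFunction χ σ).re := by
    by_contra hlt
    have hc : Continuous fun u : ℝ => (Zf u * LFunction χ u).re :=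
      Complex.continuous_re.comp (hd.continuous.comp Complex.continuous_ofReal)
    obtain ⟨u, hu, hu0⟩ := intermediate_value_Icc (show σ ≤ 2 by linarith) hc.continuousOn
      ⟨(not_le.1 hlt).le, (Complex.le_def.1 (hpos 2 (by norm_num))).1⟩
    exact hne u hu.1 (Complex.ext hu0 (hreal u))
  rw [Zf_eq (by exact_mod_cast hσ.ne), mul_assoc, ← Complex.ofReal_one, ← Complex.ofReal_sub,
    Complex.re_ofReal_mul] at hge
  by_contra h
  nlinarith [mul_neg_of_neg_of_pos (sub_neg.2 hσ) (not_le.1 h)]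

theorem sg_delta {ε : ℝ} (hε : 0 < ε) : ∃ δ : ℝ, 0 < δ ∧ δ ≤ 1 / 8 ∧ 16 * δ ≤ ε ∧
    ∀ u : ℝ, 1 - δ ≤ u → u < 1 → Zf u ≠ 0 := by
  have hc : ContinuousAt (fun u : ℝ => Zf u) 1 :=
    (differentiable_Zf.continuous.comp Complex.continuous_ofReal).continuousAt
  obtain ⟨r, hr, h⟩ := Metric.eventually_nhds_iff.1
    (hc.eventually_ne (y := 0) (by simp [Zf_one]))
  refine ⟨min (r / 2) (min (1 / 8) (ε / 16)), by positivity,
    (min_le_right _ _).trans (min_le_left _ _), ?_, fun u h1 h2 => h ?_⟩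
  · linarith [(min_le_right (r / 2) _).trans (min_le_right (1 / 8) (ε / 16))]
  · rw [Real.dist_eq, abs_lt]
    constructor <;> linarith [min_le_left (r / 2) (min (1 / 8) (ε / 16))]

theorem sg_rpow {A B Q t ε : ℝ} (hA : 0 < A) (hAB : A ≤ B * Q) (hB : 1 ≤ B) (hQ : 1 ≤ Q)
    (ht : 0 ≤ t) (htε : t ≤ ε) : B ^ (-ε) * Q ^ (-ε) ≤ A ^ (-t) := by
  rw [← Real.mul_rpow (by linarith) (by linarith)]
  exact (Real.rpow_le_rpow_of_exponent_le (one_le_mul_of_one_le_of_one_le hB hQ)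
    (neg_le_neg htε)).trans (Real.rpow_le_rpow_of_nonpos hA hAB (neg_nonpos.2 ht))

theorem siegel {ε : ℝ} (hε : 0 < ε) : ∃ c : ℝ, 0 < c ∧
    ∀ (Q : ℕ) [NeZero Q] (χ : DirichletCharacter ℂ Q), χ ≠ 1 → χ ^ 2 = 1 →
      c * (Q : ℝ) ^ (-ε) ≤ ‖DirichletCharacter.LFunction χ 1‖ := by
  obtain ⟨δ, hδ, hδ8, hδε, hZ⟩ := sg_delta hε
  obtain ⟨c, C, hc, hC, hE⟩ := sg_est
  by_cases hcase : ∃ (Q₁ : ℕ) (_ : NeZero Q₁) (χ₁ : DirichletCharacter ℂ Q₁) (β : ℝ),
      χ₁ ≠ 1 ∧ χ₁ ^ 2 = 1 ∧ 1 - δ ≤ β ∧ β < 1 ∧ LFunction χ₁ β = 0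
  · obtain ⟨Q₁, _, χ₁, β, h1, h2, hβ, hβ1, h0⟩ := hcase
    obtain ⟨D, hD, hG⟩ := Lfun_growth (ε := δ) hδ (by linarith)
    have hQ₁ := sg_one_le Q₁
    have hβ' : 0 < 1 - β := by linarith
    set B : ℝ := 2 * C * Q₁ with hB
    have hB1 : 1 ≤ B := by nlinarith
    set W : ℝ := 2 ^ Q₁.primeFactors.card
    have hW : 0 < W := by positivity
    refine ⟨c * (1 - β) * B ^ (-ε) / ((D ^ 2 + 1) * W), by positivity, fun Q _ χ h1' h2' => ?_⟩
    have hQ := sg_one_le Q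
    have : NeZero (Q₁ * Q) := ⟨mul_ne_zero (NeZero.ne _) (NeZero.ne _)⟩
    have hN := sg_one_le (Q₁ * Q)
    set ψ₁ := changeLevel (Nat.dvd_mul_right Q₁ Q) χ₁ with hψ₁
    set ψ := changeLevel (Nat.dvd_mul_left Q Q₁) χ with hψ
    have a1 : ψ₁ ≠ 1 := fun h => h1 ((changeLevel_eq_one_iff _).1 h)
    have a2 : ψ ≠ 1 := fun h => h1' ((changeLevel_eq_one_iff _).1 h)
    have a3 : ψ₁ ^ 2 = 1 := by rw [hψ₁, ← map_pow, h2, map_one]
    have a4 : ψ ^ 2 = 1 := by rw [hψ, ← map_pow, h2', map_one]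
    have a5 : LFunction ψ₁ β = 0 := by rw [hψ₁, LFunction_changeLevel _ _ (.inl h1), h0, zero_mul]
    have a6 : ‖LFunction ψ 1‖ ≤ W * ‖LFunction χ 1‖ := sa_lift_le χ h1'
    have a7 : C * ((Q₁ * Q : ℕ) : ℝ) ≤ B * Q := by
      rw [hB]
      push_cast
      have : (0 : ℝ) < C * Q₁ * Q := by positivity
      linarith
    have hCN : 0 < C * ((Q₁ * Q : ℕ) : ℝ) := by positivity
    have hL := norm_nonneg (LFunction χ 1)
    rw [div_mul_eq_mul_div, div_le_iff₀ (by positivity), mul_assoc]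
    by_cases h3 : ψ₁ * ψ = 1
    · have e : ψ = ψ₁ := by
        rw [← one_mul ψ, ← a3, sq, mul_assoc, h3, mul_one]
      have b1 := (hE _ ψ a2 a4 β (by linarith) hβ1).1 (by rw [e, a5]; simp)
      have b2 := sg_rpow (t := 4 * (1 - β)) hCN a7 hB1 hQ (by positivity) (by linarith : _ ≤ ε)
      rw [neg_mul] at b1
      have b3 := mul_le_mul_of_nonneg_left b2 (mul_pos hc hβ').le
      nlinarith [mul_nonneg (mul_nonneg hL hW.le) (sq_nonneg D)]
    · have b1 := (hE _ ψ₁ a1 a3 β (by linarith) hβ1).2 ψ a2 a4 h3 a5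
      have b4 : ∀ χ' : DirichletCharacter ℂ (Q₁ * Q), χ' ≠ 1 →
          ‖LFunction χ' 1‖ ≤ D * (B * Q) ^ (2 * δ) := fun χ' hχ' => by
        refine (hG _ χ' hχ' 1 (by simp [hδ.le])).trans (mul_le_mul_of_nonneg_left
          (Real.rpow_le_rpow (by positivity) ?_ (by positivity)) hD.le)
        rw [norm_one, hB]
        push_cast
        nlinarith [mul_pos (by linarith : (0 : ℝ) < Q₁) (by linarith : (0 : ℝ) < Q)]
      have hBQ : 1 ≤ B * Q := one_le_mul_of_one_le_of_one_le hB1 hQ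
      have b5 : (B * Q) ^ (-(12 * δ)) ≤ (C * ((Q₁ * Q : ℕ) : ℝ)) ^ (-12 * (1 - β)) := by
        have := sg_rpow (B := B * Q) (Q := 1) (t := 12 * (1 - β)) (ε := 12 * δ) hCN
          (by rwa [mul_one]) hBQ le_rfl (by positivity) (by linarith)
        rwa [Real.one_rpow, mul_one, ← neg_mul 12 (1 - β)] at this
      have b6 : ‖LFunction ψ₁ 1‖ * ‖LFunction ψ 1‖ * ‖LFunction (ψ₁ * ψ) 1‖ ≤
          D * (B * Q) ^ (2 * δ) * (W * ‖LFunction χ 1‖) * (D * (B * Q) ^ (2 * δ)) := by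
        have := b4 _ a1
        have := b4 _ h3
        gcongr
      have b7 : B ^ (-ε) * (Q : ℝ) ^ (-ε) ≤ (B * Q) ^ (-(16 * δ)) :=
        sg_rpow (by linarith) le_rfl hB1 hQ (by positivity) hδε
      have b8 : (B * Q) ^ (-(12 * δ)) =
          (B * Q) ^ (-(16 * δ)) * ((B * Q) ^ (2 * δ) * (B * Q) ^ (2 * δ)) := by
        rw [← Real.rpow_add (by linarith), ← Real.rpow_add (by linarith)]
        congr 1
        ring
      have b9 : 0 < (B * Q) ^ (2 * δ) * (B * Q) ^ (2 * δ) := by positivity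
      have b10 : c * (1 - β) * (B * Q) ^ (-(16 * δ)) ≤ D ^ 2 * W * ‖LFunction χ 1‖ := by
        refine le_of_mul_le_mul_right ?_ b9
        have := (mul_le_mul_of_nonneg_left b5 (mul_pos hc hβ').le).trans (b1.trans b6)
        rw [b8] at this
        linarith
      have b11 := mul_le_mul_of_nonneg_left b7 (mul_pos hc hβ').le
      nlinarith [mul_nonneg hL hW.le]
  · refine ⟨c * δ * C ^ (-ε), by positivity, fun Q _ χ h1 h2 => ?_⟩
    have b1 := (hE Q χ h1 h2 (1 - δ) (by linarith) (by linarith)).1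
      (sg_sign h1 h2 (by linarith) hZ fun u hu hu1 h0 =>
        hcase ⟨Q, inferInstance, χ, u, h1, h2, hu, hu1, h0⟩)
    have hQ := sg_one_le Q
    have b2 := sg_rpow (A := C * Q) (t := 4 * δ) (by positivity) le_rfl hC hQ (by positivity)
      (by linarith : _ ≤ ε)
    rw [sub_sub_cancel, neg_mul] at b1
    rw [mul_assoc]
    exact (mul_le_mul_of_nonneg_left b2 (mul_pos hc hδ).le).trans b1

end Vale.Agent.P013
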