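import Vale.Agent.P013.Growth

/-! The lemma of Estermann. -/

open Finset
open scoped ComplexOrder

namespace Vale.Agent.P013

theorem se_taylor {G : ℂ → ℂ} (hG : Differentiable ℂ G) {B : ℝ}
    (hB : ∀ z ∈ Metric.sphere (2 : ℂ) (3 / 2), ‖G z‖ ≤ B) {x : ℝ} (hx0 : 0 ≤ x) (hx : x ≤ 9 / 8)
    (K : ℕ) : ∑ m ∈ range K, ((-1) ^ m * iteratedDeriv m G 2 / m.factorial).re * x ^ m -
      4 * B * (3 / 4) ^ K ≤ (G ((2 - x : ℝ) : ℂ)).re := by
  have hB0 : 0 ≤ B := (norm_nonneg _).trans (hB (2 + 3 / 2) (by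
    rw [mem_sphere_iff_norm, add_sub_cancel_left]
    norm_num))
  have h1 := Complex.reCLM.hasSum (Complex.hasSum_taylorSeries_of_entire hG 2 ((2 - x : ℝ) : ℂ))
  have e : ∀ m : ℕ, Complex.reCLM ((m.factorial : ℂ)⁻¹ • (((2 - x : ℝ) : ℂ) - 2) ^ m •
      iteratedDeriv m G 2) = ((-1) ^ m * iteratedDeriv m G 2 / m.factorial).re * x ^ m := by
    intro m
    rw [Complex.reCLM_apply, ← Complex.re_mul_ofReal]
    congr 1
    push_cast
    rw [sub_sub_cancel_left, neg_pow, smul_eq_mul, smul_eq_mul]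
    ring
  simp only [e] at h1
  have hb : ∀ m : ℕ, |((-1) ^ m * iteratedDeriv m G 2 / m.factorial).re * x ^ m| ≤
      B * (3 / 4) ^ m := by
    intro m
    have h2 := Complex.norm_iteratedDeriv_le_of_forall_mem_sphere_norm_le m (by norm_num)
      hG.diffContOnCl hB
    have hf : (0 : ℝ) < m.factorial := by exact_mod_cast m.factorial_pos
    have h3 : ‖(-1) ^ m * iteratedDeriv m G 2 / m.factorial‖ ≤ B / (3 / 2) ^ m := by
      rw [norm_div, norm_mul, norm_pow, norm_neg, norm_one, one_pow, one_mul, Complex.norm_natCast,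
        div_le_iff₀ hf]
      refine h2.trans (le_of_eq ?_)
      ring
    rw [abs_mul, abs_of_nonneg (pow_nonneg hx0 m)]
    calc _ ≤ B / (3 / 2) ^ m * (9 / 8) ^ m :=
          mul_le_mul ((Complex.abs_re_le_norm _).trans h3) (pow_le_pow_left₀ hx0 hx m)
            (pow_nonneg hx0 m) (by positivity)
      _ = B * (3 / 4) ^ m := by
          rw [div_mul_eq_mul_div, mul_div_assoc, ← div_pow]
          norm_num
  have h4 := (hasSum_nat_add_iff' K).2 h1
  have h5 : HasSum (fun m : ℕ => -(B * (3 / 4 : ℝ) ^ (m + K))) (-(4 * B * (3 / 4) ^ K)) := by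
    have := ((hasSum_geometric_of_lt_one (r := (3 / 4 : ℝ)) (by norm_num) (by norm_num)).mul_left
      (B * (3 / 4) ^ K)).neg
    have e1 : ∀ m : ℕ, B * (3 / 4 : ℝ) ^ (m + K) = B * (3 / 4) ^ K * (3 / 4) ^ m := fun m => by
      ring
    have e2 : 4 * B * (3 / 4 : ℝ) ^ K = B * (3 / 4) ^ K * (1 - 3 / 4)⁻¹ := by
      norm_num
      ring
    simp only [e1, e2]
    exact this
  have h6 := hasSum_le (fun m => neg_le_of_abs_le (hb (m + K))) h5 h4
  simp only [Complex.reCLM_apply] at h6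
  linarith

theorem se_coeff {a : ℕ → ℂ} {G : ℂ → ℂ} (hG : Differentiable ℂ G) {l : ℂ}
    (h : ∀ s : ℂ, 1 < s.re → LSeries a s = G s + l * (s - 1)⁻¹) (m : ℕ) :
    (-1) ^ m * iteratedDeriv m (LSeries a) 2 / m.factorial =
      (-1) ^ m * iteratedDeriv m G 2 / m.factorial + l := by
  have h1 : LSeries a =ᶠ[nhds 2] fun s => G s + l * (1 * s - 1)⁻¹ := by
    filter_upwards [(isOpen_lt continuous_const Complex.continuous_re).mem_nhds
      (show (2 : ℂ) ∈ {s : ℂ | 1 < s.re} by simp)] with s hs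
    rw [h s hs, one_mul]
  have h2 : ContDiffAt ℂ m (fun s : ℂ => (1 * s - 1)⁻¹) 2 :=
    ContDiffAt.inv (by fun_prop) (by norm_num)
  have hf : (m.factorial : ℂ) ≠ 0 := by exact_mod_cast m.factorial_ne_zero
  rw [h1.iteratedDeriv_eq, iteratedDeriv_fun_add (hG.contDiff.contDiffAt)
    (contDiffAt_const.mul h2), iteratedDeriv_const_mul _ h2, iteratedDeriv_eq_iterate,
    iteratedDeriv_eq_iterate, iter_deriv_inv_linear_sub]
  have h3 : ((-1 : ℂ) ^ m) * (-1) ^ m = 1 := by rw [← mul_pow]; simp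
  have h4 : (1 * 2 - 1 : ℂ) = 1 := by norm_num
  simp only [h4, one_zpow, one_pow, mul_one]
  field_simp
  linear_combination l * m.factorial * h3

theorem se_one_le {a : ℕ → ℂ} (ha : ∀ n, 0 ≤ a n) (h1 : a 1 = 1)
    (hab : LSeries.abscissaOfAbsConv a ≤ 1) : 1 ≤ (LSeries a 2).re := by
  have hs : LSeriesSummable a ((2 : ℝ) : ℂ) :=
    LSeriesSummable_of_abscissaOfAbsConv_lt_re (hab.trans_lt (by norm_cast))
  have h2 := hs.le_tsum 1 fun n _ => LSeries.term_nonneg (ha n) 2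
  have h3 : LSeries.term a ((2 : ℝ) : ℂ) 1 = 1 := by simp [h1]
  rw [h3] at h2
  exact (Complex.le_def.1 h2).1

theorem estermann : ∃ c : ℝ, 0 < c ∧ ∀ (a : ℕ → ℂ) (f : ℂ → ℂ) (M σ : ℝ), (∀ n, 0 ≤ a n) →
    a 1 = 1 → LSeries.abscissaOfAbsConv a ≤ 1 → Differentiable ℂ f →
    (∀ s : ℂ, 1 < s.re → LSeries a s = riemannZeta s * f s) → 1 ≤ M →
    (∀ s : ℂ, ‖s - 2‖ ≤ 3 / 2 → ‖f s‖ ≤ M) → 7 / 8 ≤ σ → σ < 1 →
    (riemannZeta σ * f σ).re ≤ 0 → c * (1 - σ) * M ^ (-4 * (1 - σ)) ≤ (f 1).re := by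
  obtain ⟨C, hC, hCz⟩ := zeta0_growth (ε := 1 / 2) (by norm_num) le_rfl
  set C0 : ℝ := 9 / 2 * C + 4 with hC0
  have hC1 : 1 < 8 * C0 := by rw [hC0]; linarith
  have hL0 : 0 < Real.log (8 * C0) := Real.log_pos hC1
  refine ⟨1 / (2 * Real.exp (4 * Real.log (8 * C0) + 1)), by positivity,
    fun a f M σ ha h1 hab hf hL hM hfM hσ hσ1 hre => ?_⟩
  let G : ℂ → ℂ := fun s => zeta0 s * f s + dslope f 1 s
  have hG : Differentiable ℂ G := (differentiable_zeta0.mul hf).add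
    (differentiableOn_univ.1 ((Complex.differentiableOn_dslope Filter.univ_mem).2
      hf.differentiableOn))
  have hGe : ∀ s : ℂ, s ≠ 1 → riemannZeta s * f s = G s + f 1 * (s - 1)⁻¹ := fun s hs => by
    have := sub_ne_zero.2 hs
    simp only [G, zeta0_eq hs, dslope_of_ne _ hs, slope_def_field]
    field_simp
    ring
  have hGb : ∀ z ∈ Metric.sphere (2 : ℂ) (3 / 2), ‖G z‖ ≤ C0 * M := fun z hz => by
    rw [mem_sphere_iff_norm] at hz
    have a1 : 1 / 2 ≤ ‖z - 1‖ := by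
      have := norm_sub_le (z - 1) 1
      rw [sub_sub, one_add_one_eq_two, hz, norm_one] at this
      linarith
    have a2 : z ≠ 1 := fun h => by rw [h, sub_self, norm_zero] at a1; linarith
    have a3 : ‖z‖ ≤ 7 / 2 := by
      have := norm_add_le (z - 2) 2
      rw [sub_add_cancel, hz, Complex.norm_two] at this
      linarith
    have a4 : 1 - 1 / 2 ≤ z.re := by
      have := neg_le_of_abs_le ((Complex.abs_re_le_norm (z - 2)).trans hz.le)
      simp only [Complex.sub_re, Complex.re_ofNat] at this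
      linarith
    have a5 := hCz z a4
    rw [show (2 : ℝ) * (1 / 2) = 1 by norm_num, Real.rpow_one] at a5
    have a6 := hfM z hz.le
    have a7 := hfM 1 (by norm_num)
    have a8 : ‖dslope f 1 z‖ ≤ 4 * M := by
      rw [dslope_of_ne _ a2, slope_def_field, norm_div, div_le_iff₀ (by linarith)]
      nlinarith [norm_sub_le (f z) (f 1)]
    have a9 : ‖zeta0 z * f z‖ ≤ 9 / 2 * C * M := by
      rw [norm_mul]
      exact mul_le_mul (a5.trans (by nlinarith)) a6 (norm_nonneg _) (by positivity)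
    calc ‖G z‖ ≤ ‖zeta0 z * f z‖ + ‖dslope f 1 z‖ := norm_add_le _ _
      _ ≤ C0 * M := by rw [hC0]; linarith
  have hlM : 0 ≤ Real.log M := Real.log_nonneg hM
  set y : ℝ := 4 * (Real.log (8 * C0) + Real.log M) with hy
  have hy0 : 0 < y := by positivity
  obtain ⟨K, hK⟩ : ∃ K : ℕ, ⌈y⌉₊ = K + 1 :=
    Nat.exists_eq_succ_of_ne_zero (Nat.ceil_pos.2 hy0).ne'
  have hK1 : y ≤ (K + 1 : ℕ) := hK ▸ Nat.le_ceil y
  have hK2 : ((K + 1 : ℕ) : ℝ) ≤ y + 1 := hK ▸ (Nat.ceil_lt_add_one hy0.le).le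
  have t1 := se_taylor hG hGb (x := 2 - σ) (by linarith) (by linarith) (K + 1)
  have hco := se_coeff hG (l := f 1) (a := a) fun s hs => by
    rw [hL s hs, hGe s fun h => by simp [h] at hs]
  have hnn : ∀ m : ℕ, 0 ≤ ((-1) ^ m * iteratedDeriv m (LSeries a) 2 / m.factorial).re := by
    intro m
    have h2 := LSeries.iteratedDeriv_alternating (a := a) ha (x := 2)
      (hab.trans_lt (by norm_cast)) m
    rw [Complex.div_natCast_re]
    exact div_nonneg (Complex.le_def.1 h2).1 (Nat.cast_nonneg _)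
  have t2 : 1 - (f 1).re * ∑ m ∈ range (K + 1), (2 - σ) ^ m ≤ ∑ m ∈ range (K + 1),
      ((-1) ^ m * iteratedDeriv m G 2 / m.factorial).re * (2 - σ) ^ m := by
    have e : ∀ m : ℕ, ((-1) ^ m * iteratedDeriv m G 2 / m.factorial).re =
        ((-1) ^ m * iteratedDeriv m (LSeries a) 2 / m.factorial).re - (f 1).re := fun m => by
      rw [hco, Complex.add_re, add_sub_cancel_right]
    simp only [e, sub_mul, sum_sub_distrib, ← mul_sum]
    refine sub_le_sub_right ?_ _
    rw [sum_range_succ']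
    have h2 := se_one_le ha h1 hab
    have h3 : 0 ≤ ∑ m ∈ range K, ((-1) ^ (m + 1) * iteratedDeriv (m + 1) (LSeries a) 2 /
        (m + 1).factorial).re * (2 - σ) ^ (m + 1) :=
      sum_nonneg fun m _ => mul_nonneg (hnn _) (pow_nonneg (by linarith) _)
    simp only [pow_zero, iteratedDeriv_zero, Nat.factorial_zero, Nat.cast_one, div_one, one_mul,
      mul_one]
    linarith
  have t3 : 4 * (C0 * M) * (3 / 4) ^ (K + 1) ≤ 1 / 2 := by
    have h2 : (3 / 4 : ℝ) ≤ Real.exp (-(1 / 4)) := by linarith [Real.add_one_le_exp (-(1 / 4))]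
    have h3 : (3 / 4 : ℝ) ^ (K + 1) ≤ (8 * C0 * M)⁻¹ := by
      refine (pow_le_pow_left₀ (by norm_num) h2 _).trans ?_
      rw [← Real.exp_nat_mul, ← Real.exp_log (x := 8 * C0 * M) (by positivity), ← Real.exp_neg,
        Real.log_mul (by positivity) (by positivity)]
      exact Real.exp_le_exp.2 (by linarith)
    calc _ ≤ 4 * (C0 * M) * (8 * C0 * M)⁻¹ := by gcongr
      _ = 1 / 2 := by
        have : C0 ≠ 0 := by positivity
        field_simp
        norm_num
  have hσ' : 0 < 1 - σ := by linarith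
  have t4 : (G σ).re ≤ (f 1).re / (1 - σ) := by
    have h2 := hGe σ (by exact_mod_cast hσ1.ne)
    have h3 : f 1 * ((σ : ℂ) - 1)⁻¹ = -(f 1 / ((1 - σ : ℝ) : ℂ)) := by
      push_cast
      rw [← neg_sub, inv_neg]
      ring
    rw [h2, h3, Complex.add_re, Complex.neg_re, Complex.div_ofReal_re] at hre
    linarith
  have t5 : ∑ m ∈ range (K + 1), (2 - σ) ^ m = ((2 - σ) ^ (K + 1) - 1) / (1 - σ) := by
    rw [geom_sum_eq (by linarith)]
    congr 1
    ring
  rw [sub_sub_cancel] at t1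
  have t6 : (1 - σ) / 2 ≤ (f 1).re * (2 - σ) ^ (K + 1) := by
    have h2 : 1 / 2 ≤ (f 1).re * (2 - σ) ^ (K + 1) / (1 - σ) := by
      have : (f 1).re * (2 - σ) ^ (K + 1) / (1 - σ) =
          (f 1).re / (1 - σ) + (f 1).re * (((2 - σ) ^ (K + 1) - 1) / (1 - σ)) := by ring
      rw [this, ← t5]
      linarith
    rw [le_div_iff₀ hσ'] at h2
    linarith
  have t7 : (2 - σ) ^ (K + 1) ≤
      Real.exp (4 * Real.log (8 * C0) + 1) * M ^ (4 * (1 - σ)) := by
    have h2 : 2 - σ ≤ Real.exp (1 - σ) := by linarith [Real.add_one_le_exp (1 - σ)]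
    refine (pow_le_pow_left₀ (by linarith) h2 _).trans ?_
    rw [← Real.exp_nat_mul, Real.rpow_def_of_pos (by linarith), ← Real.exp_add]
    exact Real.exp_le_exp.2 (by nlinarith)
  have hp : 0 < (2 - σ) ^ (K + 1) := pow_pos (by linarith) _
  have hf0 : 0 ≤ (f 1).re := by
    by_contra h
    nlinarith [mul_neg_of_neg_of_pos (not_le.1 h) hp]
  have hMp : 0 < M ^ (4 * (1 - σ)) := Real.rpow_pos_of_pos (by linarith) _
  rw [neg_mul, Real.rpow_neg (by linarith), mul_inv_le_iff₀ hMp, one_div_mul_eq_div,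
    div_le_iff₀ (by positivity)]
  nlinarith [mul_le_mul_of_nonneg_left t7 hf0]

end Vale.Agent.P013
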