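import Vale.Agent.P013.Tree
import Vale.Agent.P013.Mertens

/-! The explicit supersolution for the density of Rosser chains.

Write `l = log D`, `u = log (D / X)`, `v = log p`, `r = u / v ≥ 3`.

Proof plan for `Bw_big`: prove by induction on `n` the statement for all `p, X` with
`N₀ ≤ p`, `z ≤ p + n`, `X p^3 ≤ D`:
`Bw D z 1 p X ≤ K (u - v)^2 (1/v + C₃/v^2) / l^2`. (`n = 0`: no primes in `(p, z)`.)
In `Bw_odd_rec` the induction hypothesis applies to `(q₀, X/(q q₀))` since `q₀ > p + 1` and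
`X/(q q₀) * q₀^3 < D`; there `log (D q q₀/X) - log q₀ = U := u + t`, `t = log q`, and the
condition reads `log q₀ < U/2`, which forces `t < u`. With `mertensk` (`k = 1, 2`) on
`PI q (exp (U/2))` the inner sum is at most `K I(t) / l^2`,
`I(t) = (u^2 - t^2)/t + C₃ (u^2/(2t^2) + u/t - 3/2) + 4 C u^2/t^2 + 4 C C₃ u^2/t^3`
(`U (U - 2t) = u^2 - t^2`, `U ≤ 2u`). Outer sum over primes with `v < t < min u (w/3)`,
`w = log (2X)`; let `β = max v (min u (w/3))`.
(i) first term, non negative for `t ≤ u`; extend to `PI p (exp β)`, `mertensk 1` and `mertens1`: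
`≤ u^2 (1/v - 1/β + C/v^2) - (β - v) + C = (u-v)^2/v - (u-β)^2/β + C u^2/v^2 + C`.
(ii) second term, non negative for `t ≤ u` (`(u-t)(u+3t) ≥ 0`); extend to `PI p (exp u)` and use
`1/q ≥ t/(q u)`: `≤ C₃ (r^2/4 + r - 11/4 + 3/(2r) + C' r^2/v)`, and
`r^2/4 + r - 11/4 + 3/(2r) ≤ 0.8 (r-1)^2`, `r^2 ≤ (9/4)(r-1)^2` for `r ≥ 3`.
(iii), (iv) `≤ C' r^2` and `≤ C' C₃ r^2/v`.
Total `≤ (u-v)^2/v - (u-β)^2/β + (r-1)^2 (0.8 C₃ + C₄ + C₄ C₃/v)`; take `C₃ = 10 C₄` and
`log N₀ ≥ 10 C₄`. Finally the source term: if it is non zero then `X < z` and `p < 2X`, so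
`u ≥ 0.49 l`, `v < w ≤ 0.51 l + 1`, `β ≤ max (u/3) (w/3) ≤ 0.37 u`, `β ≤ w`, hence
`(u-β)^2/β ≥ 0.09 l^2 / w`, while the source is `≤ θ(2X)/(X log X) ≤ C/w`
(`Chebyshev.theta_le_log4_mul_x`, `log X ≥ w/2`). Take `K ≥ C/0.09`. -/

open Finset

namespace Vale.Agent.P013

theorem Bw_nonneg (D : ℝ) (z par : ℕ) (p X : ℝ) : 0 ≤ Bw D z par p X :=
  sum_nonneg fun _ _ => by positivity

theorem Bw_anti (D : ℝ) (z par : ℕ) {p p' : ℝ} (h : p ≤ p') (X : ℝ) :
    Bw D z par p' X ≤ Bw D z par p X := by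
  refine sum_le_sum_of_subset_of_nonneg (fun s hs => ?_) fun _ _ _ => by positivity
  simp only [mem_filter, mem_okS] at hs ⊢
  refine ⟨⟨fun q hq => ?_, hs.1.2⟩, hs.2⟩
  have := mem_filter.1 (hs.1.1 hq)
  exact mem_filter.2 ⟨this.1, h.trans_lt this.2⟩

namespace Sup

theorem peel {A : Finset (Finset ℕ)} {Q : Finset ℕ} {B : ℕ → Finset (Finset ℕ)}
    (hA : ∀ s ∈ A, s.Nonempty ∧ lo s ∈ Q ∧ s.erase (lo s) ∈ B (lo s)) :
    ∑ s ∈ A, 1 / (pr s : ℝ) ≤ ∑ q ∈ Q, (∑ t ∈ B q, 1 / (pr t : ℝ)) / q := by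
  classical
  simp only [sum_div]
  rw [sum_sigma']
  have e : ∀ s ∈ A, 1 / (pr s : ℝ) = 1 / (pr (s.erase (lo s)) : ℝ) / lo s := fun s hs => by
    rw [pr_erase (lo_mem (hA s hs).1), Nat.cast_mul, div_div, mul_comm]
  rw [sum_congr rfl e, ← sum_image (g := fun s => (⟨lo s, s.erase (lo s)⟩ : Σ _ : ℕ, Finset ℕ))
    (f := fun x => 1 / (pr x.2 : ℝ) / x.1) fun s hs t ht h => by
      obtain ⟨h1, h2⟩ := Sigma.mk.inj_iff.1 h
      rw [← insert_erase (lo_mem (hA s hs).1), eq_of_heq h2, h1, insert_erase (lo_mem (hA t ht).1)]]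
  refine sum_le_sum_of_subset_of_nonneg (fun x hx => ?_) fun _ _ _ => by positivity
  obtain ⟨s, hs, rfl⟩ := mem_image.1 hx
  exact mem_sigma.2 (hA s hs).2

theorem mem_Bw {D : ℝ} {z par : ℕ} {p X : ℝ} {s : Finset ℕ} (hne : s.Nonempty)
    (h1 : s ⊆ z.primesBelow.filter fun q : ℕ => p < q) (h2 : Ok 3 1 D s)
    (h3 : (s.card - 1) % 2 = par) (h4 : X ≤ (pr s : ℝ)) (h5 : (pr s : ℝ) < 2 * X) :
    (s.erase (lo s) ⊆ z.primesBelow.filter (fun q : ℕ => (lo s : ℝ) < q) ∧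
      Ok 3 1 D (s.erase (lo s))) ∧ (s.erase (lo s)).card % 2 = par ∧
      X / lo s ≤ (pr (s.erase (lo s)) : ℝ) ∧ (pr (s.erase (lo s)) : ℝ) < 2 * (X / lo s) := by
  have hm := lo_mem hne
  have h0 : (0 : ℝ) < lo s :=
    Nat.cast_pos.2 (Nat.prime_of_mem_primesBelow (mem_filter.1 (h1 hm)).1).pos
  rw [pr_erase hm, Nat.cast_mul] at h4 h5
  refine ⟨⟨fun q hq => ?_, ok_erase_lo h2⟩, by rwa [card_erase_of_mem hm], ?_, ?_⟩
  · rw [← above_lo, mem_above] at hq
    exact mem_filter.2 ⟨(mem_filter.1 (h1 hq.1)).1, Nat.cast_lt.2 hq.2⟩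
  · rwa [div_le_iff₀' h0]
  · rwa [← mul_div_assoc, lt_div_iff₀' h0]

theorem odd_rec (D : ℝ) (z : ℕ) (p X : ℝ) :
    Bw D z 1 p X ≤ ∑ q ∈ z.primesBelow.filter (fun q : ℕ => p < q), Bw D z 0 q (X / q) / q := by
  refine peel fun s hs => ?_
  simp only [mem_filter, mem_okS] at hs
  obtain ⟨⟨h1, h2⟩, h3, h4, h5⟩ := hs
  have hne : s.Nonempty := card_pos.1 (by omega)
  refine ⟨hne, h1 (lo_mem hne), ?_⟩
  simp only [mem_filter, mem_okS]
  exact mem_Bw hne h1 h2 (by omega) h4 h5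

theorem odd_zero (D : ℝ) (z : ℕ) {p X : ℝ} (h : 2 * X ≤ p) : Bw D z 1 p X = 0 := by
  refine sum_eq_zero fun s hs => ?_
  simp only [mem_filter, mem_okS] at hs
  obtain ⟨⟨h1, -⟩, h3, -, h5⟩ := hs
  obtain ⟨q, hq⟩ : s.Nonempty := card_pos.1 (by omega)
  have h6 : q ≤ pr s := Nat.le_of_dvd
    (pr_pos fun r hr => Nat.prime_of_mem_primesBelow (mem_filter.1 (h1 hr)).1) (dvd_prod_of_mem _ hq)
  have h7 : (q : ℝ) ≤ pr s := Nat.cast_le.2 h6
  linarith [(mem_filter.1 (h1 hq)).2]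

end Sup

theorem Bw_even_rec (D : ℝ) (z : ℕ) (p X : ℝ) :
    Bw D z 0 p X ≤ (if X ≤ 1 ∧ 1 < 2 * X then 1 else 0) +
      ∑ q ∈ z.primesBelow.filter (fun q : ℕ => p < q ∧ X * (q : ℝ) ^ 2 < D),
        Bw D z 1 q (X / q) / q := by
  classical
  rw [Bw, ← sum_filter_add_sum_filter_not _ fun s => s = ∅]
  refine add_le_add ?_ (Sup.peel fun s hs => ?_)
  · rw [filter_eq']
    split_ifs with h1 h2 h2
    · simp
    · exact absurd (by simpa using (mem_filter.1 h1).2) h2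
    · simp
    · simp
  · simp only [mem_filter, mem_okS] at hs
    obtain ⟨⟨⟨h1, h2⟩, h3, h4, h5⟩, h6⟩ := hs
    have hne : s.Nonempty := nonempty_iff_ne_empty.2 h6
    have hc := card_pos.2 hne
    have hm := lo_mem hne
    refine ⟨hne, ?_, ?_⟩
    · have h7 := h2 _ hm (by rw [above_lo, card_erase_of_mem hm]; omega)
      rw [above_lo] at h7
      rw [pr_erase hm, Nat.cast_mul] at h4
      refine mem_filter.2 ⟨(mem_filter.1 (h1 hm)).1, (mem_filter.1 (h1 hm)).2, ?_⟩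
      nlinarith [mul_le_mul_of_nonneg_right h4 (sq_nonneg (lo s : ℝ))]
    · simp only [mem_filter, mem_okS]
      exact Sup.mem_Bw hne h1 h2 (by omega) h4 h5

theorem Bw_odd_rec (D : ℝ) (z : ℕ) (p X : ℝ) :
    Bw D z 1 p X ≤
      ∑ q ∈ z.primesBelow.filter (fun q : ℕ => p < q ∧ X ≤ q ∧ (q : ℝ) < 2 * X), 1 / (q : ℝ) +
      ∑ q ∈ z.primesBelow.filter (fun q : ℕ => p < q ∧ (q : ℝ) ^ 3 < 2 * X),
        ∑ q₀ ∈ z.primesBelow.filter (fun q₀ : ℕ => q < q₀ ∧ X * (q₀ : ℝ) ^ 2 < D * q),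
          Bw D z 1 q₀ (X / (q * q₀)) / (q * q₀) := by
  refine (Sup.odd_rec D z p X).trans ?_
  rw [← filter_filter, ← filter_filter (fun q : ℕ => p < q), sum_filter (fun q : ℕ => X ≤ q ∧ _),
    sum_filter (fun q : ℕ => (q : ℝ) ^ 3 < _), ← sum_add_distrib]
  refine sum_le_sum fun q hq => ?_
  have h0 : (0 : ℝ) < q := Nat.cast_pos.2 (Nat.prime_of_mem_primesBelow (mem_filter.1 hq).1).pos
  refine (div_le_div_of_nonneg_right (Bw_even_rec D z q (X / q)) h0.le).trans ?_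
  rw [add_div]
  refine add_le_add (le_of_eq ?_) ?_
  · simp only [div_le_one h0, ← mul_div_assoc, one_lt_div h0]
    split_ifs <;> simp
  · have e : ∀ q₀ : ℕ, ((q : ℝ) < q₀ ∧ X / q * (q₀ : ℝ) ^ 2 < D) ↔
        (q < q₀ ∧ X * (q₀ : ℝ) ^ 2 < D * q) := fun q₀ => by
      rw [Nat.cast_lt, div_mul_eq_mul_div, div_lt_iff₀ h0]
    simp only [e, sum_div, div_div, mul_comm _ (q : ℝ)]
    split_ifs with h
    · exact le_rfl
    · refine le_of_eq (sum_eq_zero fun q₀ hq₀ => ?_)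
      have h1 : (q : ℝ) < q₀ := Nat.cast_lt.2 (mem_filter.1 hq₀).2.1
      rw [Sup.odd_zero, zero_div]
      rw [← mul_div_assoc, div_le_iff₀ (mul_pos h0 (h0.trans h1))]
      nlinarith [mul_lt_mul'' h1 h1 h0.le h0.le]

namespace Sup

/-- The three Mertens estimates with one constant. -/
structure MC (C : ℝ) : Prop where
  one : 1 ≤ C
  m0 : ∀ x b : ℝ, 2 ≤ x → Real.log x ≤ b →
    b - Real.log x - C ≤ ∑ p ∈ PI x (Real.exp b), Real.log p / p
  m1 : ∀ x b : ℝ, 2 ≤ x → Real.log x ≤ b → ∑ p ∈ PI x (Real.exp b), 1 / (p * Real.log p) ≤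
    1 / Real.log x - 1 / b + C / Real.log x ^ 2
  m2 : ∀ x b : ℝ, 2 ≤ x → Real.log x ≤ b → ∑ p ∈ PI x (Real.exp b), 1 / (p * Real.log p ^ 2) ≤
    (1 / Real.log x ^ 2 - 1 / b ^ 2) / 2 + C / Real.log x ^ 3

theorem exists_MC : ∃ C, MC C := by
  obtain ⟨C0, a0, h0⟩ := mertens1
  obtain ⟨C1, a1, h1⟩ := mertensk (k := 1) le_rfl
  obtain ⟨C2, a2, h2⟩ := mertensk (k := 2) one_le_two
  have k : ∀ x b : ℝ, 2 ≤ x → Real.log x ≤ b → x ≤ Real.exp b := fun x b hx hb =>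
    (Real.log_le_iff_le_exp (by linarith)).1 hb
  refine ⟨1 + C0 + C1 + C2, by linarith, fun x b hx hb => ?_, fun x b hx hb => ?_,
    fun x b hx hb => ?_⟩
  · have := (abs_le.1 (h0 x _ (by linarith) (k x b hx hb))).1
    rw [Real.log_exp] at this
    linarith
  · have := (abs_le.1 (h1 x _ (by linarith) (k x b hx hb))).2
    simp only [Real.log_exp, pow_one, Nat.cast_one, div_one, Nat.reduceAdd] at this
    linarith [div_le_div_of_nonneg_right (show C1 ≤ 1 + C0 + C1 + C2 by linarith)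
      (sq_nonneg (Real.log x))]
  · have := (abs_le.1 (h2 x _ (by linarith) (k x b hx hb))).2
    simp only [Real.log_exp, Nat.cast_ofNat, Nat.reduceAdd] at this
    linarith [div_le_div_of_nonneg_right (show C2 ≤ 1 + C0 + C1 + C2 by linarith)
      (pow_nonneg (Real.log_nonneg (by linarith : 1 ≤ x)) 3)]

/-- The bound for the inner sum. -/
noncomputable def II (C u t : ℝ) : ℝ :=
  (u ^ 2 - t ^ 2) / t + 135 * C * (u ^ 2 / (2 * t ^ 2) + u / t - 3 / 2) + 4 * C * u ^ 2 / t ^ 2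
    + 540 * C ^ 2 * u ^ 2 / t ^ 3

theorem inner {C : ℝ} (hC : MC C) {x u : ℝ} (hx : 2 ≤ x) (hu : Real.log x ≤ u) :
    ∑ q ∈ PI x (Real.exp ((u + Real.log x) / 2)),
      (u + Real.log x) ^ 2 * (1 / Real.log q + 135 * C / Real.log q ^ 2) / q ≤
      II C u (Real.log x) := by
  have h1 := hC.m1 x ((u + Real.log x) / 2) hx (by linarith)
  have h2 := hC.m2 x ((u + Real.log x) / 2) hx (by linarith)
  have ht : 0 < Real.log x := Real.log_pos (by linarith)
  have c0 : 0 ≤ C := by linarith [hC.one]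
  have e : ∀ q : ℕ, (u + Real.log x) ^ 2 * (1 / Real.log q + 135 * C / Real.log q ^ 2) / q =
      (u + Real.log x) ^ 2 * (1 / (q * Real.log q)) +
        135 * C * (u + Real.log x) ^ 2 * (1 / (q * Real.log q ^ 2)) := fun q => by ring
  simp only [e, sum_add_distrib, ← mul_sum]
  generalize Real.log x = t at *
  have hU : (u + t) ^ 2 ≤ 4 * u ^ 2 := by nlinarith
  have e1 : (u + t) ^ 2 * (1 / t - 1 / ((u + t) / 2)) = (u ^ 2 - t ^ 2) / t := by
    have : u + t ≠ 0 := by linarith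
    field_simp
    ring
  have e2 : (u + t) ^ 2 * ((1 / t ^ 2 - 1 / ((u + t) / 2) ^ 2) / 2) =
      u ^ 2 / (2 * t ^ 2) + u / t - 3 / 2 := by
    have : u + t ≠ 0 := by linarith
    field_simp
    ring
  have a1 := mul_le_mul_of_nonneg_left h1 (sq_nonneg (u + t))
  have a2 := mul_le_mul_of_nonneg_left h2 (show 0 ≤ 135 * C * (u + t) ^ 2 by positivity)
  have a3 := mul_le_mul_of_nonneg_right hU (show 0 ≤ C / t ^ 2 by positivity)
  have a4 := mul_le_mul_of_nonneg_right hU (show 0 ≤ 135 * C * (C / t ^ 3) by positivity)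
  rw [II]
  linear_combination a1 + a2 + a3 + a4 + e1 + 135 * C * e2

theorem numer {C u v : ℝ} (hC : 1 ≤ C) (hv : 113 * C ≤ v) (hu : 3 * v ≤ u) :
    C * u ^ 2 / v ^ 2 + C + 135 * C * (u ^ 2 / 2 * ((1 / v ^ 2 - 1 / u ^ 2) / 2 + C / v ^ 3)
      + u * (1 / v - 1 / u + C / v ^ 2) - 3 / (2 * u) * (u - v - C))
      + (4 * C * u ^ 2 + 540 * C ^ 2 * u ^ 2 / v) * ((1 / v ^ 2 - 1 / u ^ 2) / 2 + C / v ^ 3) ≤
      (u - v) ^ 2 * (135 * C / v ^ 2) := by
  have v0 : 0 < v := by linarith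
  have u0 : 0 < u := by linarith
  obtain ⟨r, rfl⟩ : ∃ r, u = r * v := ⟨u / v, by field_simp⟩
  have hr : 3 ≤ r := le_of_mul_le_mul_right hu v0
  obtain ⟨e, rfl⟩ : ∃ e, C = e * v := ⟨C / v, by field_simp⟩
  have he : 113 * e ≤ 1 := le_of_mul_le_mul_right (by linarith) v0
  have e0 : 0 < e := pos_of_mul_pos_of_pos_right' hC v0
  have r0 : 0 < r := by linarith
  have hi : 1 / r ≤ 1 / 3 := one_div_le_one_div_of_le (by norm_num) hr
  have hi0 : 0 < 1 / r := by positivity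
  have E1 : e * v * (r * v) ^ 2 / v ^ 2 + e * v + 135 * (e * v) * ((r * v) ^ 2 / 2 *
      ((1 / v ^ 2 - 1 / (r * v) ^ 2) / 2 + e * v / v ^ 3) + r * v * (1 / v - 1 / (r * v) +
        e * v / v ^ 2) - 3 / (2 * (r * v)) * (r * v - v - e * v))
      + (4 * (e * v) * (r * v) ^ 2 + 540 * (e * v) ^ 2 * (r * v) ^ 2 / v) *
        ((1 / v ^ 2 - 1 / (r * v) ^ 2) / 2 + e * v / v ^ 3) =
      e * v * (r ^ 2 + 1 + 135 * (r ^ 2 / 4 + r - 11 / 4 + 3 / 2 * (1 / r) + e * r ^ 2 / 2 + e * r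
        + 3 / 2 * (1 / r) * e) + (4 + 540 * e) * ((r ^ 2 - 1) / 2 + e * r ^ 2)) := by
    field_simp
    ring
  have E2 : (r * v - v) ^ 2 * (135 * (e * v) / v ^ 2) = e * v * (135 * (r - 1) ^ 2) := by
    field_simp
  rw [E1, E2]
  refine mul_le_mul_of_nonneg_left ?_ (by positivity)
  have a1 : e * r ^ 2 ≤ r ^ 2 / 113 := by nlinarith [sq_nonneg r]
  have a2 : e * r ≤ r / 113 := by nlinarith
  have a3 : 1 / r * e ≤ 1 / 300 := by nlinarith
  have a4 : e * (e * r ^ 2) ≤ r ^ 2 / 113 / 113 := by nlinarith [sq_nonneg r]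
  nlinarith
where
  pos_of_mul_pos_of_pos_right' {a b : ℝ} (h : 1 ≤ a * b) (hb : 0 < b) : 0 < a :=
    pos_of_mul_pos_of_nonneg_right' h hb
  pos_of_mul_pos_of_nonneg_right' {a b : ℝ} (h : 1 ≤ a * b) (hb : 0 < b) : 0 < a := by
    by_contra hn
    nlinarith [mul_nonneg (neg_nonneg.2 (not_lt.1 hn)) hb.le]

theorem mem_log {x b : ℝ} (hx : 2 ≤ x) {q : ℕ} :
    q ∈ PI x (Real.exp b) ↔ q.Prime ∧ x < q ∧ Real.log q ≤ b := by
  rw [mem_PI (by linarith)]
  exact and_congr_right fun _ => and_congr_right fun h =>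
    (Real.log_le_iff_le_exp (by linarith)).symm

theorem term {C u v t q : ℝ} (hC : 0 ≤ C) (hv : 0 < v) (hvt : v ≤ t) (htu : t ≤ u) (hq : 0 < q) :
    0 ≤ u ^ 2 * (1 / (q * t)) - t / q ∧
    0 ≤ 135 * C * (u ^ 2 / 2 * (1 / (q * t ^ 2)) + u * (1 / (q * t)) - 3 / (2 * u) * (t / q))
      + (4 * C * u ^ 2 + 540 * C ^ 2 * u ^ 2 / v) * (1 / (q * t ^ 2)) ∧
    II C u t / q ≤ (u ^ 2 * (1 / (q * t)) - t / q) +
      (135 * C * (u ^ 2 / 2 * (1 / (q * t ^ 2)) + u * (1 / (q * t)) - 3 / (2 * u) * (t / q))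
      + (4 * C * u ^ 2 + 540 * C ^ 2 * u ^ 2 / v) * (1 / (q * t ^ 2))) := by
  have t0 : 0 < t := by linarith
  have u0 : 0 < u := by linarith
  have a1 : 1 ≤ u / t := (one_le_div t0).2 htu
  have a2 : t / u ≤ 1 := (div_le_one u0).2 htu
  have e1 : u ^ 2 * (1 / (q * t)) - t / q = (u ^ 2 - t ^ 2) / t / q := by field_simp
  have e2 : u ^ 2 / 2 * (1 / (q * t ^ 2)) + u * (1 / (q * t)) - 3 / (2 * u) * (t / q) =
      ((u / t) ^ 2 / 2 + u / t - 3 / 2 * (t / u)) / q := by field_simp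
  have a3 : 0 ≤ (u / t) ^ 2 / 2 + u / t - 3 / 2 * (t / u) := by nlinarith
  refine ⟨?_, ?_, ?_⟩
  · rw [e1]
    exact div_nonneg (div_nonneg (by nlinarith) t0.le) hq.le
  · rw [e2]; positivity
  · have a4 : 540 * C ^ 2 * u ^ 2 / t ^ 3 ≤ 540 * C ^ 2 * u ^ 2 / (v * t ^ 2) :=
      div_le_div_of_nonneg_left (by positivity) (by positivity) (by nlinarith [sq_nonneg t])
    have a5 := mul_le_mul_of_nonneg_left a2 hC
    have e3 : (4 * C * u ^ 2 + 540 * C ^ 2 * u ^ 2 / v) * (1 / (q * t ^ 2)) =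
        (4 * C * u ^ 2 / t ^ 2 + 540 * C ^ 2 * u ^ 2 / (v * t ^ 2)) / q := by field_simp
    rw [e1, e2, e3, ← mul_div_assoc, ← add_div, ← add_div, II]
    refine div_le_div_of_nonneg_right ?_ hq.le
    linear_combination a4 + 405 / 2 * a5

theorem outer {C : ℝ} (hC : MC C) {p u β : ℝ} (hp : 2 ≤ p) (hv : 113 * C ≤ Real.log p)
    (hu : 3 * Real.log p ≤ u) (h1 : Real.log p ≤ β) (h2 : β ≤ u) {T : Finset ℕ}
    (hT : T ⊆ PI p (Real.exp β)) :
    ∑ q ∈ T, II C u (Real.log q) / q ≤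
      (u - Real.log p) ^ 2 * (1 / Real.log p + 135 * C / Real.log p ^ 2) - (u - β) ^ 2 / β := by
  have v0 : 0 < Real.log p := Real.log_pos (by linarith)
  have c0 : 0 ≤ C := by linarith [hC.one]
  have hs : PI p (Real.exp β) ⊆ PI p (Real.exp u) := fun q hq => by
    rw [mem_log hp] at hq ⊢
    exact ⟨hq.1, hq.2.1, hq.2.2.trans h2⟩
  have k := fun q (hq : q ∈ PI p (Real.exp u)) => term (u := u) (t := Real.log q) (q := q) c0 v0
    (Real.log_le_log (by linarith) ((mem_log hp).1 hq).2.1.le) ((mem_log hp).1 hq).2.2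
    (by linarith [((mem_log hp).1 hq).2.1])
  refine (sum_le_sum fun q hq => (k q (hs (hT hq))).2.2).trans ?_
  rw [sum_add_distrib]
  refine (add_le_add (sum_le_sum_of_subset_of_nonneg hT fun q hq _ => (k q (hs hq)).1)
    (sum_le_sum_of_subset_of_nonneg (hT.trans hs) fun q hq _ => (k q hq).2.1)).trans ?_
  simp only [sum_add_distrib, sum_sub_distrib, ← mul_sum]
  have u0 : 0 < u := by linarith
  have b0 := hC.m0 p β hp h1
  have b1 := mul_le_mul_of_nonneg_left (hC.m1 p β hp h1) (sq_nonneg u)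
  have d0 := mul_le_mul_of_nonneg_left (hC.m0 p u hp (h1.trans h2))
    (show 0 ≤ 135 * C * (3 / (2 * u)) by positivity)
  have d1 := mul_le_mul_of_nonneg_left (hC.m1 p u hp (h1.trans h2))
    (show 0 ≤ 135 * C * u by positivity)
  have d2 := mul_le_mul_of_nonneg_left (hC.m2 p u hp (h1.trans h2))
    (show 0 ≤ 135 * C * (u ^ 2 / 2) + (4 * C * u ^ 2 + 540 * C ^ 2 * u ^ 2 / Real.log p) by
      positivity)
  have n := numer hC.one hv hu
  have e : u ^ 2 * (1 / Real.log p - 1 / β) - (β - Real.log p) =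
      (u - Real.log p) ^ 2 * (1 / Real.log p) - (u - β) ^ 2 / β := by
    have : β ≠ 0 := by linarith
    field_simp
    ring
  linear_combination b0 + b1 + d0 + d1 + d2 + n + e

theorem source : ∃ K : ℝ, 0 < K ∧ ∀ (z : ℕ) (l p X : ℝ), 30 ≤ l → Real.log z ≤ 0.51 * l → 2 ≤ p →
    0 < X → 3 * Real.log p ≤ l - Real.log X → ∀ β, Real.log p ≤ β →
    β ≤ max (Real.log p) (Real.log (2 * X) / 3) →
    ∑ q ∈ z.primesBelow.filter (fun q : ℕ => p < q ∧ X ≤ q ∧ (q : ℝ) < 2 * X), 1 / (q : ℝ) ≤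
      K / l ^ 2 * ((l - Real.log X - β) ^ 2 / β) := by
  obtain ⟨C, C0, hC⟩ := card_PI_le
  refine ⟨23 * C, by positivity, fun z l p X hl hz hp hX hu β h1 h2 => ?_⟩
  have v0 : 0 < Real.log p := Real.log_pos (by linarith)
  have β0 : 0 < β := by linarith
  rcases (z.primesBelow.filter fun q : ℕ => p < q ∧ X ≤ q ∧ (q : ℝ) < 2 * X).eq_empty_or_nonempty
    with h | ⟨q, hq⟩
  · rw [h, sum_empty]; positivity
  obtain ⟨a1, a2, a3, a4⟩ := mem_filter.1 hq
  have a5 : (q : ℝ) < z := Nat.cast_lt.2 (Nat.lt_of_mem_primesBelow a1)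
  have a6 : Real.log X ≤ 0.51 * l := (Real.log_le_log hX (by linarith)).trans hz
  have a7 : Real.log p ≤ Real.log (2 * X) := Real.log_le_log (by linarith) (by linarith)
  have a8 : Real.log (2 * X) ≤ 1 + Real.log X := by
    rw [Real.log_mul two_ne_zero hX.ne']
    linarith [Real.log_le_sub_one_of_pos two_pos]
  have b1 : β ≤ Real.log (2 * X) := h2.trans (max_le a7 (by linarith))
  have b2 : β ≤ 0.37 * (l - Real.log X) := h2.trans (max_le (by linarith) (by linarith))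
  have b3 : (0.3 * l) ^ 2 ≤ (l - Real.log X - β) ^ 2 :=
    pow_le_pow_left₀ (by positivity) (by linarith) 2
  have c1 : ∑ q ∈ z.primesBelow.filter (fun q : ℕ => p < q ∧ X ≤ q ∧ (q : ℝ) < 2 * X),
      1 / (q : ℝ) ≤ (PI 0 (2 * X)).card * (1 / X) := by
    refine (sum_le_card_nsmul _ _ (1 / X) fun r hr =>
      one_div_le_one_div_of_le hX (mem_filter.1 hr).2.2.1).trans ?_
    rw [nsmul_eq_mul]
    refine mul_le_mul_of_nonneg_right (Nat.cast_le.2 (card_le_card fun r hr => ?_)) (by positivity)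
    obtain ⟨r1, r2, -, r4⟩ := mem_filter.1 hr
    exact (mem_PI le_rfl).2 ⟨Nat.prime_of_mem_primesBelow r1, by linarith, r4.le⟩
  have c2 := mul_le_mul_of_nonneg_right (hC (2 * X) (by linarith)) (show 0 ≤ 1 / X by positivity)
  refine (c1.trans c2).trans ?_
  calc C * (2 * X) / Real.log (2 * X) * (1 / X) = 2 * C / Real.log (2 * X) := by field_simp
    _ ≤ 2 * C / β := div_le_div_of_nonneg_left (by positivity) β0 b1
    _ ≤ 23 * C / l ^ 2 * ((0.3 * l) ^ 2 / β) := by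
      have : 23 * C / l ^ 2 * ((0.3 * l) ^ 2 / β) = 2.07 * C / β := by field_simp; ring
      rw [this]
      exact div_le_div_of_nonneg_right (by linarith) β0.le
    _ ≤ _ := by gcongr

theorem induct {C K D : ℝ} {z : ℕ} (hC : MC C) (hK : 0 < K) (hD : 0 < D)
    (hS : ∀ p X : ℝ, 2 ≤ p → 0 < X → 3 * Real.log p ≤ Real.log D - Real.log X → ∀ β,
      Real.log p ≤ β → β ≤ max (Real.log p) (Real.log (2 * X) / 3) →
      ∑ q ∈ z.primesBelow.filter (fun q : ℕ => p < q ∧ X ≤ q ∧ (q : ℝ) < 2 * X), 1 / (q : ℝ) ≤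
        K * ((Real.log D - Real.log X - β) ^ 2 / β)) (n : ℕ) :
    ∀ p X : ℝ, 2 ≤ p → 113 * C ≤ Real.log p → (z : ℝ) ≤ p + n → 0 < X → X * p ^ 3 ≤ D →
      Bw D z 1 p X ≤ K * ((Real.log D - Real.log X - Real.log p) ^ 2 *
        (1 / Real.log p + 135 * C / Real.log p ^ 2)) := by
  induction n using Nat.strong_induction_on with
  | _ n ih =>
  intro p X hp hv hz hX hXD
  have p0 : 0 < p := by linarith
  have hu : 3 * Real.log p ≤ Real.log D - Real.log X := by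
    have := Real.log_le_log (by positivity) hXD
    rw [Real.log_mul hX.ne' (by positivity), Real.log_pow] at this
    push_cast at this
    linarith
  have v0 : 0 < Real.log p := Real.log_pos (by linarith)
  obtain ⟨u, hud⟩ : ∃ u, u = Real.log D - Real.log X := ⟨_, rfl⟩
  obtain ⟨β, hβ⟩ : ∃ β, β = max (Real.log p) (min u (Real.log (2 * X) / 3)) := ⟨_, rfl⟩
  have b1 : Real.log p ≤ β := hβ ▸ le_max_left _ _
  have S := hS p X hp hX hu β b1 (hβ ▸ max_le_max_left _ (min_le_right _ _))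
  rw [← hud] at hu S ⊢
  have b2 : β ≤ u := hβ ▸ max_le (by linarith) (min_le_left _ _)
  have In : ∀ q ∈ z.primesBelow.filter (fun q : ℕ => p < q ∧ (q : ℝ) ^ 3 < 2 * X),
      ∑ q₀ ∈ z.primesBelow.filter (fun q₀ : ℕ => q < q₀ ∧ X * (q₀ : ℝ) ^ 2 < D * q),
        Bw D z 1 q₀ (X / (q * q₀)) / (q * q₀) ≤
      if Real.log q ≤ u then K * (II C u (Real.log q) / q) else 0 := by
    intro q hq
    obtain ⟨-, q1, -⟩ := mem_filter.1 hq
    have q0 : (0 : ℝ) < q := by linarith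
    have hm : ∀ q₀ ∈ z.primesBelow.filter (fun q₀ : ℕ => q < q₀ ∧ X * (q₀ : ℝ) ^ 2 < D * q),
        q₀ ∈ PI q (Real.exp ((u + Real.log q) / 2)) := fun q₀ h => by
      obtain ⟨r1, r2, r3⟩ := mem_filter.1 h
      have r4 : (q : ℝ) < q₀ := Nat.cast_lt.2 r2
      have r5 := Real.log_le_log (by have := q0.trans r4; positivity) r3.le
      rw [Real.log_mul hX.ne' (pow_pos (q0.trans r4) 2).ne', Real.log_mul hD.ne' q0.ne',
        Real.log_pow] at r5
      push_cast at r5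
      exact (mem_log (by linarith)).2 ⟨Nat.prime_of_mem_primesBelow r1, r4, by linarith⟩
    split_ifs with ht
    · have I := inner hC (x := q) (by linarith) ht
      have tq : 0 < Real.log q := Real.log_pos (by linarith)
      have c0 : 0 ≤ C := by linarith [hC.one]
      refine le_trans ?_ (mul_le_mul_of_nonneg_left (div_le_div_of_nonneg_right
        ((sum_le_sum_of_subset_of_nonneg hm fun r hr _ => ?_).trans I) q0.le) hK.le)
      · rw [sum_div, mul_sum]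
        refine sum_le_sum fun q₀ h => ?_
        obtain ⟨r1, r2, r3⟩ := mem_filter.1 h
        have r4 : (q : ℝ) + 1 ≤ q₀ := by exact_mod_cast r2
        have r5 : (q₀ : ℝ) < z := Nat.cast_lt.2 (Nat.lt_of_mem_primesBelow r1)
        have r0 : (0 : ℝ) < q₀ := by linarith
        obtain ⟨m, rfl⟩ : ∃ m, n = m + 1 := Nat.exists_eq_succ_of_ne_zero (by
          rintro rfl
          push_cast at hz
          linarith)
        push_cast at hz
        have B := ih m (Nat.lt_succ_self m) q₀ (X / (q * q₀)) (by linarith)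
          (hv.trans (Real.log_le_log p0 (by linarith))) (by linarith) (by positivity) (by
            rw [div_mul_eq_mul_div, div_le_iff₀ (by positivity)]
            nlinarith [mul_lt_mul_of_pos_right r3 r0])
        rw [Real.log_div hX.ne' (by positivity), Real.log_mul q0.ne' r0.ne'] at B
        refine (div_le_div_of_nonneg_right B (by positivity)).trans (le_of_eq ?_)
        rw [hud]
        ring
      · have := Real.log_natCast_nonneg r
        positivity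
    · refine le_of_eq (sum_eq_zero fun q₀ h => absurd ?_ ht)
      obtain ⟨-, r2, r3⟩ := (mem_log (by linarith)).1 (hm q₀ h)
      linarith [Real.log_le_log q0 r2.le]
  have O := outer hC hp hv hu b1 b2 (T := (z.primesBelow.filter fun q : ℕ =>
    p < q ∧ (q : ℝ) ^ 3 < 2 * X).filter fun q : ℕ => Real.log q ≤ u) fun q hq => by
      obtain ⟨r1, r2⟩ := mem_filter.1 hq
      obtain ⟨r3, r4, r5⟩ := mem_filter.1 r1
      have r6 := Real.log_le_log (pow_pos (p0.trans r4) 3) r5.le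
      rw [Real.log_pow] at r6
      push_cast at r6
      exact (mem_log hp).2 ⟨Nat.prime_of_mem_primesBelow r3, r4,
        hβ ▸ le_max_of_le_right (le_min r2 (by linarith))⟩
  have T := sum_le_sum In
  rw [← sum_filter, ← mul_sum] at T
  linear_combination Bw_odd_rec D z p X + S + T + K * O

end Sup

theorem Bw_big : ∃ (K D₀ : ℝ) (N₀ : ℕ), 0 < K ∧ 2 ≤ N₀ ∧ ∀ (D : ℝ) (z : ℕ), D₀ ≤ D →
    Real.log z ≤ 0.51 * Real.log D → ∀ p X : ℝ, N₀ ≤ p → 0 < X → X * p ^ 3 ≤ D →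
      Bw D z 1 p X ≤ K * (Real.log (D / X) - Real.log p) ^ 2 / (Real.log p * Real.log D ^ 2) := by
  obtain ⟨C, hC⟩ := Sup.exists_MC
  obtain ⟨K, K0, hK⟩ := Sup.source
  have c1 := hC.one
  refine ⟨K * (1 + 135 * C), Real.exp 30, ⌈Real.exp (113 * C)⌉₊ + 2, by positivity, by omega,
    fun D z hD hz p X hp hX hXD => ?_⟩
  push_cast at hp
  have D0 : 0 < D := (Real.exp_pos _).trans_le hD
  have hl : 30 ≤ Real.log D := (Real.le_log_iff_exp_le D0).2 hD
  have e1 := Nat.le_ceil (Real.exp (113 * C))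
  have p2 : 2 ≤ p := by linarith [Real.exp_pos (113 * C)]
  have hv : 113 * C ≤ Real.log p := (Real.le_log_iff_exp_le (by linarith)).2 (by linarith)
  have B := Sup.induct hC (K := K / Real.log D ^ 2) (by positivity) D0
    (fun p X => hK z _ p X hl hz) z p X p2 hv (by linarith) hX hXD
  rw [Real.log_div D0.ne' hX.ne']
  refine B.trans ?_
  have v1 : 1 ≤ Real.log p := by linarith
  have a : 135 * C / Real.log p ^ 2 ≤ 135 * C / Real.log p :=
    div_le_div_of_nonneg_left (by positivity) (by linarith) (by nlinarith)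
  calc _ ≤ K / Real.log D ^ 2 * ((Real.log D - Real.log X - Real.log p) ^ 2 *
        (1 / Real.log p + 135 * C / Real.log p)) := by gcongr
    _ = _ := by field_simp

end Vale.Agent.P013
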