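import Vale.Agent.P013.Super2Y

/-! Consequences of the supersolution. Write `l = log D`, `u = log (D/X)`.

Proof plan.
* Step 1 (at `p = N₀` of `Bw_big`): for `0 < X ≤ D` and both parities
  `Bw D z par N₀ X ≤ K' (u+1)^2/l^2`. Odd, `X N₀^3 ≤ D`: `Bw_big`. Odd, `X N₀^3 > D`: in
  `Bw_odd_rec` the source vanishes (`X > z` for `D` large), `q < q₀` and
  `q₀^2 < D q/X < N₀^3 q₀` give `q₀ < N₀^3`, so there are boundedly many terms, each bounded by
  `Bw_big`. Even: `Bw_even_rec`, `Bw_big` at `(q, X/q)` gives `K u^2/(log q l^2)` and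
  `∑ 1/(q log q) ≤ C` (`mertensk 1`); the indicator forces `u ≥ l`.
* `Bw_le`: split `s` into its primes `> N₀` (admissible by `ok_filter_gt`) and a subset `t` of
  the primes `≤ N₀`: `Bw D z par p X ≤ ∑_t (Bw D z 0 N₀ (X/pr t) + Bw D z 1 N₀ (X/pr t))/pr t`.
* `Bw_odd_le`: `Bw_big` for `p ≥ N₀`, `Bw_le` for `p < N₀` (`u ≥ 3 log 2`).
* `T_le`: all primes of `s` exceed `p₀ = (D/(2X))^(1/3)`. If `p₀ ≥ 2` use `Bw_odd_le` with
  `log p₀ = (u - log 2)/3 ≥ u/4`; otherwise `u < log 16` and `Bw_le` applies.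
* `okS_card_le`, `okS_err_le`: `pr s ≤ D` (`ok_pr_le`); put `s` in the class `j ≥ 0` with
  `X_j ≤ pr s < 2 X_j`, `X_j = D/2^j`, and sum `Bw_le` (with `p = 0`):
  `∑ 2^(-j) (j+1)^2 < ∞`, `∑ (j+1)^2/(1 + max 0 (j-1) log 2)^4 < ∞`.
* `leaf_count`: leaves have even size (`leaf_iff`). Size two, `p < q < z`, `p q ≤ D`: pairs with
  `q ≤ √D` number at most `π(√D)^2`; for `√D < q < z` there are at most
  `π(D/q) ≤ C (D/q)/l` choices of `p` (`D/q ≥ D^0.49`), and
  `∑_{√D < q ≤ z} 1/q ≤ C (log (z^2/D) + 1)/l` (`mertens0`). Size at least four: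
  `s = {p < q < q₀} ∪ s₀`, `s₀` odd and admissible, class `X ≤ pr s < 2X`, `X = D/2^j`,
  `u = j log 2`. The leaf condition gives `D ≤ pr s p^2`, so `u ≤ 3 log p`; the condition at `q₀`
  gives `X q₀^2 < D p q`, so `p < q < q₀ < e^u p`. The weight of the class is at most
  `∑ Bw D z 1 q₀ (X/(p q q₀))/(p q q₀)`; `Bw_odd_le` bounds each `Bw` by
  `K (u + 3 log q₀)^2/(log q₀ l^2) ≤ K' log p / l^2`; `∑_{p<q≤e^u p} 1/q ≤ (u + C)/log p`
  (`mertens0`, `log (1+a) ≤ a`); `∑ 1/(p log p) ≤ C`. So the weight is `≤ K'' (u+1)^2/l^2` and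
  the number of leaves in the class is at most `2X` times the weight. -/

open Finset

namespace Vale.Agent.P013

theorem Bw_le : ∃ K D₀ : ℝ, 0 < K ∧ ∀ (D : ℝ) (z : ℕ), D₀ ≤ D →
    Real.log z ≤ 0.51 * Real.log D → ∀ (par : ℕ) (p X : ℝ), 0 < X → X ≤ D →
      Bw D z par p X ≤ K * (Real.log (D / X) + 1) ^ 2 / Real.log D ^ 2 := by
  classical
  obtain ⟨K, D₀, N₀, hK, hN, h⟩ := Bw_big
  obtain ⟨K₁, D₁, hK₁, h₁⟩ := Bw_N_odd hK hN h
  obtain ⟨K₂, D₂, hK₂, h₂⟩ := Bw_N_even hK hN h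
  set T := (N₀ + 1).primesBelow with hT
  have hTp : ∀ q ∈ T, q.Prime := fun q hq => Nat.prime_of_mem_primesBelow hq
  have hL : 0 ≤ Real.log (pr T) := Real.log_natCast_nonneg _
  refine ⟨T.powerset.card * ((K₂ + K₁) * (1 + Real.log (pr T)) ^ 2), max D₁ D₂, ?_,
    fun D z hD hz par p X hX hXD => ?_⟩
  · have : (0 : ℝ) < T.powerset.card := by exact_mod_cast card_pos.2 (powerset_nonempty T)
    positivity
  have hD1 := (le_max_left _ _).trans hD
  have hD2 := (le_max_right _ _).trans hD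
  have hu : 0 ≤ Real.log (D / X) := Real.log_nonneg ((one_le_div hX).2 hXD)
  have key : Bw D z par p X ≤ ∑ x ∈ T.powerset.sigma (fun t => BS D z 0 N₀ (X / pr t) ∪
      BS D z 1 N₀ (X / pr t)), 1 / (pr x.2 : ℝ) / pr x.1 := by
    rw [Bw_eq]
    refine sum_le_of_surj (fun x => x.1 ∪ x.2) (fun s hs => ?_) fun _ _ => by positivity
    obtain ⟨a1, a2, -, a3, a4⟩ := mem_BS.1 hs
    have hp : ∀ q ∈ s, q.Prime := fun q hq => Nat.prime_of_mem_primesBelow (a1 q hq).1
    have e : (pr s : ℝ) = pr (s.filter fun q : ℕ => (N₀ : ℝ) < q) *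
        pr (s.filter fun q : ℕ => ¬ (N₀ : ℝ) < q) := by
      rw [pr_cast, pr_cast, pr_cast, prod_filter_mul_prod_filter_not]
    have h0 : (0 : ℝ) < pr (s.filter fun q : ℕ => ¬ (N₀ : ℝ) < q) := by
      exact_mod_cast pr_pos fun q hq => hp q (mem_filter.1 hq).1
    refine ⟨⟨s.filter fun q : ℕ => ¬ (N₀ : ℝ) < q, s.filter fun q : ℕ => (N₀ : ℝ) < q⟩,
      mem_sigma.2 ⟨mem_powerset.2 fun q hq => ?_, ?_⟩, ?_, le_of_eq ?_⟩
    · obtain ⟨b1, b2⟩ := mem_filter.1 hq
      have b3 : q ≤ N₀ := by exact_mod_cast not_lt.1 b2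
      exact Nat.mem_primesBelow.2 ⟨by omega, hp q b1⟩
    · have b1 : ∀ par, (s.filter fun q : ℕ => (N₀ : ℝ) < q).card % 2 = par →
          (s.filter fun q : ℕ => (N₀ : ℝ) < q) ∈
            BS D z par N₀ (X / pr (s.filter fun q : ℕ => ¬ (N₀ : ℝ) < q)) := fun par hpar =>
        mem_BS.2 ⟨fun q hq => ⟨(a1 q (mem_filter.1 hq).1).1, (mem_filter.1 hq).2⟩,
          ok_filter_gt a2 _, hpar, by rwa [div_le_iff₀ h0, ← e],
          by rwa [← mul_div_assoc, lt_div_iff₀ h0, ← e]⟩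
      rcases Nat.mod_two_eq_zero_or_one (s.filter fun q : ℕ => (N₀ : ℝ) < q).card with b2 | b2
      · exact mem_union_left _ (b1 0 b2)
      · exact mem_union_right _ (b1 1 b2)
    · simp only
      rw [union_comm, filter_union_filter_not_eq]
    · simp only
      rw [e, div_div]
  refine key.trans ?_
  rw [sum_sigma, mul_assoc, mul_div_assoc, ← nsmul_eq_mul]
  refine sum_le_card_nsmul _ _ _ fun t ht => ?_
  have ht' := mem_powerset.1 ht
  have t1 : (1 : ℝ) ≤ pr t := by exact_mod_cast pr_pos fun q hq => hTp q (ht' hq)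
  have t2 : (pr t : ℝ) ≤ pr T := by
    exact_mod_cast prod_le_prod_of_subset_of_one_le' ht' fun q hq _ => (hTp q hq).one_le
  have t3 : X / pr t ≤ D := (div_le_self hX.le t1).trans hXD
  have t4 : 0 < X / pr t := by positivity
  have t5 : (Real.log (D / (X / pr t)) + 1) ^ 2 ≤
      (1 + Real.log (pr T)) ^ 2 * (Real.log (D / X) + 1) ^ 2 := by
    rw [← mul_pow, show D / (X / pr t) = D / X * pr t by field_simp,
      Real.log_mul (div_pos (by linarith) hX).ne' (by positivity)]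
    have b1 := Real.log_le_log (by linarith) t2
    have b2 := Real.log_nonneg t1
    refine pow_le_pow_left₀ (by linarith) ?_ 2
    nlinarith
  simp only
  rw [← sum_div]
  refine (div_le_self (sum_nonneg fun _ _ => by positivity) t1).trans ?_
  refine (sum_le_Bw (D := D) (z := z) (p := N₀) (X := X / pr t) fun s hs => ?_).trans ?_
  · rcases mem_union.1 hs with b | b <;> obtain ⟨b1, b2, -, b3⟩ := mem_BS.1 b <;>
      exact ⟨b1, b2, b3⟩
  · refine (add_le_add (h₂ D z hD2 hz _ t4 t3) (h₁ D z hD1 hz _ t4 t3)).trans ?_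
    rw [← add_div, ← add_mul, mul_assoc]
    exact div_le_div_of_nonneg_right (mul_le_mul_of_nonneg_left t5 (by positivity)) (by positivity)

theorem Bw_odd_le : ∃ K D₀ : ℝ, 0 < K ∧ ∀ (D : ℝ) (z : ℕ), D₀ ≤ D →
    Real.log z ≤ 0.51 * Real.log D → ∀ p X : ℝ, 2 ≤ p → 0 < X → X * p ^ 3 ≤ D →
      Bw D z 1 p X ≤ K * Real.log (D / X) ^ 2 / (Real.log p * Real.log D ^ 2) := by
  obtain ⟨K, D₀, N₀, hK, hN, h⟩ := Bw_big
  obtain ⟨K₁, D₁, hK₁, h₁⟩ := Bw_le
  have hN' : (2 : ℝ) ≤ N₀ := by exact_mod_cast hN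
  have hL : 0 < Real.log N₀ := Real.log_pos (by linarith)
  refine ⟨K + 4 * K₁ * Real.log N₀, max D₀ D₁, by positivity, fun D z hD hz p X hp hX hc => ?_⟩
  have hD0 := (le_max_left _ _).trans hD
  have hD1 := (le_max_right _ _).trans hD
  have h2 : 1 / 2 ≤ Real.log 2 := by linarith [Real.log_two_gt_d9]
  have hv : Real.log 2 ≤ Real.log p := Real.log_le_log (by norm_num) hp
  have a1 : 3 * Real.log p ≤ Real.log (D / X) := by
    have := Real.log_le_log (by positivity) ((le_div_iff₀' hX).2 hc)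
    rwa [Real.log_pow] at this
  rcases le_or_gt (N₀ : ℝ) p with hpN | hpN
  · refine (h D z hD0 hz p X hpN hX hc).trans (div_le_div_of_nonneg_right ?_ ?_)
    · refine mul_le_mul (le_add_of_nonneg_right (by positivity))
        (pow_le_pow_left₀ (by linarith) (by linarith) 2) (by positivity) (by positivity)
    · exact mul_nonneg (by linarith) (by positivity)
  · have a2 : X ≤ D := le_trans (le_mul_of_one_le_right hX.le (one_le_pow₀ (by linarith))) hc
    refine (h₁ D z hD1 hz 1 p X hX a2).trans ?_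
    rw [← div_div]
    refine div_le_div_of_nonneg_right ?_ (by positivity)
    rw [le_div_iff₀ (by linarith)]
    have a3 : Real.log p ≤ Real.log N₀ := Real.log_le_log (by linarith) hpN.le
    have a4 : (Real.log (D / X) + 1) ^ 2 ≤ (2 * Real.log (D / X)) ^ 2 :=
      pow_le_pow_left₀ (by linarith) (by linarith) 2
    calc K₁ * (Real.log (D / X) + 1) ^ 2 * Real.log p
        ≤ K₁ * (2 * Real.log (D / X)) ^ 2 * Real.log N₀ :=
          mul_le_mul (mul_le_mul_of_nonneg_left a4 hK₁.le) a3 (by linarith) (by positivity)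
      _ = 4 * K₁ * Real.log N₀ * Real.log (D / X) ^ 2 := by ring
      _ ≤ _ := mul_le_mul_of_nonneg_right (by linarith) (by positivity)

open Classical in
theorem T_le : ∃ K D₀ : ℝ, 0 < K ∧ ∀ (D : ℝ) (z : ℕ), D₀ ≤ D →
    Real.log z ≤ 0.51 * Real.log D → ∀ X : ℝ, 0 < X → X ≤ D →
      ∑ s ∈ (okS 3 1 D z.primesBelow).filter (fun s => s.card % 2 = 1 ∧ X ≤ (pr s : ℝ) ∧
        (pr s : ℝ) < 2 * X ∧ D ≤ (pr s : ℝ) * (lo s : ℝ) ^ 3), 1 / (pr s : ℝ) ≤
        K * (Real.log (D / X) + 1) / Real.log D ^ 2 := by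
  obtain ⟨K, D₀, hK, h⟩ := Bw_odd_le
  obtain ⟨K₁, D₁, hK₁, h₁⟩ := Bw_le
  refine ⟨4 * K + 4 * K₁, max D₀ D₁, by positivity, fun D z hD hz X hX hXD => ?_⟩
  have hD0 := (le_max_left _ _).trans hD
  have hD1 := (le_max_right _ _).trans hD
  have hu : 0 ≤ Real.log (D / X) := Real.log_nonneg ((one_le_div hX).2 hXD)
  have hDX : 0 < D / X := div_pos (by linarith) hX
  set p := Real.exp ((Real.log (D / X) - Real.log 2) / 3) with hp
  have hp3 : X * p ^ 3 = D / 2 := by
    rw [hp, ← Real.exp_nat_mul, show ((3 : ℕ) : ℝ) * ((Real.log (D / X) - Real.log 2) / 3) =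
      Real.log (D / X) - Real.log 2 by push_cast; ring, Real.exp_sub, Real.exp_log hDX,
      Real.exp_log (by norm_num)]
    field_simp
  refine le_trans (b := Bw D z 1 p X) ?_ ?_
  · rw [Bw_eq]
    refine sum_le_sum_of_subset_of_nonneg (fun s hs => ?_) fun _ _ _ => by positivity
    obtain ⟨a1, a2, a3, a4, a5⟩ := mem_filter.1 hs
    obtain ⟨a6, a7⟩ := mem_okS.1 a1
    refine mem_BS.2 ⟨fun q hq => ⟨a6 hq, ?_⟩, a7, a2, a3, a4⟩
    have b1 : (lo s : ℝ) ≤ q := by exact_mod_cast lo_le hq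
    have b2 : (0 : ℝ) < q := by exact_mod_cast (Nat.prime_of_mem_primesBelow (a6 hq)).pos
    have b3 : (pr s : ℝ) * (lo s : ℝ) ^ 3 ≤ pr s * (q : ℝ) ^ 3 := by gcongr
    have b4 : (pr s : ℝ) * (q : ℝ) ^ 3 < 2 * X * (q : ℝ) ^ 3 := by gcongr
    refine lt_of_pow_lt_pow_left₀ 3 b2.le (lt_of_mul_lt_mul_left ?_ hX.le)
    linarith
  · have h2 := Real.log_two_gt_d9
    have h2' := Real.log_two_lt_d9
    rcases le_or_gt (4 * Real.log 2) (Real.log (D / X)) with hc | hc
    · have a1 : Real.log p = (Real.log (D / X) - Real.log 2) / 3 := Real.log_exp _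
      have a2 : 2 ≤ p := by
        rw [hp, ← Real.log_le_iff_le_exp (by norm_num)]
        linarith
      refine (h D z hD0 hz p X a2 hX (by linarith)).trans ?_
      rw [← div_div]
      refine div_le_div_of_nonneg_right ?_ (by positivity)
      rw [div_le_iff₀ (by linarith), a1]
      have a3 : Real.log (D / X) ^ 2 ≤
          4 * (Real.log (D / X) + 1) * ((Real.log (D / X) - Real.log 2) / 3) := by nlinarith
      have a4 := mul_le_mul_of_nonneg_left a3 hK.le
      have a5 : 0 ≤ K₁ * ((Real.log (D / X) + 1) * ((Real.log (D / X) - Real.log 2) / 3)) :=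
        mul_nonneg hK₁.le (mul_nonneg (by linarith) (by linarith))
      linarith
    · refine (h₁ D z hD1 hz 1 p X hX hXD).trans (div_le_div_of_nonneg_right ?_ (by positivity))
      have a3 : (Real.log (D / X) + 1) ^ 2 ≤ 4 * (Real.log (D / X) + 1) := by nlinarith
      have a4 := mul_le_mul_of_nonneg_left a3 hK₁.le
      have a5 : 0 ≤ K * (Real.log (D / X) + 1) := by positivity
      linarith

theorem okS_pr {D : ℝ} {z : ℕ} (hD : 1 ≤ D) (hz : Real.log z ≤ 0.51 * Real.log D) :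
    ∀ s ∈ okS 3 1 D z.primesBelow, 0 < pr s ∧ (pr s : ℝ) ≤ D := fun s hs => by
  obtain ⟨h1, h2⟩ := mem_okS.1 hs
  exact ⟨pr_pos fun q hq => Nat.prime_of_mem_primesBelow (h1 hq),
    ok_pr_le (cube_le_sq hD hz) hD h1 h2⟩

open Classical in
theorem okS_class : ∃ K D₀ : ℝ, 0 < K ∧ ∀ (D : ℝ) (z : ℕ), D₀ ≤ D →
    Real.log z ≤ 0.51 * Real.log D → ∀ j : ℕ,
      ∑ s ∈ (okS 3 1 D z.primesBelow).filter
        (fun s => D / 2 ^ j ≤ pr s ∧ (pr s : ℝ) < 2 * (D / 2 ^ j)), 1 / (pr s : ℝ) ≤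
        K * ((j : ℝ) + 1) ^ 2 / Real.log D ^ 2 := by
  obtain ⟨K, D₀, hK, h⟩ := Bw_le
  refine ⟨2 * K, max D₀ 1, by positivity, fun D z hD hz j => ?_⟩
  have hD0 := (le_max_left _ _).trans hD
  have hD1 := (le_max_right _ _).trans hD
  have a1 : D / 2 ^ j ≤ D := div_le_self (by linarith) (one_le_pow₀ one_le_two)
  have a2 : 0 < D / 2 ^ j := by positivity
  refine (sum_le_Bw (D := D) (z := z) (p := 0) (X := D / 2 ^ j) fun s hs => ?_).trans ?_
  · obtain ⟨b1, b2⟩ := mem_filter.1 hs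
    obtain ⟨b3, b4⟩ := mem_okS.1 b1
    exact ⟨fun q hq => ⟨b3 hq, by exact_mod_cast (Nat.prime_of_mem_primesBelow (b3 hq)).pos⟩,
      b4, b2⟩
  · refine (add_le_add (h D z hD0 hz 0 0 _ a2 a1) (h D z hD0 hz 1 0 _ a2 a1)).trans ?_
    rw [← add_div, ← add_mul, ← two_mul, log_div_pow (by linarith)]
    have h2 := Real.log_two_gt_d9
    have h2' := Real.log_two_lt_d9
    have a3 : (j : ℝ) * Real.log 2 ≤ j := mul_le_of_le_one_right (Nat.cast_nonneg j) (by linarith)
    gcongr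

theorem okS_card_le : ∃ K D₀ : ℝ, 0 < K ∧ ∀ (D : ℝ) (z : ℕ), D₀ ≤ D →
    Real.log z ≤ 0.51 * Real.log D →
      ((okS 3 1 D z.primesBelow).card : ℝ) ≤ K * D / Real.log D ^ 2 := by
  obtain ⟨K, D₀, hK, h⟩ := okS_class
  refine ⟨24 * K, max D₀ 1, by positivity, fun D z hD hz => ?_⟩
  have hD0 := (le_max_left _ _).trans hD
  have hD1 := (le_max_right _ _).trans hD
  rw [card_eq_sum_ones]
  push_cast
  refine dyadic (okS_pr hD1 hz) (fun _ _ => zero_le_one)
    (G := fun j => 2 * K * D / Real.log D ^ 2 * (((j : ℝ) + 1) ^ 2 / 2 ^ j)) (fun j => ?_) fun J => ?_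
  · refine (sum_le_sum (g := fun s => 2 * (D / 2 ^ j) * (1 / (pr s : ℝ))) fun s hs => ?_).trans ?_
    · obtain ⟨a1, -, a2⟩ := mem_filter.1 hs
      have a3 : (0 : ℝ) < pr s := by exact_mod_cast (okS_pr hD1 hz s a1).1
      rw [mul_one_div, one_le_div a3]
      exact a2.le
    · rw [← mul_sum]
      exact (mul_le_mul_of_nonneg_left (h D z hD0 hz j) (by positivity)).trans (le_of_eq (by ring))
  · rw [← mul_sum]
    exact (mul_le_mul_of_nonneg_left (sum_sq_div_pow J) (by positivity)).trans (le_of_eq (by ring))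

theorem okS_err_le : ∃ K D₀ : ℝ, 0 < K ∧ ∀ (D : ℝ) (z : ℕ), D₀ ≤ D →
    Real.log z ≤ 0.51 * Real.log D →
      ∑ s ∈ okS 3 1 D z.primesBelow, 1 / (pr s * (1 + Real.log (D / pr s)) ^ 4) ≤
        K / Real.log D ^ 2 := by
  obtain ⟨K, D₀, hK, h⟩ := okS_class
  refine ⟨162 * K, max D₀ 1, by positivity, fun D z hD hz => ?_⟩
  have hD0 := (le_max_left _ _).trans hD
  have hD1 := (le_max_right _ _).trans hD
  refine dyadic (okS_pr hD1 hz) (fun _ _ => by positivity)
    (G := fun j => 81 * K / Real.log D ^ 2 * (1 / ((j : ℝ) + 1) ^ 2)) (fun j => ?_) fun J => ?_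
  · refine (sum_le_sum (g := fun s => 81 / ((j : ℝ) + 1) ^ 4 * (1 / (pr s : ℝ)))
      fun s hs => ?_).trans ?_
    · obtain ⟨a1, -, a2⟩ := mem_filter.1 hs
      obtain ⟨a4, a5⟩ := okS_pr hD1 hz s a1
      have a3 : (0 : ℝ) < pr s := by exact_mod_cast a4
      have a6 : 0 ≤ Real.log (D / pr s) := Real.log_nonneg ((one_le_div a3).2 a5)
      have a7 : (2 : ℝ) ^ j ≤ 2 * (D / pr s) := by
        rw [← mul_div_assoc, lt_div_iff₀ (by positivity)] at a2
        rw [← mul_div_assoc, le_div_iff₀ a3]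
        linarith
      have a8 := Real.log_le_log (by positivity) a7
      rw [Real.log_pow, Real.log_mul (by norm_num) (by positivity)] at a8
      have h2 := Real.log_two_gt_d9
      have h2' := Real.log_two_lt_d9
      have a9 : ((j : ℝ) + 1) ≤ 3 * (1 + Real.log (D / pr s)) := by
        have : (0 : ℝ) ≤ j := Nat.cast_nonneg j
        nlinarith
      have a10 := pow_le_pow_left₀ (by positivity) a9 4
      rw [div_mul_div_comm, div_le_div_iff₀ (by positivity) (by positivity)]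
      have a11 := mul_le_mul_of_nonneg_right a10 a3.le
      linarith
    · rw [← mul_sum]
      refine (mul_le_mul_of_nonneg_left (h D z hD0 hz j) (by positivity)).trans (le_of_eq ?_)
      field_simp
  · rw [← mul_sum]
    exact (mul_le_mul_of_nonneg_left (sum_inv_sq J) (by positivity)).trans (le_of_eq (by ring))

theorem leaf_class : ∃ K D₀ : ℝ, 0 < K ∧ ∀ (D : ℝ) (z : ℕ), D₀ ≤ D →
    Real.log z ≤ 0.51 * Real.log D → ∀ (j : ℕ) (S : Finset (Finset ℕ)),
      (∀ s ∈ S, s ⊆ z.primesBelow ∧ Leaf 3 1 D s ∧ s.card ≠ 2 ∧ D / 2 ^ j ≤ pr s ∧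
        (pr s : ℝ) < 2 * (D / 2 ^ j)) →
      ∑ s ∈ S, 1 / (pr s : ℝ) ≤ K * ((j : ℝ) + 1) ^ 2 / Real.log D ^ 2 := by
  obtain ⟨K, D₀, hK, h⟩ := Bw_odd_le
  obtain ⟨C, hC, hs⟩ := sum_inv_log
  obtain ⟨C₁, hC₁, hs₁⟩ := sum_inv_short
  refine ⟨144 * K * (1 + C₁) ^ 2 * C, max D₀ 1, by positivity, fun D z hD hz j S hS => ?_⟩
  have hD0 := (le_max_left _ _).trans hD
  have hD1 := (le_max_right _ _).trans hD
  refine (leaf_decomp (by linarith) j hS).trans ?_
  have h2 := Real.log_two_gt_d9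
  have h2' := Real.log_two_lt_d9
  have hj : (0 : ℝ) ≤ j := Nat.cast_nonneg j
  have key : ∀ p ∈ z.primesBelow.filter (fun p : ℕ => (2 : ℝ) ^ j ≤ 2 * (p : ℝ) ^ 2),
      ∑ x ∈ (PI p (2 ^ j * p) ×ˢ PI p (2 ^ j * p)).filter
        (fun x => x.1 < x.2 ∧ D / 2 ^ j * (x.2 : ℝ) ^ 2 ≤ D * (p * x.1)),
        Bw D z 1 x.2 (D / 2 ^ j / (p * x.1 * x.2)) / (p * x.1 * x.2) ≤
      144 * K * (1 + C₁) ^ 2 * ((j : ℝ) + 1) ^ 2 / Real.log D ^ 2 * (1 / (p * Real.log p)) := by
    intro p hp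
    obtain ⟨a1, a2⟩ := mem_filter.1 hp
    have a3 : (2 : ℝ) ≤ p := by exact_mod_cast (Nat.prime_of_mem_primesBelow a1).two_le
    have a4 : Real.log 2 ≤ Real.log p := Real.log_le_log (by norm_num) a3
    have a5 : (j : ℝ) * Real.log 2 ≤ 3 * Real.log p := by
      have := Real.log_le_log (by positivity) a2
      rw [Real.log_pow, Real.log_mul (by norm_num) (by positivity), Real.log_pow] at this
      push_cast at this
      linarith
    have a6 : Real.log (2 ^ j * p) = j * Real.log 2 + Real.log p := by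
      rw [Real.log_mul (by positivity) (by positivity), Real.log_pow]
    have a7 := hs₁ p (2 ^ j * p) a3 (le_mul_of_one_le_left (by linarith) (one_le_pow₀ one_le_two))
    rw [a6, add_sub_cancel_right] at a7
    have a8 : (j : ℝ) * Real.log 2 + C₁ ≤ (1 + C₁) * (j + 1) := by nlinarith
    have a9 : 0 < Real.log p := by linarith
    refine le_trans (sum_le_sum (g := fun x => 144 * K * Real.log p / Real.log D ^ 2 / p *
      (1 / (x.1 : ℝ) * (1 / (x.2 : ℝ)))) fun x hx => ?_) ?_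
    · obtain ⟨b1, b2, b3⟩ := mem_filter.1 hx
      obtain ⟨b4, b5⟩ := mem_product.1 b1
      obtain ⟨-, b6, -⟩ := (mem_PI (by linarith)).1 b4
      obtain ⟨-, b7, b8⟩ := (mem_PI (by linarith)).1 b5
      have b9 : (x.1 : ℝ) < x.2 := by exact_mod_cast b2
      have c1 : (0 : ℝ) < x.1 := by linarith
      have c2 : (0 : ℝ) < x.2 := by linarith
      have c3 := h D z hD0 hz x.2 (D / 2 ^ j / (p * x.1 * x.2)) (by linarith) (by positivity) (by
        rw [div_mul_eq_mul_div, div_le_iff₀ (by positivity)]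
        have := mul_le_mul_of_nonneg_right b3 c2.le
        linarith)
      have c4 : Real.log (D / (D / 2 ^ j / (p * x.1 * x.2))) =
          j * Real.log 2 + Real.log p + Real.log x.1 + Real.log x.2 := by
        rw [show D / (D / 2 ^ j / (p * x.1 * x.2)) = 2 ^ j * p * x.1 * x.2 by field_simp,
          Real.log_mul (by positivity) c2.ne', Real.log_mul (by positivity) c1.ne', a6]
      have c5 : Real.log p ≤ Real.log x.1 := Real.log_le_log (by linarith) b6.le
      have c6 : Real.log x.1 ≤ Real.log x.2 := Real.log_le_log c1 b9.le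
      have c7 : Real.log x.2 ≤ 4 * Real.log p := by
        have := Real.log_le_log c2 b8
        linarith
      have c8 : K * Real.log (D / (D / 2 ^ j / (p * x.1 * x.2))) ^ 2 /
          (Real.log x.2 * Real.log D ^ 2) ≤ 144 * K * Real.log p / Real.log D ^ 2 := by
        rw [← div_div]
        refine div_le_div_of_nonneg_right ?_ (by positivity)
        rw [div_le_iff₀ (by linarith), c4]
        have d1 : (j * Real.log 2 + Real.log p + Real.log x.1 + Real.log x.2) ^ 2 ≤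
            (6 * Real.log x.2) ^ 2 := pow_le_pow_left₀ (by nlinarith) (by linarith) 2
        have d2 : (6 * Real.log x.2) ^ 2 ≤ 144 * Real.log p * Real.log x.2 := by nlinarith
        have d3 := mul_le_mul_of_nonneg_left (d1.trans d2) hK.le
        linarith
      refine (div_le_div_of_nonneg_right (c3.trans c8) (by positivity)).trans (le_of_eq ?_)
      field_simp
    · rw [← mul_sum]
      have b1 : ∑ x ∈ (PI p (2 ^ j * p) ×ˢ PI p (2 ^ j * p)).filter
          (fun x => x.1 < x.2 ∧ D / 2 ^ j * (x.2 : ℝ) ^ 2 ≤ D * (p * x.1)),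
          1 / (x.1 : ℝ) * (1 / (x.2 : ℝ)) ≤ ((1 + C₁) * (j + 1) / Real.log p) ^ 2 := by
        refine (sum_le_sum_of_subset_of_nonneg (filter_subset _ _)
          fun _ _ _ => by positivity).trans ?_
        rw [sum_product' (f := fun a b : ℕ => 1 / (a : ℝ) * (1 / (b : ℝ))), ← sum_mul_sum, ← sq]
        exact pow_le_pow_left₀ (sum_nonneg fun _ _ => by positivity)
          (a7.trans (div_le_div_of_nonneg_right a8 a9.le)) 2
      refine (mul_le_mul_of_nonneg_left b1 (by positivity)).trans (le_of_eq ?_)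
      field_simp
  refine (sum_le_sum key).trans ?_
  rw [← mul_sum]
  refine (mul_le_mul_of_nonneg_left ((sum_le_sum_of_subset_of_nonneg (filter_subset _ _)
    fun q _ _ => ?_).trans (hs z)) (by positivity)).trans (le_of_eq (by ring))
  have := Real.log_natCast_nonneg q
  positivity

theorem leaf_count : ∃ K D₀ : ℝ, 0 < K ∧ ∀ (D : ℝ) (z : ℕ), D₀ ≤ D →
    Real.log z ≤ 0.51 * Real.log D →
      (((leafS 3 1 D z.primesBelow).filter fun s => (pr s : ℝ) ≤ D).card : ℝ) ≤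
        K * D * (1 + max 0 (Real.log ((z : ℝ) ^ 2 / D))) / Real.log D ^ 2 := by
  obtain ⟨K, D₀, hK, h⟩ := leaf_class
  obtain ⟨K₁, D₁, hK₁, h₁⟩ := leaf_two
  refine ⟨K₁ + 24 * K, max (max D₀ D₁) 1, by positivity, fun D z hD hz => ?_⟩
  have hD0 := (le_max_left _ _).trans ((le_max_left _ _).trans hD)
  have hD1 := (le_max_right _ _).trans ((le_max_left _ _).trans hD)
  have hD2 := (le_max_right _ _).trans hD
  have hm : 0 ≤ max 0 (Real.log ((z : ℝ) ^ 2 / D)) := le_max_left _ _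
  rw [← card_filter_add_card_filter_not fun s => s.card = 2]
  push_cast
  rw [add_mul, add_mul, add_div]
  refine add_le_add (h₁ D z hD1 hz _ fun s hs => ?_) ?_
  · obtain ⟨a1, a2⟩ := mem_filter.1 hs
    obtain ⟨a3, a4⟩ := mem_filter.1 a1
    exact ⟨(mem_leafS.1 a3).1, a2, a4⟩
  have hpos : ∀ s ∈ ((leafS 3 1 D z.primesBelow).filter fun s => (pr s : ℝ) ≤ D).filter
      fun s => ¬ s.card = 2, 0 < pr s ∧ (pr s : ℝ) ≤ D := fun s hs => by
    obtain ⟨a3, a4⟩ := mem_filter.1 (mem_filter.1 hs).1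
    exact ⟨pr_pos fun q hq => Nat.prime_of_mem_primesBelow ((mem_leafS.1 a3).1 hq), a4⟩
  refine le_trans (b := 24 * K * D / Real.log D ^ 2) ?_ (div_le_div_of_nonneg_right
    (le_mul_of_one_le_right (by positivity) (by linarith)) (by positivity))
  rw [card_eq_sum_ones]
  push_cast
  refine dyadic hpos (fun _ _ => zero_le_one)
    (G := fun j => 2 * K * D / Real.log D ^ 2 * (((j : ℝ) + 1) ^ 2 / 2 ^ j)) (fun j => ?_) fun J => ?_
  · refine (sum_le_sum (g := fun s => 2 * (D / 2 ^ j) * (1 / (pr s : ℝ))) fun s hs => ?_).trans ?_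
    · obtain ⟨a1, -, a2⟩ := mem_filter.1 hs
      have a3 : (0 : ℝ) < pr s := by exact_mod_cast (hpos s a1).1
      rw [mul_one_div, one_le_div a3]
      exact a2.le
    · rw [← mul_sum]
      refine (mul_le_mul_of_nonneg_left (h D z hD0 hz j _ fun s hs => ?_) (by positivity)).trans
        (le_of_eq (by ring))
      obtain ⟨a1, a2⟩ := mem_filter.1 hs
      obtain ⟨a3, a4⟩ := mem_filter.1 a1
      obtain ⟨a5, a6⟩ := mem_leafS.1 (mem_filter.1 a3).1
      exact ⟨a5, a6, a4, a2⟩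
  · rw [← mul_sum]
    exact (mul_le_mul_of_nonneg_left (sum_sq_div_pow J) (by positivity)).trans (le_of_eq (by ring))

end Vale.Agent.P013
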