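import Vale.Agent.P013.Super

/-! Auxiliary lemmas for the consequences of the supersolution. -/

open Finset

namespace Vale.Agent.P013

theorem sum_le_of_surj {α β : Type*} {S : Finset α} {T : Finset β} (g : β → α) {F : α → ℝ}
    {w : β → ℝ} (h : ∀ s ∈ S, ∃ x ∈ T, g x = s ∧ F s ≤ w x) (hw : ∀ x ∈ T, 0 ≤ w x) :
    ∑ s ∈ S, F s ≤ ∑ x ∈ T, w x := by
  classical
  choose e h1 h2 h3 using h
  rw [← sum_attach S]
  refine (sum_le_sum fun s _ => h3 s.1 s.2).trans ?_
  rw [← sum_image (s := S.attach) (g := fun s => e s.1 s.2) (f := w) fun s _ t _ hst =>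
    Subtype.ext (by rw [← h2 s.1 s.2, ← h2 t.1 t.2]; exact congrArg g hst)]
  exact sum_le_sum_of_subset_of_nonneg (image_subset_iff.2 fun s _ => h1 s.1 s.2)
    fun x hx _ => hw x hx

open Classical in
/-- The sets counted by `Bw`. -/
noncomputable def BS (D : ℝ) (z par : ℕ) (p X : ℝ) : Finset (Finset ℕ) :=
  (okS 3 1 D (z.primesBelow.filter fun q : ℕ => p < q)).filter
    (fun s => s.card % 2 = par ∧ X ≤ (pr s : ℝ) ∧ (pr s : ℝ) < 2 * X)

theorem Bw_eq (D : ℝ) (z par : ℕ) (p X : ℝ) :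
    Bw D z par p X = ∑ s ∈ BS D z par p X, 1 / (pr s : ℝ) := rfl

theorem mem_BS {D : ℝ} {z par : ℕ} {p X : ℝ} {s : Finset ℕ} : s ∈ BS D z par p X ↔
    (∀ q ∈ s, q ∈ z.primesBelow ∧ p < q) ∧ Ok 3 1 D s ∧ s.card % 2 = par ∧ X ≤ (pr s : ℝ) ∧
      (pr s : ℝ) < 2 * X := by
  simp only [BS, mem_filter, mem_okS, subset_iff, and_assoc]

theorem sum_le_Bw {D : ℝ} {z : ℕ} {p X : ℝ} {S : Finset (Finset ℕ)}
    (h : ∀ s ∈ S, (∀ q ∈ s, q ∈ z.primesBelow ∧ p < q) ∧ Ok 3 1 D s ∧ X ≤ (pr s : ℝ) ∧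
      (pr s : ℝ) < 2 * X) : ∑ s ∈ S, 1 / (pr s : ℝ) ≤ Bw D z 0 p X + Bw D z 1 p X := by
  rw [← sum_filter_add_sum_filter_not S fun s => s.card % 2 = 0, Bw_eq, Bw_eq]
  refine add_le_add (sum_le_sum_of_subset_of_nonneg (fun s hs => ?_) fun _ _ _ => by positivity)
    (sum_le_sum_of_subset_of_nonneg (fun s hs => ?_) fun _ _ _ => by positivity)
  · obtain ⟨h1, h2⟩ := mem_filter.1 hs
    obtain ⟨a1, a2, a3⟩ := h s h1
    exact mem_BS.2 ⟨a1, a2, h2, a3⟩
  · obtain ⟨h1, h2⟩ := mem_filter.1 hs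
    obtain ⟨a1, a2, a3⟩ := h s h1
    exact mem_BS.2 ⟨a1, a2, by omega, a3⟩

open Classical in
theorem dyadic {S : Finset (Finset ℕ)} {D : ℝ} (hS : ∀ s ∈ S, 0 < pr s ∧ (pr s : ℝ) ≤ D)
    {F : Finset ℕ → ℝ} (hF : ∀ s ∈ S, 0 ≤ F s) {G : ℕ → ℝ} {B : ℝ}
    (hG : ∀ j : ℕ, ∑ s ∈ S.filter (fun s => D / 2 ^ j ≤ pr s ∧ (pr s : ℝ) < 2 * (D / 2 ^ j)),
      F s ≤ G j) (hB : ∀ J, ∑ j ∈ range J, G j ≤ B) : ∑ s ∈ S, F s ≤ B := by
  have h1 : ∀ s ∈ S, ∃ j : ℕ, D / 2 ^ j ≤ pr s ∧ (pr s : ℝ) < 2 * (D / 2 ^ j) := fun s hs => by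
    obtain ⟨a1, a2⟩ := hS s hs
    have a3 : (0 : ℝ) < pr s := by exact_mod_cast a1
    have a4 : ∃ j : ℕ, D / 2 ^ j ≤ pr s := by
      obtain ⟨j, hj⟩ := pow_unbounded_of_one_lt (D / pr s) (one_lt_two (α := ℝ))
      refine ⟨j, ?_⟩
      rw [div_lt_iff₀ a3] at hj
      rw [div_le_iff₀ (by positivity)]
      linarith
    refine ⟨Nat.find a4, Nat.find_spec a4, ?_⟩
    rcases h : Nat.find a4 with _ | j
    · simp only [pow_zero, div_one]
      linarith
    · have a5 := Nat.find_min a4 (m := j) (by omega)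
      rw [not_le] at a5
      refine a5.trans_le (le_of_eq ?_)
      rw [pow_succ]
      field_simp
  choose! j hj using h1
  refine le_trans ?_ (hB (S.sup j + 1))
  rw [← sum_fiberwise_of_maps_to (g := j) (t := range (S.sup j + 1))
    fun s hs => mem_range.2 (Nat.lt_succ_of_le (le_sup hs))]
  refine sum_le_sum fun i _ => le_trans (sum_le_sum_of_subset_of_nonneg (fun s hs => ?_)
    fun s hs _ => hF s (mem_filter.1 hs).1) (hG i)
  obtain ⟨a1, rfl⟩ := mem_filter.1 hs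
  exact mem_filter.2 ⟨a1, hj s a1⟩

theorem sum_sq_div_pow (J : ℕ) : ∑ j ∈ range J, ((j : ℝ) + 1) ^ 2 / 2 ^ j ≤ 12 := by
  have h : ∑ j ∈ range J, ((j : ℝ) + 1) ^ 2 / 2 ^ j =
      12 - (2 * (J : ℝ) ^ 2 + 8 * J + 12) / 2 ^ J := by
    induction J with
    | zero => simp
    | succ J ih =>
      rw [sum_range_succ, ih]
      push_cast
      field_simp
      ring
  rw [h]
  exact sub_le_self _ (by positivity)

theorem sum_inv_sq (J : ℕ) : ∑ j ∈ range J, 1 / ((j : ℝ) + 1) ^ 2 ≤ 2 := by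
  have h : ∑ j ∈ range J, 1 / ((j : ℝ) + 1) ^ 2 ≤ 2 - 2 / ((J : ℝ) + 1) := by
    induction J with
    | zero => simp
    | succ J ih =>
      rw [sum_range_succ]
      push_cast
      have : 1 / ((J : ℝ) + 1) ^ 2 ≤ 2 / ((J : ℝ) + 1) - 2 / ((J : ℝ) + 1 + 1) := by
        rw [div_sub_div _ _ (by positivity) (by positivity), div_le_div_iff₀ (by positivity)
          (by positivity)]
        have : (0 : ℝ) ≤ J := Nat.cast_nonneg J
        nlinarith
      linarith
  exact h.trans (sub_le_self _ (by positivity))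

theorem sum_inv_log : ∃ C : ℝ, 0 < C ∧ ∀ z : ℕ,
    ∑ q ∈ z.primesBelow, 1 / (q * Real.log q) ≤ C := by
  obtain ⟨C, hC, h⟩ := mertensk (k := 1) le_rfl
  have h0 : 0 < Real.log (3 / 2) := Real.log_pos (by norm_num)
  refine ⟨1 / Real.log (3 / 2) + C / Real.log (3 / 2) ^ 2, by positivity, fun z => ?_⟩
  have hz : (0 : ℝ) ≤ z := Nat.cast_nonneg z
  have h1 := (abs_le.1 (h (3 / 2) (z + 2) le_rfl (by linarith))).2
  have h2 : 0 < Real.log (z + 2) := Real.log_pos (by linarith)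
  simp only [pow_one, Nat.cast_one, div_one] at h1
  have h3 : ∑ q ∈ z.primesBelow, 1 / (q * Real.log q) ≤
      ∑ q ∈ PI (3 / 2) (z + 2), 1 / (q * Real.log q) := by
    refine sum_le_sum_of_subset_of_nonneg (fun q hq => ?_) fun q _ _ => ?_
    · obtain ⟨a1, a2⟩ := Nat.mem_primesBelow.1 hq
      have a3 : (2 : ℝ) ≤ q := by exact_mod_cast a2.two_le
      have a4 : (q : ℝ) < z := by exact_mod_cast a1
      exact (mem_PI (by norm_num)).2 ⟨a2, by linarith, by linarith⟩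
    · have := Real.log_natCast_nonneg q
      positivity
  have h4 : 0 < 1 / Real.log (z + 2) := by positivity
  rw [show 1 + 1 = 2 from rfl] at h1
  linarith

theorem sum_inv_short : ∃ C : ℝ, 0 < C ∧ ∀ x x' : ℝ, 2 ≤ x → x ≤ x' →
    ∑ q ∈ PI x x', 1 / (q : ℝ) ≤ (Real.log x' - Real.log x + C) / Real.log x := by
  obtain ⟨C, hC, h⟩ := mertens0
  refine ⟨C, hC, fun x x' hx hx' => ?_⟩
  have h1 := (abs_le.1 (h x x' (by linarith) hx')).2
  have h2 : 0 < Real.log x := Real.log_pos (by linarith)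
  have h3 : 0 < Real.log x' := Real.log_pos (by linarith)
  have h4 := Real.log_le_sub_one_of_pos (div_pos h3 h2)
  rw [Real.log_div h3.ne' h2.ne'] at h4
  have h5 : (Real.log x' - Real.log x + C) / Real.log x =
      Real.log x' / Real.log x - 1 + C / Real.log x := by field_simp
  linarith

theorem le_exp_of_log {z : ℕ} {a : ℝ} (h : Real.log z ≤ a) : (z : ℝ) ≤ Real.exp a := by
  rcases Nat.eq_zero_or_pos z with rfl | hz
  · simpa using (Real.exp_pos a).le
  · exact (Real.log_le_iff_le_exp (by exact_mod_cast hz)).1 h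

theorem cube_le_sq {z : ℕ} {D : ℝ} (hD : 1 ≤ D) (h : Real.log z ≤ 0.51 * Real.log D) :
    (z : ℝ) ^ 3 ≤ D ^ 2 := by
  have h1 := Real.log_nonneg hD
  refine (pow_le_pow_left₀ (Nat.cast_nonneg z) (le_exp_of_log h) 3).trans ?_
  rw [← Real.exp_nat_mul]
  conv_rhs => rw [← Real.exp_log (by linarith : 0 < D), ← Real.exp_nat_mul]
  refine Real.exp_le_exp.2 ?_
  push_cast
  linarith

theorem log_div_pow {D : ℝ} (hD : 0 < D) (j : ℕ) : Real.log (D / (D / 2 ^ j)) = j * Real.log 2 := by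
  rw [div_div_cancel₀ hD.ne', Real.log_pow]

theorem Bw_N_odd {K D₀ : ℝ} {N₀ : ℕ} (hK : 0 < K) (hN : 2 ≤ N₀)
    (h : ∀ (D : ℝ) (z : ℕ), D₀ ≤ D → Real.log z ≤ 0.51 * Real.log D → ∀ p X : ℝ, N₀ ≤ p → 0 < X →
      X * p ^ 3 ≤ D → Bw D z 1 p X ≤
        K * (Real.log (D / X) - Real.log p) ^ 2 / (Real.log p * Real.log D ^ 2)) :
    ∃ K₁ D₁ : ℝ, 0 < K₁ ∧ ∀ (D : ℝ) (z : ℕ), D₁ ≤ D → Real.log z ≤ 0.51 * Real.log D →
      ∀ X : ℝ, 0 < X → X ≤ D →
        Bw D z 1 N₀ X ≤ K₁ * (Real.log (D / X) + 1) ^ 2 / Real.log D ^ 2 := by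
  have hN' : (2 : ℝ) ≤ N₀ := by exact_mod_cast hN
  have h2 : 1 / 2 ≤ Real.log 2 := by linarith [Real.log_two_gt_d9]
  have hL : Real.log 2 ≤ Real.log N₀ := Real.log_le_log (by norm_num) hN'
  set L := Real.log N₀ with hLdef
  refine ⟨2 * K + (N₀ ^ 3 : ℕ) * ((N₀ ^ 3 : ℕ) * (K * (6 * L) ^ 2 * 2)),
    max D₀ (Real.exp (7 * L)), by positivity, fun D z hD hz X hX hXD => ?_⟩
  have hD0 := (le_max_left _ _).trans hD
  have hD1 := (le_max_right _ _).trans hD
  have hDp : 0 < D := (Real.exp_pos _).trans_le hD1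
  have hl : 7 * L ≤ Real.log D := (Real.le_log_iff_exp_le hDp).2 hD1
  have hu : 0 ≤ Real.log (D / X) := Real.log_nonneg ((one_le_div hX).2 hXD)
  have hl2 : 0 < Real.log D ^ 2 := pow_pos (by linarith) 2
  have hu1 : 1 ≤ (Real.log (D / X) + 1) ^ 2 := one_le_pow₀ (by linarith)
  rcases le_or_gt (X * (N₀ : ℝ) ^ 3) D with hc | hc
  · refine (h D z hD0 hz N₀ X le_rfl hX hc).trans ?_
    have a1 : 3 * L ≤ Real.log (D / X) := by
      have := Real.log_le_log (by positivity) ((le_div_iff₀' hX).2 hc)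
      rwa [Real.log_pow] at this
    rw [← div_div]
    refine div_le_div_of_nonneg_right ?_ hl2.le
    rw [div_le_iff₀ (by linarith)]
    have a2 : (Real.log (D / X) - L) ^ 2 ≤ (Real.log (D / X) + 1) ^ 2 :=
      pow_le_pow_left₀ (by linarith) (by linarith) 2
    have a3 : (0 : ℝ) ≤ (N₀ ^ 3 : ℕ) * ((N₀ ^ 3 : ℕ) * (K * (6 * L) ^ 2 * 2)) := by positivity
    have a4 := mul_le_mul_of_nonneg_left a2 hK.le
    have a5 : 0 ≤ K * (Real.log (D / X) + 1) ^ 2 := by positivity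
    have a6 := mul_nonneg (mul_nonneg a3 (zero_le_one.trans hu1)) (by linarith : 0 ≤ L)
    nlinarith
  · refine (Bw_odd_rec D z N₀ X).trans ?_
    have a0 : Real.log (D / X) ≤ 3 * L := by
      have := Real.log_le_log (by positivity) ((div_le_iff₀' hX).2 hc.le)
      rwa [Real.log_pow] at this
    have a1 : z.primesBelow.filter (fun q : ℕ => (N₀ : ℝ) < q ∧ X ≤ q ∧ (q : ℝ) < 2 * X) = ∅ := by
      refine filter_eq_empty_iff.2 fun q hq hq' => ?_
      have b1 : (q : ℝ) < z := by exact_mod_cast Nat.lt_of_mem_primesBelow hq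
      have b2 := Real.log_le_log hX (hq'.2.1.trans b1.le)
      rw [Real.log_div hDp.ne' hX.ne'] at a0
      linarith
    rw [a1, sum_empty, zero_add]
    have hB : 0 ≤ K * (6 * L) ^ 2 * 2 / Real.log D ^ 2 := by positivity
    have a2 : ∀ q q₀ : ℕ, q < q₀ → X * (q₀ : ℝ) ^ 2 < D * q → q₀ < N₀ ^ 3 := fun q q₀ b1 b2 => by
      have b3 : (q : ℝ) < q₀ := by exact_mod_cast b1
      have b4 : (0 : ℝ) < q₀ := lt_of_le_of_lt (Nat.cast_nonneg q) b3
      have b5 : X * q₀ * q₀ < X * (N₀ : ℝ) ^ 3 * q₀ := by nlinarith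
      have b6 := lt_of_mul_lt_mul_left (lt_of_mul_lt_mul_right b5 b4.le) hX.le
      exact_mod_cast b6
    have a3 : ∀ q ∈ z.primesBelow.filter (fun q : ℕ => (N₀ : ℝ) < q ∧ (q : ℝ) ^ 3 < 2 * X),
        ∑ q₀ ∈ z.primesBelow.filter (fun q₀ : ℕ => q < q₀ ∧ X * (q₀ : ℝ) ^ 2 < D * q),
          Bw D z 1 q₀ (X / (q * q₀)) / (q * q₀) ≤
          if q < N₀ ^ 3 then (N₀ ^ 3 : ℕ) * (K * (6 * L) ^ 2 * 2 / Real.log D ^ 2) else 0 := by
      intro q hq
      have b0 := (mem_filter.1 hq).2.1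
      split_ifs with hq3
      · refine (sum_le_card_nsmul _ _ (K * (6 * L) ^ 2 * 2 / Real.log D ^ 2) fun q₀ hq₀ => ?_).trans ?_
        · obtain ⟨-, b1, b2⟩ := mem_filter.1 hq₀
          have b3 : (q : ℝ) < q₀ := by exact_mod_cast b1
          have b4 : (0 : ℝ) < q := by linarith
          have b5 : (0 : ℝ) < q₀ := by linarith
          have b6 := h D z hD0 hz q₀ (X / (q * q₀)) (by linarith) (by positivity) (by
            rw [div_mul_eq_mul_div, div_le_iff₀ (by positivity)]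
            nlinarith)
          have b7 : Real.log (D / (X / (q * q₀))) - Real.log q₀ = Real.log (D / X) + Real.log q := by
            rw [show D / (X / (q * q₀)) = D / X * q * q₀ by field_simp,
              Real.log_mul (by positivity) b5.ne', Real.log_mul (by positivity) b4.ne']
            ring
          have b8 : Real.log q ≤ 3 * L := by
            have := Real.log_le_log b4 (show (q : ℝ) ≤ (N₀ : ℝ) ^ 3 by exact_mod_cast hq3.le)
            rwa [Real.log_pow] at this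
          have b9 : Real.log 2 ≤ Real.log q₀ := Real.log_le_log (by norm_num) (by linarith)
          rw [b7] at b6
          refine (div_le_self (Bw_nonneg _ _ _ _ _) (by nlinarith)).trans (b6.trans ?_)
          rw [← div_div]
          refine div_le_div_of_nonneg_right ?_ hl2.le
          rw [div_le_iff₀ (by linarith)]
          have c1 : (Real.log (D / X) + Real.log q) ^ 2 ≤ (6 * L) ^ 2 :=
            pow_le_pow_left₀ (add_nonneg hu (Real.log_natCast_nonneg q)) (by linarith) 2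
          have c2 := mul_le_mul_of_nonneg_left c1 hK.le
          have c3 : 0 ≤ K * (6 * L) ^ 2 := by positivity
          nlinarith
        · rw [nsmul_eq_mul]
          refine mul_le_mul_of_nonneg_right (Nat.cast_le.2 ?_) hB
          refine (card_le_card fun q₀ hq₀ => ?_).trans (card_range _).le
          obtain ⟨-, b1, b2⟩ := mem_filter.1 hq₀
          exact mem_range.2 (a2 q q₀ b1 b2)
      · refine le_of_eq (sum_eq_zero fun q₀ hq₀ => ?_)
        obtain ⟨-, b1, b2⟩ := mem_filter.1 hq₀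
        exact absurd (b1.trans (a2 q q₀ b1 b2)) hq3
    refine (sum_le_sum a3).trans ?_
    rw [← sum_filter, sum_const, nsmul_eq_mul]
    refine le_trans (mul_le_mul_of_nonneg_right (Nat.cast_le.2 (?_ : _ ≤ N₀ ^ 3))
      (by positivity)) ?_
    · exact (card_le_card fun q hq => mem_range.2 (mem_filter.1 hq).2).trans (card_range _).le
    · rw [← mul_div_assoc, ← mul_div_assoc]
      refine div_le_div_of_nonneg_right ?_ hl2.le
      refine le_trans (le_add_of_nonneg_left (by positivity : 0 ≤ 2 * K)) ?_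
      exact le_mul_of_one_le_right (by positivity) hu1

theorem Bw_N_even {K D₀ : ℝ} {N₀ : ℕ} (hK : 0 < K) (hN : 2 ≤ N₀)
    (h : ∀ (D : ℝ) (z : ℕ), D₀ ≤ D → Real.log z ≤ 0.51 * Real.log D → ∀ p X : ℝ, N₀ ≤ p → 0 < X →
      X * p ^ 3 ≤ D → Bw D z 1 p X ≤
        K * (Real.log (D / X) - Real.log p) ^ 2 / (Real.log p * Real.log D ^ 2)) :
    ∃ K₁ D₁ : ℝ, 0 < K₁ ∧ ∀ (D : ℝ) (z : ℕ), D₁ ≤ D → Real.log z ≤ 0.51 * Real.log D →
      ∀ X : ℝ, 0 < X → X ≤ D →
        Bw D z 0 N₀ X ≤ K₁ * (Real.log (D / X) + 1) ^ 2 / Real.log D ^ 2 := by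
  obtain ⟨C, hC, hs⟩ := sum_inv_log
  refine ⟨1 + K * C, max D₀ 2, by positivity, fun D z hD hz X hX hXD => ?_⟩
  have hD0 := (le_max_left _ _).trans hD
  have hD1 := (le_max_right _ _).trans hD
  have hl : 0 < Real.log D := Real.log_pos (by linarith)
  have hu : 0 ≤ Real.log (D / X) := Real.log_nonneg ((one_le_div hX).2 hXD)
  refine (Bw_even_rec D z N₀ X).trans ?_
  rw [add_mul, add_div]
  refine add_le_add ?_ ?_
  · split_ifs with hc
    · rw [one_mul, one_le_div (by positivity)]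
      have := Real.log_le_log (by linarith) (le_div_self (by linarith : 0 ≤ D) hX hc.1)
      exact pow_le_pow_left₀ hl.le (by linarith) 2
    · positivity
  · have a1 : ∀ q ∈ z.primesBelow.filter (fun q : ℕ => (N₀ : ℝ) < q ∧ X * (q : ℝ) ^ 2 < D),
        Bw D z 1 q (X / q) / q ≤
          K * (Real.log (D / X) + 1) ^ 2 / Real.log D ^ 2 * (1 / (q * Real.log q)) := by
      intro q hq
      obtain ⟨b0, b1, b2⟩ := mem_filter.1 hq
      have b3 : (1 : ℝ) < q := by exact_mod_cast (Nat.prime_of_mem_primesBelow b0).one_lt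
      have b4 : 0 < Real.log q := Real.log_pos b3
      have b5 : (0 : ℝ) < q := by linarith
      have b6 := h D z hD0 hz q (X / q) b1.le (by positivity) (by
        rw [div_mul_eq_mul_div, div_le_iff₀ b5]
        nlinarith)
      have b7 : Real.log (D / (X / q)) - Real.log q = Real.log (D / X) := by
        rw [show D / (X / q) = D / X * q by field_simp,
          Real.log_mul (div_pos (by linarith) hX).ne' b5.ne']
        ring
      rw [b7] at b6
      refine (div_le_div_of_nonneg_right b6 b5.le).trans ?_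
      have b8 : K * Real.log (D / X) ^ 2 / (Real.log q * Real.log D ^ 2) / q =
          K * Real.log (D / X) ^ 2 / Real.log D ^ 2 * (1 / (q * Real.log q)) := by field_simp
      rw [b8]
      gcongr
      linarith
    refine (sum_le_sum a1).trans ?_
    rw [← mul_sum]
    refine (mul_le_mul_of_nonneg_left ((sum_le_sum_of_subset_of_nonneg (filter_subset _ _)
      fun q _ _ => ?_).trans (hs z)) (by positivity)).trans (le_of_eq (by ring))
    have := Real.log_natCast_nonneg q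
    positivity

end Vale.Agent.P013
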