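import Vale.Agent.P013.Super2X

/-! Counting the leaves: size two, and the decomposition of the larger ones. -/

open Finset

namespace Vale.Agent.P013

theorem card_pairs {D : ℝ} (hD : 0 < D) {z : ℕ} {S : Finset (Finset ℕ)}
    (hS : ∀ s ∈ S, s ⊆ z.primesBelow ∧ s.card = 2 ∧ (pr s : ℝ) ≤ D) :
    S.card ≤ (PI 0 √D).card ^ 2 + ∑ q ∈ PI √D z, (PI 0 (D / q)).card := by
  have h1 : S ⊆ ((PI 0 √D ×ˢ PI 0 √D) ∪
      (PI √D z).biUnion fun q => {q} ×ˢ PI 0 (D / q)).image fun x => {x.1, x.2} := by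
    intro s hs
    obtain ⟨a1, a2, a3⟩ := hS s hs
    have a4 : ∃ p q, p < q ∧ s = {q, p} := by
      obtain ⟨x, y, hxy, rfl⟩ := card_eq_two.1 a2
      rcases lt_or_gt_of_ne hxy with h | h
      · exact ⟨x, y, h, pair_comm _ _⟩
      · exact ⟨y, x, h, rfl⟩
    obtain ⟨p, q, hpq, rfl⟩ := a4
    obtain ⟨b1, b2⟩ := Nat.mem_primesBelow.1 (a1 (mem_insert_self _ _))
    obtain ⟨-, b3⟩ := Nat.mem_primesBelow.1 (a1 (mem_insert_of_mem (mem_singleton_self _)))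
    have b4 : (0 : ℝ) < p := by exact_mod_cast b3.pos
    have b5 : (p : ℝ) < q := by exact_mod_cast hpq
    rw [pr, prod_pair hpq.ne'] at a3
    push_cast at a3
    refine mem_image.2 ⟨(q, p), mem_union.2 ?_, rfl⟩
    rcases le_or_gt (q : ℝ) √D with h | h
    · exact Or.inl (mem_product.2 ⟨(mem_PI le_rfl).2 ⟨b2, by linarith, h⟩,
        (mem_PI le_rfl).2 ⟨b3, b4, by linarith⟩⟩)
    · refine Or.inr (mem_biUnion.2 ⟨q, (mem_PI (Real.sqrt_nonneg D)).2 ⟨b2, h, ?_⟩,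
        mem_product.2 ⟨mem_singleton_self _, (mem_PI le_rfl).2 ⟨b3, b4, ?_⟩⟩⟩)
      · exact_mod_cast b1.le
      · rwa [le_div_iff₀' (by linarith)]
  refine (card_le_card h1).trans (card_image_le.trans ((card_union_le _ _).trans ?_))
  rw [card_product, sq]
  refine Nat.add_le_add_left (card_biUnion_le.trans (le_of_eq ?_)) _
  simp

theorem leaf_two : ∃ K D₀ : ℝ, 0 < K ∧ ∀ (D : ℝ) (z : ℕ), D₀ ≤ D →
    Real.log z ≤ 0.51 * Real.log D → ∀ S : Finset (Finset ℕ),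
      (∀ s ∈ S, s ⊆ z.primesBelow ∧ s.card = 2 ∧ (pr s : ℝ) ≤ D) →
      (S.card : ℝ) ≤ K * D * (1 + max 0 (Real.log ((z : ℝ) ^ 2 / D))) / Real.log D ^ 2 := by
  obtain ⟨C, hC, h⟩ := card_PI_le
  obtain ⟨C₁, hC₁, h₁⟩ := sum_inv_short
  refine ⟨4 * C ^ 2 + 3 * C * (1 + 2 * C₁), Real.exp 2, by positivity,
    fun D z hD hz S hS => ?_⟩
  have hD0 : 0 < D := (Real.exp_pos _).trans_le hD
  have hl : 2 ≤ Real.log D := (Real.le_log_iff_exp_le hD0).2 hD
  have h2' := Real.log_two_lt_d9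
  have hs0 : 0 < √D := Real.sqrt_pos.2 hD0
  have hs1 : Real.log √D = Real.log D / 2 := Real.log_sqrt hD0.le
  have hs2 : 2 ≤ √D := (Real.log_le_log_iff (by norm_num) hs0).1 (by linarith)
  set m := max 0 (Real.log ((z : ℝ) ^ 2 / D)) with hm
  have hm0 : 0 ≤ m := le_max_left _ _
  have a1 : ((PI 0 √D).card : ℝ) ^ 2 ≤ 4 * C ^ 2 * D / Real.log D ^ 2 := by
    refine (pow_le_pow_left₀ (Nat.cast_nonneg _) (h _ hs2) 2).trans (le_of_eq ?_)
    rw [hs1, div_pow, mul_pow, Real.sq_sqrt hD0.le]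
    field_simp
    ring
  have a2 : ∀ q ∈ PI √D z, ((PI 0 (D / q)).card : ℝ) ≤ 3 * C * D / Real.log D * (1 / q) := by
    intro q hq
    obtain ⟨-, b1, b2⟩ := (mem_PI hs0.le).1 hq
    have b3 : (0 : ℝ) < q := by linarith
    have b4 := Real.log_le_log b3 b2
    have b5 : Real.log D / 3 + 0.15 * Real.log D ≤ Real.log (D / q) := by
      rw [Real.log_div hD0.ne' b3.ne']
      linarith
    have b6 : 2 ≤ D / q := (Real.log_le_log_iff (by norm_num) (by positivity)).1 (by linarith)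
    refine (h _ b6).trans ((div_le_div_of_nonneg_left (by positivity)
      (by linarith : 0 < Real.log D / 3) (by linarith)).trans (le_of_eq ?_))
    field_simp
  have a3 : ∑ q ∈ PI √D z, 1 / (q : ℝ) ≤ (1 + 2 * C₁) * (1 + m) / Real.log D := by
    rcases le_or_gt √D z with hc | hc
    · refine (h₁ _ _ hs2 hc).trans ?_
      have b1 : Real.log ((z : ℝ) ^ 2 / D) ≤ m := le_max_right _ _
      rw [Real.log_div (by positivity [hs0.trans_le hc]) hD0.ne', Real.log_pow] at b1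
      push_cast at b1
      rw [hs1, div_div_eq_mul_div]
      refine div_le_div_of_nonneg_right ?_ (by linarith)
      nlinarith
    · rw [sum_eq_zero fun q hq => ?_]
      · exact div_nonneg (by positivity) (by linarith)
      · obtain ⟨-, b1, b2⟩ := (mem_PI hs0.le).1 hq
        linarith
  have a4 : (S.card : ℝ) ≤ ((PI 0 √D).card : ℝ) ^ 2 +
      ∑ q ∈ PI √D z, ((PI 0 (D / q)).card : ℝ) := by exact_mod_cast card_pairs hD0 hS
  have a5 := sum_le_sum a2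
  rw [← mul_sum] at a5
  have a6 := mul_le_mul_of_nonneg_left a3
    (div_nonneg (by positivity) (by linarith) : 0 ≤ 3 * C * D / Real.log D)
  refine a4.trans ((add_le_add a1 (a5.trans a6)).trans ?_)
  rw [div_mul_div_comm, ← sq, ← add_div]
  refine div_le_div_of_nonneg_right ?_ (by positivity)
  have a7 : 0 ≤ 4 * C ^ 2 * D * m := by positivity
  linarith

theorem exists_insert_lo {s : Finset ℕ} {n : ℕ} (h : s.card = n + 1) :
    ∃ q t, s = insert q t ∧ (∀ r ∈ t, q < r) ∧ t.card = n := by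
  have hne : s.Nonempty := card_pos.1 (by omega)
  refine ⟨lo s, s.erase (lo s), (insert_erase (lo_mem hne)).symm, fun r hr => ?_, ?_⟩
  · exact lt_of_le_of_ne (lo_le (mem_of_mem_erase hr)) (ne_of_mem_erase hr).symm
  · rw [card_erase_of_mem (lo_mem hne), h, Nat.add_sub_cancel]

theorem leaf_decomp {D : ℝ} (hD : 0 < D) {z : ℕ} (j : ℕ) {S : Finset (Finset ℕ)}
    (hS : ∀ s ∈ S, s ⊆ z.primesBelow ∧ Leaf 3 1 D s ∧ s.card ≠ 2 ∧ D / 2 ^ j ≤ pr s ∧
      (pr s : ℝ) < 2 * (D / 2 ^ j)) :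
    ∑ s ∈ S, 1 / (pr s : ℝ) ≤
      ∑ p ∈ z.primesBelow.filter (fun p : ℕ => (2 : ℝ) ^ j ≤ 2 * (p : ℝ) ^ 2),
        ∑ x ∈ (PI p (2 ^ j * p) ×ˢ PI p (2 ^ j * p)).filter
          (fun x => x.1 < x.2 ∧ D / 2 ^ j * (x.2 : ℝ) ^ 2 ≤ D * (p * x.1)),
          Bw D z 1 x.2 (D / 2 ^ j / (p * x.1 * x.2)) / (p * x.1 * x.2) := by
  simp only [Bw_eq, sum_div, sum_sigma']
  refine sum_le_of_surj (fun y => insert y.1 (insert y.2.1.1 (insert y.2.1.2 y.2.2)))
    (fun s hs => ?_) fun _ _ => by positivity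
  obtain ⟨a1, a2, a3, a4, a5⟩ := hS s hs
  have a6 := leaf_even a2
  have a7 := card_pos.2 a2.1
  obtain ⟨n, hn⟩ : ∃ n, s.card = 2 * n + 1 + 1 + 1 + 1 := by
    obtain ⟨r, hr⟩ := a6
    exact ⟨r - 2, by omega⟩
  obtain ⟨p, s1, rfl, hp, c1⟩ := exists_insert_lo hn
  obtain ⟨q, s2, rfl, hq, c2⟩ := exists_insert_lo c1
  obtain ⟨q₀, s3, rfl, hq₀, c3⟩ := exists_insert_lo c2
  have n1 : p ∉ insert q (insert q₀ s3) := fun h => lt_irrefl _ (hp p h)
  have n2 : q ∉ insert q₀ s3 := fun h => lt_irrefl _ (hq q h)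
  have n3 : q₀ ∉ s3 := fun h => lt_irrefl _ (hq₀ q₀ h)
  obtain ⟨-, d1, -, d2⟩ := leaf_iff.1 a2
  rw [lo_insert hp, erase_insert n1] at d1 d2
  obtain ⟨d3, d4⟩ := (ok_insert_iff hq₀).1 ((ok_insert_iff hq).1 d1).1
  have d5 := d4 (by omega)
  rw [pr_insert n1] at a4 a5 ⊢
  rw [pr_insert n2, pr_insert n3] at a4 a5 d2 ⊢
  push_cast at a4 a5 d2 ⊢
  have m1 := a1 (mem_insert_self _ _)
  have m2 := a1 (mem_insert_of_mem (mem_insert_self _ _))
  have m3 := a1 (mem_insert_of_mem (mem_insert_of_mem (mem_insert_self _ _)))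
  have l0 : (0 : ℝ) < p := by exact_mod_cast (Nat.prime_of_mem_primesBelow m1).pos
  have l1 : (p : ℝ) < q := by exact_mod_cast hp q (mem_insert_self _ _)
  have l2' := hq q₀ (mem_insert_self _ _)
  have l2 : (q : ℝ) < q₀ := by exact_mod_cast l2'
  have l3 : (0 : ℝ) < q := l0.trans l1
  have l4 : (0 : ℝ) < q₀ := l3.trans l2
  have hT : (0 : ℝ) < 2 ^ j := by positivity
  have e1 : D / 2 ^ j * (q₀ : ℝ) ^ 2 ≤ D * (p * q) := by
    have f1 := mul_le_mul_of_nonneg_right a4 (sq_nonneg (q₀ : ℝ))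
    have f2 := mul_le_mul_of_nonneg_right d5.le (mul_pos l0 l3).le
    linarith
  have e2 : (q₀ : ℝ) ≤ 2 ^ j * p := by
    rw [div_mul_eq_mul_div, div_le_iff₀ hT] at e1
    have f1 : D * q₀ * q₀ ≤ D * q₀ * (2 ^ j * p) := by
      have := mul_le_mul_of_nonneg_left l2.le (by positivity : 0 ≤ D * p * 2 ^ j)
      linarith
    exact le_of_mul_le_mul_left f1 (by positivity)
  have e3 : (2 : ℝ) ^ j ≤ 2 * (p : ℝ) ^ 2 := by
    have f1 := mul_le_mul_of_nonneg_right a5.le (sq_nonneg (p : ℝ))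
    have f2 : D ≤ 2 * (D / 2 ^ j) * (p : ℝ) ^ 2 := by linarith
    rw [← mul_div_assoc, div_mul_eq_mul_div, le_div_iff₀ hT] at f2
    exact le_of_mul_le_mul_left (by linarith) hD
  refine ⟨⟨p, (q, q₀), s3⟩, mem_sigma.2 ⟨mem_filter.2 ⟨m1, e3⟩, mem_sigma.2 ⟨mem_filter.2
    ⟨mem_product.2 ⟨(mem_PI l0.le).2 ⟨Nat.prime_of_mem_primesBelow m2, l1, by linarith⟩,
      (mem_PI l0.le).2 ⟨Nat.prime_of_mem_primesBelow m3, l1.trans l2, e2⟩⟩, l2', e1⟩,
    mem_BS.2 ⟨fun r hr => ⟨a1 (mem_insert_of_mem (mem_insert_of_mem (mem_insert_of_mem hr))),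
      by exact_mod_cast hq₀ r hr⟩, d3, (by omega : s3.card % 2 = 1), ?_, ?_⟩⟩⟩, rfl, le_of_eq ?_⟩
  · simp only
    rw [div_le_iff₀ (by positivity)]
    linarith
  · simp only
    rw [← mul_div_assoc, lt_div_iff₀ (by positivity)]
    linarith
  · simp only
    rw [div_div]
    congr 1
    ring

end Vale.Agent.P013
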