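import Vale.Agent.P013.Defs

/-! The Rosser tree: exact identities and structural lemmas.

Proof plan.
* `sum_powerset_tree`: a subset `t ⊆ P` which is not `Ok` has a largest element `p` violating the
  condition; `s = {q ∈ t | p ≤ q}` is a leaf with `lo s = p`, and `t = s ∪ below t p`. Conversely
  `(s, t') ↦ s ∪ t'` is injective on pairs (leaf `s`, `t' ⊆ below P (lo s)`) and lands in the
  non `Ok` sets (`Finset.sum_sigma'`, `Finset.sum_bij'` or `sum_nbij'`).
* `sieve_tree`: apply it pointwise in `x` to `F t = (-1)^|t| 1[∀ p ∈ t, bad p x]`, and use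
  `∑_{t ⊆ P} (-1)^|t| ∏_{p ∈ t} f p = ∏_{p ∈ P} (1 - f p)` (`Finset.prod_one_add` or
  `prod_one_sub_ordered`-free version via `prod_add`); `g_tree` is the same with `f = g`.
* `level_change`: apply it at level `D` to `F t = (-1)^|t| 1[Ok D' t] / pr t`, use `ok_mono`,
  `ok_union_iff` (leaves of the lower tree have even size) and
  `below z.primesBelow p = p.primesBelow` for `p < z`.
* `ok_replace`: let `p' = φ p₀`, `k = |above s' p'|`, `A ⊆ s` the preimage of
  `insert p' (above s' p')`, `|A| = k + 1`, and `q ∈ s` the element with `|above s q| = k`,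
  `T = insert q (above s q)`. Then `lo A ≤ q` and `pr A ≤ pr T` (`A \ T` and `T \ A` have the same
  size, elements of the first are `≤ q`, of the second `≥ q`). So
  `pr (above s' p') p'^b = pr (A') p'^(b-1) ≤ (∏ c) pr A (c (lo A) lo A)^(b-1)`
  (as `p' ≤ φ (lo A)`), which is `≤ (∏ c)^b pr (above s q) q^b`.
* `ladder`: if `|above s q|` is odd use the condition at `q`; if it is even and non zero use the
  condition at `q₀ = lo (above s q)`; if it is zero use `q^3 ≤ z^3 ≤ D^2`. -/

open Finset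

namespace Vale.Agent.P013

theorem ok_empty (b par : ℕ) (D : ℝ) : Ok b par D ∅ := fun _ h => absurd h (notMem_empty _)

theorem ok_mono {b par : ℕ} {D D' : ℝ} (h : D ≤ D') {s : Finset ℕ} (hs : Ok b par D s) :
    Ok b par D' s := fun p hp h1 => (hs p hp h1).trans_le h

theorem ok_insert_iff {b par : ℕ} {D : ℝ} {s : Finset ℕ} {q : ℕ} (h : ∀ r ∈ s, q < r) :
    Ok b par D (insert q s) ↔
      Ok b par D s ∧ (s.card % 2 = par → (pr s : ℝ) * (q : ℝ) ^ b < D) := by
  have e1 : ∀ p ∈ s, above (insert q s) p = above s p := fun p hp => by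
    ext r
    simp only [mem_above, mem_insert]
    constructor
    · rintro ⟨rfl | h1, h2⟩
      · exact absurd (h p hp) (by omega)
      · exact ⟨h1, h2⟩
    · exact fun h1 => ⟨Or.inr h1.1, h1.2⟩
  have e2 : above (insert q s) q = s := by
    ext r
    simp only [mem_above, mem_insert]
    constructor
    · rintro ⟨rfl | h1, h2⟩
      · omega
      · exact h1
    · exact fun h1 => ⟨Or.inr h1, h r h1⟩
  unfold Ok
  rw [forall_mem_insert, e2, and_comm]
  exact and_congr_left fun _ => forall₂_congr fun p hp => by rw [e1 p hp]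

theorem ok_of_upper {b par : ℕ} {D : ℝ} {s t : Finset ℕ} (h : Ok b par D s) (hts : t ⊆ s)
    (hup : ∀ p ∈ t, ∀ r ∈ s, p < r → r ∈ t) : Ok b par D t := by
  intro p hp
  have e : above t p = above s p := by
    ext r
    simp only [mem_above]
    exact ⟨fun h1 => ⟨hts h1.1, h1.2⟩, fun h1 => ⟨hup p hp r h1.1 h1.2, h1.2⟩⟩
  rw [e]
  exact h p (hts hp)

theorem ok_erase_lo {b par : ℕ} {D : ℝ} {s : Finset ℕ} (h : Ok b par D s) :
    Ok b par D (s.erase (lo s)) := by
  refine ok_of_upper h (erase_subset _ _) fun p hp r hr hpr => mem_erase.2 ⟨?_, hr⟩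
  have := lo_le (mem_of_mem_erase hp)
  omega

/-- The top part of an admissible set is admissible. -/
theorem ok_filter_gt {b par : ℕ} {D : ℝ} {s : Finset ℕ} (h : Ok b par D s) (x : ℝ) :
    Ok b par D (s.filter fun q : ℕ => x < q) := by
  refine ok_of_upper h (filter_subset _ _) fun p hp r hr hpr => mem_filter.2 ⟨hr, ?_⟩
  exact (mem_filter.1 hp).2.trans (by exact_mod_cast hpr)

theorem leaf_iff {b par : ℕ} {D : ℝ} {s : Finset ℕ} :
    Leaf b par D s ↔ s.Nonempty ∧ Ok b par D (s.erase (lo s)) ∧ (s.card - 1) % 2 = par ∧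
      D ≤ (pr (s.erase (lo s)) : ℝ) * (lo s : ℝ) ^ b := by
  unfold Leaf
  refine and_congr_right fun hne => and_congr_right fun hok => ?_
  have e := ok_insert_iff (b := b) (par := par) (D := D) (s := s.erase (lo s)) (q := lo s)
    fun r hr => lt_of_le_of_ne (lo_le (mem_of_mem_erase hr)) (ne_of_mem_erase hr).symm
  rw [insert_erase (lo_mem hne), card_erase_of_mem (lo_mem hne)] at e
  rw [e]
  simp [hok]

theorem leaf_even {b : ℕ} {D : ℝ} {s : Finset ℕ} (h : Leaf b 1 D s) : Even s.card := by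
  obtain ⟨h1, -, h2, -⟩ := leaf_iff.1 h
  have := card_pos.2 h1
  rw [Nat.even_iff]
  omega

theorem ok_union_iff {b par : ℕ} {D : ℝ} {s t : Finset ℕ} (h : ∀ q ∈ t, ∀ r ∈ s, q < r)
    (hs : s.card % 2 = 0) (h0 : 0 < pr s) :
    Ok b par D (s ∪ t) ↔ Ok b par D s ∧ Ok b par (D / pr s) t := by
  have e1 : ∀ p ∈ s, above (s ∪ t) p = above s p := fun p hp => by
    ext r
    simp only [mem_above, mem_union]
    constructor
    · rintro ⟨h1 | h1, h2⟩
      · exact ⟨h1, h2⟩
      · exact absurd (h r h1 p hp) (by omega)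
    · exact fun h1 => ⟨Or.inl h1.1, h1.2⟩
  have e2 : ∀ p ∈ t, above (s ∪ t) p = s ∪ above t p := fun p hp => by
    ext r
    simp only [mem_above, mem_union]
    constructor
    · rintro ⟨h1 | h1, h2⟩
      · exact Or.inl h1
      · exact Or.inr ⟨h1, h2⟩
    · rintro (h1 | h1)
      · exact ⟨Or.inl h1, h p hp r h1⟩
      · exact ⟨Or.inr h1.1, h1.2⟩
  have e3 : ∀ p, Disjoint s (above t p) := fun p => disjoint_left.2 fun r h1 h2 =>
    lt_irrefl _ (h r (mem_above.1 h2).1 r h1)
  have h0' : (0 : ℝ) < pr s := by exact_mod_cast h0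
  unfold Ok
  rw [forall_mem_union]
  refine and_congr (forall₂_congr fun p hp => by rw [e1 p hp]) (forall₂_congr fun p hp => ?_)
  rw [e2 p hp, card_union_of_disjoint (e3 p), pr_union (e3 p), lt_div_iff₀ h0']
  have e4 : (s.card + (above t p).card) % 2 = (above t p).card % 2 := by omega
  rw [e4]
  push_cast
  rw [mul_assoc, mul_comm]

theorem sum_powerset_tree (b par : ℕ) (D : ℝ) (P : Finset ℕ) (F : Finset ℕ → ℝ) :
    ∑ t ∈ P.powerset, F t = ∑ t ∈ okS b par D P, F t +
      ∑ s ∈ leafS b par D P, ∑ t ∈ (below P (lo s)).powerset, F (s ∪ t) := by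
  classical
  rw [okS, leafS, sum_filter, sum_filter]
  induction P using Finset.induction_on_min generalizing F with
  | empty => simp [ok_empty, Leaf]
  | insert q P hq ih =>
    have hqP : q ∉ P := fun h => lt_irrefl _ (hq q h)
    rw [sum_powerset_insert hqP, sum_powerset_insert hqP, sum_powerset_insert hqP, ih F,
      ih fun t => F (insert q t)]
    simp only [← sum_add_distrib]
    refine sum_congr rfl fun s hs => ?_
    have hs' : ∀ r ∈ s, q < r := fun r hr => hq r (mem_powerset.1 hs hr)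
    have hqs : q ∉ s := fun h => lt_irrefl _ (hs' q h)
    have e1 : below (insert q P) q = ∅ := by
      refine eq_empty_of_forall_notMem fun r hr => ?_
      obtain ⟨h1, h2⟩ := mem_below.1 hr
      rcases mem_insert.1 h1 with rfl | h1
      · omega
      · have := hq r h1
        omega
    have e2 : Leaf b par D (insert q s) ↔ Ok b par D s ∧ ¬ Ok b par D (insert q s) := by
      unfold Leaf
      rw [lo_insert hs', erase_insert hqs]
      simp
    have e3 : Ok b par D (insert q s) → Ok b par D s := fun h => ((ok_insert_iff hs').1 h).1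
    have e4 : (if Leaf b par D s then ∑ t ∈ (below (insert q P) (lo s)).powerset, F (s ∪ t)
        else 0) = (if Leaf b par D s then ∑ t ∈ (below P (lo s)).powerset, F (s ∪ t) else 0) +
        (if Leaf b par D s then ∑ t ∈ (below P (lo s)).powerset, F (insert q (s ∪ t)) else 0) := by
      split_ifs with hl
      · have e5 : below (insert q P) (lo s) = insert q (below P (lo s)) := by
          rw [below, filter_insert, if_pos (hs' _ (lo_mem hl.1)), below]
        rw [e5, sum_powerset_insert fun h => hqP (mem_below.1 h).1]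
        simp only [union_insert]
      · simp
    rw [e4, lo_insert hs', e1, powerset_empty, sum_singleton, union_empty, e2]
    by_cases h1 : Ok b par D (insert q s)
    · simp only [h1, e3 h1, if_true, not_true, and_false, if_false]
      ring
    · by_cases h2 : Ok b par D s
      · simp only [h1, h2, if_true, not_false_iff, and_true, if_false]
        ring
      · simp only [h1, h2, false_and, if_false]
        ring

theorem g_tree' (b par : ℕ) (D : ℝ) (P : Finset ℕ) (g : ℕ → ℝ) :
    ∏ p ∈ P, (1 - g p) = ∑ s ∈ okS b par D P, (-1 : ℝ) ^ s.card * ∏ p ∈ s, g p +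
      ∑ s ∈ leafS b par D P, (-1 : ℝ) ^ s.card * ((∏ p ∈ s, g p) *
        ∏ p ∈ below P (lo s), (1 - g p)) := by
  have e : ∀ Q : Finset ℕ, ∏ p ∈ Q, (1 - g p) = ∑ t ∈ Q.powerset, ∏ p ∈ t, -g p := fun Q => by
    simp only [sub_eq_add_neg]
    exact prod_one_add _
  rw [e, sum_powerset_tree b par D]
  congr 1
  · exact sum_congr rfl fun s _ => prod_neg _
  · refine sum_congr rfl fun s _ => ?_
    rw [e, ← mul_assoc, ← prod_neg, mul_sum]
    refine sum_congr rfl fun t ht => prod_union (disjoint_left.2 fun r h1 h2 => ?_)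
    have h3 := (mem_below.1 (mem_powerset.1 ht h2)).2
    have h4 := lo_le h1
    omega

open Classical in
theorem sieve_tree (b par : ℕ) (D : ℝ) (P : Finset ℕ) {α : Type} (A : Finset α) (a : α → ℝ)
    (bad : ℕ → α → Prop) :
    ∑ x ∈ A.filter (fun x => ∀ p ∈ P, ¬ bad p x), a x =
      ∑ s ∈ okS b par D P, (-1 : ℝ) ^ s.card * ∑ x ∈ A.filter (fun x => ∀ p ∈ s, bad p x), a x +
      ∑ s ∈ leafS b par D P, (-1 : ℝ) ^ s.card *
        ∑ x ∈ A.filter (fun x => (∀ p ∈ s, bad p x) ∧ ∀ p ∈ below P (lo s), ¬ bad p x), a x := by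
  have e1 : ∀ (s : Finset ℕ) (x : α), ∏ p ∈ s, (if bad p x then (1 : ℝ) else 0) =
      if ∀ p ∈ s, bad p x then 1 else 0 := fun s x => by
    rw [prod_boole]
  have e2 : ∀ (s : Finset ℕ) (x : α), ∏ p ∈ s, (1 - if bad p x then (1 : ℝ) else 0) =
      if ∀ p ∈ s, ¬ bad p x then 1 else 0 := fun s x => by
    have : ∀ p, (1 - if bad p x then (1 : ℝ) else 0) = if ¬ bad p x then 1 else 0 := fun p => by
      split_ifs <;> simp
    simp only [this]
    rw [prod_boole]
  have key : ∀ x, (if ∀ p ∈ P, ¬ bad p x then a x else 0) =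
      ∑ s ∈ okS b par D P, (-1 : ℝ) ^ s.card * (if ∀ p ∈ s, bad p x then a x else 0) +
      ∑ s ∈ leafS b par D P, (-1 : ℝ) ^ s.card *
        (if (∀ p ∈ s, bad p x) ∧ ∀ p ∈ below P (lo s), ¬ bad p x then a x else 0) := fun x => by
    have h := g_tree' b par D P fun p => if bad p x then 1 else 0
    simp only [e1, e2] at h
    have h2 := congrArg (· * a x) h
    simp only [add_mul, sum_mul, mul_assoc, ite_mul, one_mul, zero_mul] at h2
    rw [h2]
    congr 1
    refine sum_congr rfl fun s _ => ?_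
    rw [ite_and]
  simp only [sum_filter, key, sum_add_distrib, mul_sum]
  rw [sum_comm, sum_comm (s := A)]

theorem g_tree (b par : ℕ) (D : ℝ) (P : Finset ℕ) (g : ℕ → ℝ) :
    ∏ p ∈ P, (1 - g p) = ∑ s ∈ okS b par D P, (-1 : ℝ) ^ s.card * ∏ p ∈ s, g p +
      ∑ s ∈ leafS b par D P, (-1 : ℝ) ^ s.card * ((∏ p ∈ s, g p) *
        ∏ p ∈ below P (lo s), (1 - g p)) := by
  exact g_tree' b par D P g

theorem below_primesBelow {z p : ℕ} (h : p ≤ z) : below z.primesBelow p = p.primesBelow := by
  ext q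
  simp only [mem_below, Nat.mem_primesBelow]
  constructor
  · exact fun h1 => ⟨h1.2, h1.1.2⟩
  · exact fun h1 => ⟨⟨by omega, h1.2⟩, h1.1⟩

theorem Lam_le_Vp (D : ℝ) (z : ℕ) : Lam D z ≤ Vp z := by
  rw [Vp, g_tree 3 1 D, Lam]
  have e : ∀ s : Finset ℕ, (-1 : ℝ) ^ s.card * ∏ p ∈ s, 1 / (p : ℝ) = (-1) ^ s.card / pr s :=
    fun s => by rw [pr_cast, prod_div_distrib, prod_const_one, mul_one_div]
  simp only [e]
  refine le_add_of_nonneg_right (sum_nonneg fun s hs => ?_)
  rw [(leaf_even (mem_leafS.1 hs).2).neg_one_pow, one_mul]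
  refine mul_nonneg (prod_nonneg fun p _ => by positivity) (prod_nonneg fun p _ => ?_)
  rw [sub_nonneg, one_div]
  exact Nat.cast_inv_le_one p

open Classical in
theorem level_change {D D' : ℝ} (h : D ≤ D') (z : ℕ) :
    Lam D' z - Lam D z = ∑ s ∈ (leafS 3 1 D z.primesBelow).filter (Ok 3 1 D'),
      Lam (D' / pr s) (lo s) / pr s := by
  have key := sum_powerset_tree 3 1 D z.primesBelow
    fun t => if Ok 3 1 D' t then (-1 : ℝ) ^ t.card / (pr t : ℝ) else 0
  have e1 : ∑ t ∈ z.primesBelow.powerset,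
      (if Ok 3 1 D' t then (-1 : ℝ) ^ t.card / (pr t : ℝ) else 0) = Lam D' z := by
    rw [Lam, okS, sum_filter]
  have e2 : ∑ t ∈ okS 3 1 D z.primesBelow,
      (if Ok 3 1 D' t then (-1 : ℝ) ^ t.card / (pr t : ℝ) else 0) = Lam D z :=
    sum_congr rfl fun t ht => if_pos (ok_mono h (mem_okS.1 ht).2)
  rw [e1, e2] at key
  rw [key, add_sub_cancel_left, sum_filter]
  refine sum_congr rfl fun s hs => ?_
  obtain ⟨h1, h2⟩ := mem_leafS.1 hs
  have hp : ∀ p ∈ s, p.Prime := fun p hp => Nat.prime_of_mem_primesBelow (h1 hp)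
  have hev := leaf_even h2
  rw [below_primesBelow (Nat.lt_of_mem_primesBelow (h1 (lo_mem h2.1))).le]
  have e3 : ∀ t ∈ (lo s).primesBelow.powerset,
      (if Ok 3 1 D' (s ∪ t) then (-1 : ℝ) ^ (s ∪ t).card / (pr (s ∪ t) : ℝ) else 0) =
      if Ok 3 1 D' s then (if Ok 3 1 (D' / pr s) t then (-1 : ℝ) ^ t.card / (pr t : ℝ) else 0) /
        pr s else 0 := fun t ht => by
    have hlt : ∀ q ∈ t, ∀ r ∈ s, q < r := fun q hq r hr =>
      lt_of_lt_of_le (Nat.lt_of_mem_primesBelow (mem_powerset.1 ht hq)) (lo_le hr)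
    have hd : Disjoint s t := disjoint_left.2 fun r h3 h4 => lt_irrefl _ (hlt r h4 r h3)
    have hu := ok_union_iff (b := 3) (par := 1) (D := D') hlt (Nat.even_iff.1 hev) (pr_pos hp)
    rw [card_union_of_disjoint hd, pr_union hd, pow_add, hev.neg_one_pow]
    by_cases k1 : Ok 3 1 D' s
    · by_cases k2 : Ok 3 1 (D' / pr s) t
      · rw [if_pos (hu.2 ⟨k1, k2⟩), if_pos k1, if_pos k2]
        push_cast
        rw [one_mul, div_div, mul_comm]
      · rw [if_neg fun k => k2 (hu.1 k).2, if_pos k1, if_neg k2, zero_div]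
    · rw [if_neg fun k => k1 (hu.1 k).1, if_neg k1]
  rw [sum_congr rfl e3]
  split_ifs
  · rw [Lam, okS, sum_filter, sum_div]
  · simp

theorem card_dvd_range (N : ℤ) (y : ℕ) {d : ℕ} (hd : 0 < d) :
    |(((range y).filter fun v : ℕ => (d : ℤ) ∣ N + v).card : ℝ) - y / d| ≤ 1 := by
  have e : ((range y).filter fun v : ℕ => (d : ℤ) ∣ N + v).card =
      ((Ico N (N + y)).filter fun x => (d : ℤ) ∣ x).card := by
    refine card_nbij' (fun v => N + v) (fun x => (x - N).toNat) (fun v hv => ?_) (fun x hx => ?_)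
      (fun v _ => by simp) (fun x hx => ?_)
    · simp only [coe_filter, mem_range, mem_Ico, Set.mem_setOf_eq] at hv ⊢
      exact ⟨by omega, hv.2⟩
    · simp only [coe_filter, mem_range, mem_Ico, Set.mem_setOf_eq] at hx ⊢
      have : N + ((x - N).toNat : ℤ) = x := by omega
      rw [this]
      exact ⟨by omega, hx.2⟩
    · simp only [coe_filter, mem_Ico, Set.mem_setOf_eq] at hx
      simp only
      omega
  have hd' : (0 : ℤ) < d := by exact_mod_cast hd
  have hq : (0 : ℚ) < d := by exact_mod_cast hd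
  have h1 := Int.Ico_filter_dvd_card N (N + y) hd'
  rw [max_eq_left (sub_nonneg.2 (Int.ceil_le_ceil (by
    push_cast
    exact div_le_div_of_nonneg_right (le_add_of_nonneg_right (by positivity)) hq.le)))] at h1
  rw [e]
  have h2 : |(((Ico N (N + y)).filter fun x => (d : ℤ) ∣ x).card : ℚ) - y / d| ≤ 1 := by
    have h3 := congrArg (Int.cast : ℤ → ℚ) h1
    push_cast at h3
    rw [h3, abs_le]
    have a1 := Int.le_ceil (((N : ℚ) + y) / d)
    have a2 := Int.ceil_lt_add_one (((N : ℚ) + y) / d)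
    have a3 := Int.le_ceil ((N : ℚ) / d)
    have a4 := Int.ceil_lt_add_one ((N : ℚ) / d)
    have a5 := add_div (N : ℚ) y d
    constructor <;> linarith
  have h4 := (Rat.cast_le (K := ℝ)).2 h2
  push_cast at h4
  exact h4

/-- The lower sieve identity for an interval. -/
theorem sift_tree (N : ℤ) (y z : ℕ) (D : ℝ) :
    y * Lam D z - (okS 3 1 D z.primesBelow).card +
      ∑ s ∈ leafS 3 1 D z.primesBelow, (sift N y (pr s) (lo s) : ℝ) ≤ sift N y 1 z := by
  have key := sieve_tree 3 1 D z.primesBelow (range y) (fun _ => (1 : ℝ))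
    fun p v => (p : ℤ) ∣ N + v
  simp only [sum_const, nsmul_eq_mul, mul_one] at key
  have key' : (sift N y 1 z : ℝ) = ∑ s ∈ okS 3 1 D z.primesBelow, (-1 : ℝ) ^ s.card *
      (((range y).filter fun v : ℕ => (pr s : ℤ) ∣ N + v).card : ℝ) +
      ∑ s ∈ leafS 3 1 D z.primesBelow, (sift N y (pr s) (lo s) : ℝ) := by
    refine Eq.trans ?_ (key.trans ?_)
    · rw [sift]
      congr 2
      ext v
      simp
    · congr 1
      · refine sum_congr rfl fun s hs => ?_
        have hp : ∀ p ∈ s, p.Prime := fun p hp =>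
          Nat.prime_of_mem_primesBelow ((mem_okS.1 hs).1 hp)
        congr 3
        ext v
        simp [pr_dvd_iff hp]
      · refine sum_congr rfl fun s hs => ?_
        obtain ⟨h1, h2⟩ := mem_leafS.1 hs
        have hp : ∀ p ∈ s, p.Prime := fun p hp => Nat.prime_of_mem_primesBelow (h1 hp)
        rw [(leaf_even h2).neg_one_pow, one_mul,
          below_primesBelow (Nat.lt_of_mem_primesBelow (h1 (lo_mem h2.1))).le, sift]
        congr 2
        ext v
        simp [pr_dvd_iff hp]
  rw [key']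
  refine add_le_add_left ?_ _
  rw [Lam, mul_sum, card_eq_sum_ones (okS 3 1 D z.primesBelow)]
  push_cast
  rw [← sum_sub_distrib]
  refine sum_le_sum fun s hs => ?_
  have hp : ∀ p ∈ s, p.Prime := fun p hp => Nat.prime_of_mem_primesBelow ((mem_okS.1 hs).1 hp)
  have h1 := abs_le.1 (card_dvd_range N y (pr_pos hp))
  rcases neg_one_pow_eq_or ℝ s.card with h | h
  · rw [h, mul_one_div, one_mul]
    linarith [h1.1]
  · rw [h, neg_div, mul_neg, mul_one_div, neg_one_mul]
    linarith [h1.2]

theorem exists_top (s : Finset ℕ) : (∀ p ∈ s, 1 ≤ p) → ∀ A ⊆ s, A.Nonempty →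
    ∃ q ∈ s, (above s q).card + 1 = A.card ∧ lo A ≤ q ∧ pr (A.erase (lo A)) ≤ pr (above s q) := by
  induction s using Finset.induction_on_min with
  | empty => exact fun _ A hA hne => absurd (subset_empty.1 hA) hne.ne_empty
  | insert m s hm ih =>
    intro h1 A hA hne
    have hms : m ∉ s := fun h => lt_irrefl _ (hm m h)
    have h1' : ∀ p ∈ s, 1 ≤ p := fun p hp => h1 p (mem_insert_of_mem hp)
    have e1 : ∀ p ∈ s, above (insert m s) p = above s p := fun p hp => by
      rw [above, filter_insert, if_neg (not_lt.2 (hm p hp).le), above]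
    by_cases hmA : m ∈ A
    · have hlo : lo A = m := lo_eq hmA fun r hr => by
        rcases mem_insert.1 (hA hr) with rfl | h
        · exact le_rfl
        · exact (hm r h).le
      have hsub : A.erase m ⊆ s := subset_insert_iff.1 hA
      have hc := card_erase_add_one hmA
      rw [hlo]
      by_cases heq : A.erase m = s
      · have e2 : above (insert m s) m = s := by
          rw [above, filter_insert, if_neg (lt_irrefl m), filter_true_of_mem hm]
        exact ⟨m, mem_insert_self _ _, by rw [e2, ← hc, heq], le_rfl, by rw [e2, heq]⟩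
      · obtain ⟨x, hx, hx'⟩ := exists_of_ssubset (hsub.ssubset_of_ne heq)
        have hsub2 : insert x (A.erase m) ⊆ s := insert_subset hx hsub
        have hne2 := insert_nonempty x (A.erase m)
        obtain ⟨q, hq, c1, -, c3⟩ := ih h1' _ hsub2 hne2
        rw [card_insert_of_notMem hx'] at c1
        refine ⟨q, mem_insert_of_mem hq, by rw [e1 q hq]; omega, (hm q hq).le, ?_⟩
        rw [e1 q hq]
        refine le_trans ?_ c3
        have d1 := pr_erase (lo_mem hne2)
        rw [pr_insert hx'] at d1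
        have d2 := lo_le (mem_insert_self x (A.erase m))
        refine Nat.le_of_mul_le_mul_left ?_ (h1' _ (hsub2 (lo_mem hne2)))
        rw [← d1]
        exact Nat.mul_le_mul_right _ d2
    · obtain ⟨q, hq, c⟩ := ih h1' A ((subset_insert_iff_of_notMem hmA).1 hA) hne
      exact ⟨q, mem_insert_of_mem hq, by rw [e1 q hq]; exact c⟩

theorem ok_replace {b par : ℕ} (hb : 1 ≤ b) {D : ℝ} {s : Finset ℕ} (hs : Ok b par D s)
    (h1 : ∀ p ∈ s, 1 ≤ p) (φ : ℕ → ℕ) (hφ : Set.InjOn φ s) (c : ℕ → ℝ)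
    (hc : ∀ p ∈ s, 1 ≤ c p ∧ (φ p : ℝ) ≤ c p * p) :
    Ok b par (D * (∏ p ∈ s, c p) ^ b) (s.image φ) := by
  intro p' hp' hpar
  obtain ⟨b, rfl⟩ := Nat.exists_eq_add_of_le' hb
  set A := s.filter fun x => p' ≤ φ x with hA
  have hAs : A ⊆ s := filter_subset _ _
  have himg : A.image φ = insert p' (above (s.image φ) p') := by
    ext r
    simp only [hA, mem_image, mem_filter, mem_insert, mem_above]
    constructor
    · rintro ⟨x, ⟨h2, h3⟩, rfl⟩
      rcases h3.eq_or_lt with h | h
      · exact Or.inl h.symm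
      · exact Or.inr ⟨⟨x, h2, rfl⟩, h⟩
    · rintro (rfl | ⟨⟨x, h2, rfl⟩, h3⟩)
      · obtain ⟨x, h2, h3⟩ := mem_image.1 hp'
        exact ⟨x, ⟨h2, h3.ge⟩, h3⟩
      · exact ⟨x, ⟨h2, h3.le⟩, rfl⟩
  have hnot : p' ∉ above (s.image φ) p' := fun h => lt_irrefl _ (mem_above.1 h).2
  have hinj : Set.InjOn φ A := hφ.mono (coe_subset.2 hAs)
  have hcard : A.card = (above (s.image φ) p').card + 1 := by
    rw [← card_image_of_injOn hinj, himg, card_insert_of_notMem hnot]
  have hne : A.Nonempty := card_pos.1 (by omega)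
  obtain ⟨q, hq, c1, c2, c3⟩ := exists_top s h1 A hAs hne
  have hok := hs q hq (by rw [← hpar]; congr 1; omega)
  have hl := lo_mem hne
  have hC1 : ∀ t ⊆ s, ∏ p ∈ t, c p ≤ ∏ p ∈ s, c p := fun t ht =>
    prod_le_prod_of_subset_of_one_le ht (fun p hp => le_trans zero_le_one (hc p (ht hp)).1)
      fun p hp _ => (hc p hp).1
  have hC0 : 0 < ∏ p ∈ s, c p := prod_pos fun p hp => lt_of_lt_of_le one_pos (hc p hp).1
  set C := ∏ p ∈ s, c p
  have i1 : (p' : ℝ) * pr (above (s.image φ) p') ≤ C * (q * pr (above s q)) := by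
    have : (p' : ℝ) * pr (above (s.image φ) p') = ∏ x ∈ A, (φ x : ℝ) := by
      rw [← Nat.cast_mul, ← pr_insert hnot, ← himg, pr_cast, prod_image hinj]
    rw [this]
    refine le_trans (prod_le_prod (fun x _ => by positivity) fun x hx => (hc x (hAs hx)).2) ?_
    rw [prod_mul_distrib, ← pr_cast, pr_erase hl]
    refine mul_le_mul (hC1 A hAs) ?_ (by positivity) hC0.le
    exact_mod_cast Nat.mul_le_mul c2 c3
  have i2 : (p' : ℝ) ≤ C * q := by
    have j1 : (p' : ℝ) ≤ φ (lo A) := by exact_mod_cast (mem_filter.1 hl).2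
    have j2 := hC1 {lo A} (singleton_subset_iff.2 (hAs hl))
    rw [prod_singleton] at j2
    refine j1.trans ((hc _ (hAs hl)).2.trans (mul_le_mul j2 ?_ (by positivity) hC0.le))
    exact_mod_cast c2
  calc (pr (above (s.image φ) p') : ℝ) * (p' : ℝ) ^ (b + 1)
      = ((p' : ℝ) * pr (above (s.image φ) p')) * (p' : ℝ) ^ b := by ring
    _ ≤ (C * (q * pr (above s q))) * (C * q) ^ b :=
        mul_le_mul i1 (pow_le_pow_left₀ (by positivity) i2 b) (by positivity) (by positivity)
    _ = ((pr (above s q) : ℝ) * (q : ℝ) ^ (b + 1)) * C ^ (b + 1) := by ring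
    _ < D * C ^ (b + 1) := mul_lt_mul_of_pos_right hok (by positivity)

theorem ladder {D : ℝ} {z : ℕ} (hz : (z : ℝ) ^ 3 ≤ D ^ 2) (hD : 1 ≤ D) {s : Finset ℕ}
    (hs : s ⊆ z.primesBelow) (h : Ok 3 1 D s) {q : ℕ} (hq : q ∈ s) :
    (pr (s.filter fun r => q ≤ r) : ℝ) ^ 2 * q ≤ D ^ 2 := by
  have hp : ∀ p ∈ s, p.Prime := fun p hp => Nat.prime_of_mem_primesBelow (hs hp)
  have e : (s.filter fun r => q ≤ r) = insert q (above s q) := by
    ext r
    simp only [mem_filter, mem_insert, mem_above]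
    constructor
    · rintro ⟨h1, h2⟩
      rcases h2.eq_or_lt with h3 | h3
      · exact Or.inl h3.symm
      · exact Or.inr ⟨h1, h3⟩
    · rintro (rfl | h1)
      · exact ⟨hq, le_rfl⟩
      · exact ⟨h1.1, h1.2.le⟩
  rw [e, pr_insert fun h => lt_irrefl _ (mem_above.1 h).2]
  push_cast
  have hq1 : (1 : ℝ) ≤ q := by exact_mod_cast (hp q hq).one_le
  rcases Nat.mod_two_eq_zero_or_one (above s q).card with h0 | h1
  · rcases (above s q).eq_empty_or_nonempty with he | hne
    · rw [he, pr_empty]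
      have : (q : ℝ) ≤ z := by exact_mod_cast (Nat.lt_of_mem_primesBelow (hs hq)).le
      calc ((q : ℝ) * (1 : ℕ)) ^ 2 * q = (q : ℝ) ^ 3 := by push_cast; ring
        _ ≤ (z : ℝ) ^ 3 := pow_le_pow_left₀ (by positivity) this 3
        _ ≤ _ := hz
    · have hl := lo_mem hne
      obtain ⟨l1, l2⟩ := mem_above.1 hl
      have e2 : above s (lo (above s q)) = (above s q).erase (lo (above s q)) := by
        rw [← above_lo]
        ext r
        simp only [mem_above]
        exact ⟨fun h1 => ⟨⟨h1.1, l2.trans h1.2⟩, h1.2⟩, fun h1 => ⟨h1.1.1, h1.2⟩⟩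
      have h2 := h _ l1 (by
        rw [e2, card_erase_of_mem hl]
        have := card_pos.2 hne
        omega)
      rw [e2] at h2
      rw [pr_erase hl]
      push_cast
      have l3 : (q : ℝ) ≤ lo (above s q) := by exact_mod_cast l2.le
      generalize (pr ((above s q).erase (lo (above s q))) : ℕ) = a at h2 ⊢
      generalize (lo (above s q) : ℝ) = u at h2 l3 ⊢
      have hu : 1 ≤ u := hq1.trans l3
      calc ((q : ℝ) * (u * a)) ^ 2 * q = (q : ℝ) ^ 3 * (u * a) ^ 2 := by ring
        _ ≤ u ^ 4 * (u * a) ^ 2 := mul_le_mul_of_nonneg_right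
            ((pow_le_pow_left₀ (by positivity) l3 3).trans (pow_le_pow_right₀ hu (by omega)))
            (by positivity)
        _ = ((a : ℝ) * u ^ 3) ^ 2 := by ring
        _ ≤ D ^ 2 := pow_le_pow_left₀ (by positivity) h2.le 2
  · have h2 := h q hq h1
    calc ((q : ℝ) * pr (above s q)) ^ 2 * q = (q : ℝ) ^ 3 * (pr (above s q) : ℝ) ^ 2 := by ring
      _ ≤ (q : ℝ) ^ 6 * (pr (above s q) : ℝ) ^ 2 :=
          mul_le_mul_of_nonneg_right (pow_le_pow_right₀ hq1 (by omega)) (by positivity)
      _ = ((pr (above s q) : ℝ) * (q : ℝ) ^ 3) ^ 2 := by ring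
      _ ≤ D ^ 2 := pow_le_pow_left₀ (by positivity) h2.le 2

theorem ok_pr_le {D : ℝ} {z : ℕ} (hz : (z : ℝ) ^ 3 ≤ D ^ 2) (hD : 1 ≤ D) {s : Finset ℕ}
    (hs : s ⊆ z.primesBelow) (h : Ok 3 1 D s) : (pr s : ℝ) ≤ D := by
  rcases s.eq_empty_or_nonempty with rfl | hne
  · simpa using hD
  · have h1 := ladder hz hD hs h (lo_mem hne)
    rw [filter_true_of_mem fun r hr => lo_le hr] at h1
    have h2 : (1 : ℝ) ≤ lo s := by
      exact_mod_cast (Nat.prime_of_mem_primesBelow (hs (lo_mem hne))).one_le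
    refine le_of_sq_le_sq (le_trans ?_ h1) (by linarith)
    exact le_mul_of_one_le_right (by positivity) h2

end Vale.Agent.P013
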