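import Vale.Agent.P013.Growth
import Vale.Agent.P013.TauberA

/-! Auxiliary lemmas for the zero free regions. -/

open Finset Complex

namespace Vale.Agent.P013

/-- The rectangle `[a, 2] × [-T, T]`. -/
def rg (a T : ℝ) : Set ℂ := {s | a ≤ s.re ∧ s.re ≤ 2 ∧ |s.im| ≤ T}

theorem convex_rg (a T : ℝ) : Convex ℝ (rg a T) := by
  have e : rg a T = {s : ℂ | a ≤ s.re} ∩ ({s : ℂ | s.re ≤ 2} ∩
      ({s : ℂ | -T ≤ s.im} ∩ {s : ℂ | s.im ≤ T})) := by
    ext s; simp [rg, abs_le]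
  rw [e]
  exact (convex_halfSpace_re_ge a).inter ((convex_halfSpace_re_le 2).inter
    ((convex_halfSpace_im_ge _).inter (convex_halfSpace_im_le _)))

theorem lip_of_deriv {f : ℂ → ℂ} (hf : Differentiable ℂ f) {S : Set ℂ} (hS : Convex ℝ S) {D : ℝ}
    (hD : ∀ z ∈ S, ‖deriv f z‖ ≤ D) {s s' : ℂ} (hs : s ∈ S) (hs' : s' ∈ S) :
    ‖f s'‖ - D * ‖s - s'‖ ≤ ‖f s‖ := by
  have h := hS.norm_image_sub_le_of_norm_deriv_le (fun x _ => hf x) hD hs' hs
  have h2 := norm_sub_norm_le (f s') (f s)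
  rw [norm_sub_rev] at h2
  linarith

theorem zf_growth {f : ℂ → ℂ} (hf : Differentiable ℂ f) {e C Q T : ℝ} (he : 0 < e)
    (he' : e ≤ 1 / 2) (hC : 0 < C) (hQ : 1 ≤ Q) (hT : 1 ≤ T)
    (h : ∀ s : ℂ, 1 - e ≤ s.re → ‖f s‖ ≤ C * (Q * (‖s‖ + 1)) ^ (2 * e)) {s : ℂ}
    (hs : s ∈ rg (1 - e / 2) (2 * T)) :
    ‖f s‖ ≤ 12 * C / e * (Q * T) ^ (2 * e) ∧ ‖deriv f s‖ ≤ 12 * C / e * (Q * T) ^ (2 * e) := by
  obtain ⟨h1, h2, h3⟩ := hs
  have hW : 0 ≤ (Q * T) ^ (2 * e) := by positivity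
  have key : ∀ z : ℂ, ‖z - s‖ ≤ e / 2 → ‖f z‖ ≤ 6 * C * (Q * T) ^ (2 * e) := by
    intro z hz
    have a1 : |(z - s).re| ≤ e / 2 := (abs_re_le_norm _).trans hz
    rw [sub_re, abs_le] at a1
    have a2 : ‖s‖ ≤ |s.re| + |s.im| := norm_le_abs_re_add_abs_im s
    rw [abs_of_nonneg (by linarith)] at a2
    have a3 : ‖z‖ ≤ ‖z - s‖ + ‖s‖ := by simpa using norm_add_le (z - s) s
    have a4 : Q * (‖z‖ + 1) ≤ 6 * (Q * T) := by
      have : ‖z‖ + 1 ≤ 6 * T := by linarith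
      nlinarith
    have a5 : (6 : ℝ) ^ (2 * e) ≤ 6 := by
      simpa using Real.rpow_le_rpow_of_exponent_le (by norm_num : (1 : ℝ) ≤ 6)
        (by linarith : 2 * e ≤ 1)
    calc ‖f z‖ ≤ C * (Q * (‖z‖ + 1)) ^ (2 * e) := h z (by linarith)
      _ ≤ C * (6 * (Q * T)) ^ (2 * e) := by gcongr
      _ = C * (6 ^ (2 * e) * (Q * T) ^ (2 * e)) := by
          rw [Real.mul_rpow (by norm_num) (by positivity)]
      _ ≤ C * (6 * (Q * T) ^ (2 * e)) := by gcongr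
      _ = _ := by ring
  constructor
  · refine (key s (by simp; positivity)).trans ?_
    gcongr
    rw [le_div_iff₀ he]; nlinarith
  · refine (norm_deriv_le_of_forall_mem_sphere_norm_le (R := e / 2) (by positivity)
      hf.diffContOnCl fun z hz => key z (mem_sphere_iff_norm.1 hz).le).trans (le_of_eq ?_)
    field_simp; ring

theorem exists_shift {η : ℝ} (hη : 0 < η) (hη' : η ≤ 1) {s : ℂ} (h1 : 1 - η ≤ s.re)
    (h2 : s.re ≤ 2) : ∃ x : ℝ, η ≤ x ∧ x ≤ 1 ∧ ‖s - (1 + x + I * s.im)‖ ≤ 2 * η ∧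
      ‖s - 1‖ ≤ ‖(1 + x + I * s.im) - 1‖ := by
  by_cases h : 1 + η ≤ s.re
  · have e : (1 + ((s.re - 1 : ℝ) : ℂ) + I * s.im) = s := by
      apply Complex.ext <;> simp
    refine ⟨s.re - 1, by linarith, by linarith, ?_, ?_⟩
    · rw [e, sub_self, norm_zero]; positivity
    · rw [e]
  · refine ⟨η, le_rfl, hη', ?_, ?_⟩
    · have e : s - (1 + η + I * s.im) = ((s.re - 1 - η : ℝ) : ℂ) := by
        apply Complex.ext <;> simp; ring
      rw [e, norm_real, Real.norm_eq_abs, abs_le]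
      constructor <;> linarith
    · apply le_of_sq_le_sq _ (norm_nonneg _)
      rw [Complex.sq_norm, Complex.sq_norm, normSq_apply, normSq_apply]
      simp
      nlinarith

theorem norm_shift_le (x y : ℝ) : ‖(1 + x + I * y : ℂ) - 1‖ ≤ ‖(1 + x + 2 * I * y : ℂ) - 1‖ := by
  apply le_of_sq_le_sq _ (norm_nonneg _)
  rw [Complex.sq_norm, Complex.sq_norm, normSq_apply, normSq_apply]
  simp
  nlinarith [mul_self_nonneg y]

theorem norm_LFunction_le {Q : ℕ} [NeZero Q] (χ : DirichletCharacter ℂ Q) {x : ℝ} (hx : 0 < x) :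
    ‖DirichletCharacter.LFunction χ (1 + x)‖ ≤ 1 + 1 / x := by
  rw [DirichletCharacter.LFunction_eq_LSeries χ (by simpa using hx)]
  refine (tsum_of_norm_bounded (summable_rpow_neg hx).hasSum fun n => ?_).trans (tsum_rpow_le hx)
  rw [LSeries.norm_term_eq]
  split_ifs with hn
  · exact Real.rpow_nonneg (Nat.cast_nonneg _) _
  · have hn' : (0 : ℝ) < n := by positivity
    rw [Real.rpow_neg hn'.le, ← one_div]
    simp only [add_re, one_re, ofReal_re]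
    gcongr
    exact χ.norm_le_one _

theorem lower_341 {Q : ℕ} [NeZero Q] (χ : DirichletCharacter ℂ Q) {η x y E u : ℝ} (hη : 0 < η)
    (hη' : η ≤ 1) (hx : η ≤ x) (hE : 0 < E)
    (h3 : ‖DirichletCharacter.LFunction (χ ^ 2) (1 + x + 2 * I * y)‖ ≤ E)
    (hu : u ^ 4 * (8 * E) ≤ η ^ 3) : u ≤ ‖DirichletCharacter.LFunction χ (1 + x + I * y)‖ := by
  have hx0 : 0 < x := by linarith
  have h := χ.norm_LFunction_product_ge_one hx0 y
  have h1 : ‖DirichletCharacter.LFunctionTrivChar Q (1 + x)‖ ≤ 2 / η := by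
    refine (norm_LFunction_le 1 hx0).trans ?_
    have a1 : 1 / x ≤ 1 / η := one_div_le_one_div_of_le hη hx
    have a2 : 1 ≤ 1 / η := by rw [le_div_iff₀ hη]; linarith
    have a3 : 2 / η = 1 / η + 1 / η := by ring
    linarith
  rw [norm_mul, norm_mul, norm_pow, norm_pow] at h
  set b := ‖DirichletCharacter.LFunction χ (1 + x + I * y)‖
  have hb : 0 ≤ b := norm_nonneg _
  have h4 : 1 ≤ (2 / η) ^ 3 * b ^ 4 * E := le_trans h (by gcongr)
  have h5 : η ^ 3 ≤ b ^ 4 * (8 * E) := by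
    have : (2 / η) ^ 3 * b ^ 4 * E = b ^ 4 * (8 * E) / η ^ 3 := by field_simp; ring
    rw [this, le_div_iff₀ (by positivity)] at h4
    linarith
  have h6 : u ^ 4 ≤ b ^ 4 := le_of_mul_le_mul_right (hu.trans h5) (by positivity)
  exact le_of_pow_le_pow_left₀ (by norm_num) hb h6

theorem two_pow_omega_le {κ : ℝ} (hκ : 0 < κ) : ∃ C : ℝ, 0 < C ∧ ∀ Q : ℕ, Q ≠ 0 →
    (2 : ℝ) ^ Q.primeFactors.card ≤ C * (Q : ℝ) ^ κ := by
  set P : ℕ := ⌈(2 : ℝ) ^ (1 / κ)⌉₊ with hP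
  refine ⟨2 ^ P, by positivity, fun Q hQ => ?_⟩
  have h1 : ∀ p ∈ Q.primeFactors, (2 : ℝ) ≤ (if p < P then 2 else 1) * (p : ℝ) ^ κ := by
    intro p hp
    have hp1 : (1 : ℝ) ≤ p := by exact_mod_cast (Nat.prime_of_mem_primeFactors hp).one_le
    split_ifs with h
    · have := Real.one_le_rpow hp1 hκ.le
      linarith
    · have a1 : (2 : ℝ) ^ (1 / κ) ≤ p := Nat.ceil_le.1 (not_lt.1 h)
      have a2 := Real.rpow_le_rpow (by positivity) a1 hκ.le
      rwa [← Real.rpow_mul (by norm_num), one_div_mul_cancel hκ.ne', Real.rpow_one, ← one_mul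
        ((p : ℝ) ^ κ)] at a2
  have h2 : ∏ p ∈ Q.primeFactors, (if p < P then (2 : ℝ) else 1) ≤ 2 ^ P := by
    rw [prod_ite, prod_const, prod_const_one, mul_one]
    refine pow_le_pow_right₀ (by norm_num) ?_
    calc _ ≤ (range P).card := card_le_card fun p hp => mem_range.2 (mem_filter.1 hp).2
      _ = P := card_range P
  have h3 : ∏ p ∈ Q.primeFactors, (p : ℝ) ^ κ ≤ (Q : ℝ) ^ κ := by
    rw [Real.finsetProd_rpow _ _ (fun _ _ => Nat.cast_nonneg _)]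
    refine Real.rpow_le_rpow (by positivity) ?_ hκ.le
    rw [← Nat.cast_prod]
    exact_mod_cast Nat.le_of_dvd (Nat.pos_of_ne_zero hQ) (Nat.prod_primeFactors_dvd Q)
  calc (2 : ℝ) ^ Q.primeFactors.card = ∏ _p ∈ Q.primeFactors, (2 : ℝ) := by rw [prod_const]
    _ ≤ ∏ p ∈ Q.primeFactors, ((if p < P then (2 : ℝ) else 1) * (p : ℝ) ^ κ) :=
        prod_le_prod (fun _ _ => by norm_num) h1
    _ = _ := prod_mul_distrib
    _ ≤ 2 ^ P * (Q : ℝ) ^ κ := by gcongr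

theorem norm_triv_le {Q : ℕ} [NeZero Q] {z : ℂ} (hz : 1 < z.re) :
    ‖DirichletCharacter.LFunction (1 : DirichletCharacter ℂ Q) z‖ ≤
      2 ^ Q.primeFactors.card * (‖zeta0 z‖ + 1 / ‖z - 1‖) := by
  have hz1 : z ≠ 1 := by rintro rfl; simp at hz
  have h := DirichletCharacter.LFunctionTrivChar_eq_mul_riemannZeta (N := Q) hz1
  rw [DirichletCharacter.LFunctionTrivChar] at h
  rw [h, norm_mul]
  have h1 : ‖∏ p ∈ Q.primeFactors, (1 - (p : ℂ) ^ (-z))‖ ≤ 2 ^ Q.primeFactors.card := by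
    rw [norm_prod, ← prod_const]
    refine prod_le_prod (fun _ _ => norm_nonneg _) fun p hp => ?_
    have hp0 := (Nat.prime_of_mem_primeFactors hp).pos
    have a1 : ‖(p : ℂ) ^ (-z)‖ ≤ 1 := by
      rw [norm_natCast_cpow_of_pos hp0]
      exact Real.rpow_le_one_of_one_le_of_nonpos (by exact_mod_cast hp0) (by simp; linarith)
    have a2 := norm_sub_le (1 : ℂ) ((p : ℂ) ^ (-z))
    rw [norm_one] at a2
    linarith
  have h2 : ‖riemannZeta z‖ ≤ ‖zeta0 z‖ + 1 / ‖z - 1‖ := by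
    have : riemannZeta z = zeta0 z + 1 / (z - 1) := by rw [zeta0_eq hz1]; ring
    rw [this]
    refine (norm_add_le _ _).trans (le_of_eq ?_)
    rw [norm_div, norm_one]
  gcongr

theorem shift_mem {a T x y : ℝ} (ha : a ≤ 1) (hx : 0 ≤ x) (hx' : x ≤ 1) (hy : |y| ≤ T) :
    (1 + x + I * y : ℂ) ∈ rg a (2 * T) ∧ (1 + x + 2 * I * y : ℂ) ∈ rg a (2 * T) := by
  have := abs_nonneg y
  refine ⟨⟨?_, ?_, ?_⟩, ?_, ?_, ?_⟩ <;> simp [abs_mul] <;> linarith

/-- The lower bound for `L` in terms of one size parameter `D`. -/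
theorem lower_L {Q : ℕ} [NeZero Q] {χ : DirichletCharacter ℂ Q} (hχ : χ ≠ 1) {a T D : ℝ}
    (hD : 1 ≤ D) (ha : a ≤ 1 - 1 / D) (hT : 0 ≤ T)
    (h1 : ∀ z ∈ rg a (2 * T), ‖deriv (DirichletCharacter.LFunction χ) z‖ ≤ D)
    (h2 : χ ^ 2 ≠ 1 → ∀ z ∈ rg a (2 * T), ‖DirichletCharacter.LFunction (χ ^ 2) z‖ ≤ D)
    (h3 : χ ^ 2 = 1 → 1 / D ≤ ‖DirichletCharacter.LFunction χ 1‖)
    (h4 : ∀ z ∈ rg a (2 * T), ‖zeta0 z‖ ≤ D) (h5 : (2 : ℝ) ^ Q.primeFactors.card ≤ D)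
    {s : ℂ} (hs : s ∈ rg (1 - 1 / (6144 * D ^ 7)) T) :
    1 / (6144 * D ^ 7) ≤ ‖DirichletCharacter.LFunction χ s‖ := by
  have hD0 : 0 < D := by linarith
  set η := 1 / (6144 * D ^ 7) with hη
  have hη0 : 0 < η := by positivity
  have hD7 : D ≤ D ^ 7 := le_self_pow₀ hD (by norm_num)
  have hηD : η ≤ 1 / (2 * D) := one_div_le_one_div_of_le (by positivity) (by linarith)
  have hD1 : 1 / D ≤ 1 := by rw [div_le_one hD0]; exact hD
  have hD2 : 1 / (2 * D) = 1 / D / 2 := by field_simp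
  have hD3 : 0 < 1 / D := by positivity
  obtain ⟨s1, s2, s3⟩ := hs
  have hs' : s ∈ rg a (2 * T) := ⟨by linarith, s2, by linarith⟩
  have hf := DirichletCharacter.differentiable_LFunction hχ
  by_cases hc : χ ^ 2 = 1 ∧ ‖s - 1‖ ≤ 1 / (2 * D ^ 2)
  · have a1 := lip_of_deriv hf (convex_rg a (2 * T)) h1 hs'
      (s' := 1) ⟨by simp; linarith, by simp, by simp; linarith⟩
    have a2 : D * ‖s - 1‖ ≤ 1 / (2 * D) := by
      calc _ ≤ D * (1 / (2 * D ^ 2)) := by gcongr; exact hc.2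
        _ = _ := by field_simp
    linarith [h3 hc.1]
  obtain ⟨x, x1, x2, x3, x4⟩ := exists_shift hη0 (by linarith) s1 s2
  obtain ⟨m1, m2⟩ := shift_mem (a := a) (by linarith) (by linarith : 0 ≤ x) x2 s3
  have hD23 : D ≤ D ^ 2 := le_self_pow₀ hD (by norm_num)
  have hE : ‖DirichletCharacter.LFunction (χ ^ 2) (1 + x + 2 * I * s.im)‖ ≤ 3 * D ^ 3 := by
    by_cases hq : χ ^ 2 = 1
    · have b1 : 1 / (2 * D ^ 2) < ‖s - 1‖ := not_le.1 fun h => hc ⟨hq, h⟩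
      have b2 : 1 / (2 * D ^ 2) ≤ ‖(1 + x + 2 * I * s.im : ℂ) - 1‖ :=
        b1.le.trans (x4.trans (norm_shift_le _ _))
      have b3 : 1 / ‖(1 + x + 2 * I * s.im : ℂ) - 1‖ ≤ 2 * D ^ 2 := by
        have := one_div_le_one_div_of_le (by positivity) b2
        rwa [one_div_one_div] at this
      rw [hq]
      refine (norm_triv_le (by simp; linarith)).trans ?_
      calc _ ≤ D * (D ^ 2 + 2 * D ^ 2) := by gcongr; exact (h4 _ m2).trans hD23
        _ = _ := by ring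
    · have : D ≤ D ^ 3 := le_self_pow₀ hD (by norm_num)
      linarith [h2 hq _ m2]
  have hu := lower_341 χ (u := 4 * η * D) hη0 (by linarith) x1 (by positivity) hE (le_of_eq (by
    rw [hη]; field_simp; ring))
  have a1 := lip_of_deriv hf (convex_rg a (2 * T)) h1 hs' m1
  have a2 : D * ‖s - (1 + x + I * s.im)‖ ≤ D * (2 * η) := by gcongr
  nlinarith

theorem deriv_Zf (z : ℂ) : deriv Zf z = zeta0 z + (z - 1) * deriv zeta0 z := by
  have e : Zf = fun s => 1 + (s - 1) * zeta0 s := funext Zf_eq_zeta0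
  have h := (((hasDerivAt_id z).sub_const 1).mul (differentiable_zeta0 z).hasDerivAt).const_add 1
  rw [e]
  simpa using h.deriv

/-- The lower bound for `Zf` in terms of one size parameter `D`. -/
theorem lower_Zf {a T D : ℝ} (hD : 1 ≤ D) (ha : a ≤ 1 - 1 / D)
    (h1 : ∀ z ∈ rg a (2 * T), ‖zeta0 z‖ ≤ D ∧ ‖deriv zeta0 z‖ ≤ D)
    {s : ℂ} (hs : s ∈ rg (1 - 1 / (497664 * D ^ 9)) T) (hr : 1 / (2 * D) ≤ ‖s - 1‖) :
    ‖s - 1‖ * (1 / (497664 * D ^ 9)) ≤ ‖Zf s‖ := by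
  have hD0 : 0 < D := by linarith
  set η := 1 / (497664 * D ^ 9) with hη
  have hη0 : 0 < η := by positivity
  have hD9 : D ≤ D ^ 9 := le_self_pow₀ hD (by norm_num)
  have hηD : η ≤ 1 / D := one_div_le_one_div_of_le (by positivity) (by linarith)
  have hD1 : 1 / D ≤ 1 := by rw [div_le_one hD0]; exact hD
  have hD3 : 0 < 1 / D := by positivity
  obtain ⟨s1, s2, s3⟩ := hs
  have hT : 0 ≤ T := (abs_nonneg _).trans s3
  have hs' : s ∈ rg a (2 * T) := ⟨by linarith, s2, by linarith⟩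
  obtain ⟨x, x1, x2, x3, x4⟩ := exists_shift hη0 (by linarith) s1 s2
  obtain ⟨m1, m2⟩ := shift_mem (a := a) (by linarith) (by linarith : 0 ≤ x) x2 s3
  have hE : ‖DirichletCharacter.LFunction ((1 : DirichletCharacter ℂ 1) ^ 2)
      (1 + x + 2 * I * s.im)‖ ≤ 3 * D := by
    have b2 : 1 / (2 * D) ≤ ‖(1 + x + 2 * I * s.im : ℂ) - 1‖ :=
      hr.trans (x4.trans (norm_shift_le _ _))
    have b3 : 1 / ‖(1 + x + 2 * I * s.im : ℂ) - 1‖ ≤ 2 * D := by
      have := one_div_le_one_div_of_le (by positivity) b2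
      rwa [one_div_one_div] at this
    rw [one_pow]
    refine (norm_triv_le (by simp; linarith)).trans ?_
    simp only [Nat.primeFactors_one, card_empty, pow_zero, one_mul]
    linarith [(h1 _ m2).1]
  have hu := lower_341 (1 : DirichletCharacter ℂ 1) (u := 12 * η * D ^ 2) hη0 (by linarith) x1
    (by positivity) hE (le_of_eq (by rw [hη]; field_simp; ring))
  rw [DirichletCharacter.LFunction_modOne_eq] at hu
  set s' : ℂ := 1 + x + I * s.im with hs'def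
  set ρ := ‖s' - 1‖ with hρ
  have hρ1 : 1 ≤ 2 * D * ρ := by
    have := hr.trans x4
    rw [div_le_iff₀ (by positivity)] at this
    linarith
  have hρ0 : 0 ≤ ρ := norm_nonneg _
  have hs1 : s' ≠ 1 := by
    intro h
    rw [hρ, h, sub_self, norm_zero] at hρ1
    linarith
  have hder : ∀ z ∈ rg a (2 * T) ∩ Metric.closedBall 1 ρ, ‖deriv Zf z‖ ≤ 3 * D ^ 2 * ρ := by
    rintro z ⟨z1, z2⟩
    rw [mem_closedBall_iff_norm] at z2
    rw [deriv_Zf]
    refine (norm_add_le _ _).trans ?_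
    rw [norm_mul]
    have b1 : ‖z - 1‖ * ‖deriv zeta0 z‖ ≤ ρ * D := by gcongr; exact (h1 z z1).2
    have b2 : ρ * D ≤ D ^ 2 * ρ := by nlinarith [mul_nonneg hρ0 hD0.le]
    nlinarith [(h1 z z1).1]
  have a1 := lip_of_deriv differentiable_Zf ((convex_rg a (2 * T)).inter (convex_closedBall 1 ρ))
    hder ⟨hs', mem_closedBall_iff_norm.2 x4⟩ ⟨m1, mem_closedBall_iff_norm.2 le_rfl⟩
  rw [Zf_eq hs1, norm_mul] at a1
  have a2 : 3 * D ^ 2 * ρ * ‖s - s'‖ ≤ 3 * D ^ 2 * ρ * (2 * η) := by gcongr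
  have a3 : ρ * (12 * η * D ^ 2) ≤ ρ * ‖riemannZeta s'‖ := by gcongr
  have a4 : ‖s - 1‖ * η ≤ ρ * η := by gcongr
  have a5 : ρ * η * 1 ≤ ρ * η * D ^ 2 := by gcongr; exact one_le_pow₀ hD
  have a6 : 0 ≤ ρ * η := by positivity
  nlinarith

end Vale.Agent.P013
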