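import Vale.Agent.P013.Siegel
import Vale.Agent.P013.ZeroFreeA

/-! Zero free regions of width `(Q T)^(-ε)` with bounds for the logarithmic derivative.

Proof plan. Fix a small `e = ε/100` (also `e ≤ 1/8`), `W = (Q T)^e ≥ 1`.
* From `Lfun_growth` (with `e`) and Cauchy's estimate on circles of radius `e/2`
  (`Complex.norm_deriv_le_of_forall_mem_sphere_norm_le`): `‖L‖, ‖L'‖ ≤ C W^2` on
  `1 - e/2 ≤ Re s ≤ 2`, `|Im s| ≤ 2T`. Same for `zeta0` with `W = T^e`.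
* 3-4-1: `DirichletCharacter.norm_LSeries_product_ge_one` at `1 + η + i t`; the first factor is at
  most `(1 + 1/η)^3`. Third factor: `≤ C W^2` if `χ^2 ≠ 1`; if `χ^2 = 1` it is
  `‖ζ(1+η+2it)‖ ∏_{p ∣ Q} ‖1 - p^(-s)‖ ≤ (C W^2 + 1/(2|t|)) (ω Q + 1)`
  (`LFunctionTrivChar_eq_mul_riemannZeta`, `∏_{p ∣ Q}(1 + 1/p) ≤ ω Q + 1 ≤ C Q^e`).
* Quadratic `χ`, `|t| ≤ t₀ := c₁ W^(-3)`: Siegel gives `‖L 1‖ ≥ c W^(-1)`, and the derivative bound
  gives `‖L s‖ ≥ (c/2) W^(-1)` for `‖s - 1‖ ≤ 2 t₀`. For `Re s ≥ 1 + t₀` and for `|t| ≥ t₀` use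
  3-4-1 (valid at every point `σ + i t` with `σ > 1`; for `σ ≥ 1 + η` the first factor only
  decreases).
* So `‖L(σ+it)‖ ≥ c η^(3/4) W^(-2)` for `1 + η ≤ σ ≤ 2` outside the Siegel disc; moving left by at
  most `2 η` changes `L` by at most `2 η C W^2`; choose `η = c' W^(-16)`. Then
  `‖L‖ ≥ c W^(-14)` on `σ ≥ 1 - η`, and `‖L'/L‖ ≤ C W^16`.
* For `ζ` use `Zf = 1 + (s-1) zeta0` near `s = 1` (`‖Zf - 1‖ ≤ 1/2` for `‖s-1‖ ≤ c W^(-2)`) and
  3-4-1 with `Q = 1` elsewhere; there `‖Zf s‖ = ‖s-1‖ ‖ζ s‖`,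
  `Zf' = zeta0 + (s-1) zeta0'`, and for the shift to the left use
  `ζ' = zeta0' - 1/(s-1)^2`. -/

open Finset

namespace Vale.Agent.P013

theorem rpow_pow_le {X e ε : ℝ} {k : ℕ} (hX : 1 ≤ X) (h : 2 * e * k ≤ ε) :
    (X ^ (2 * e)) ^ k ≤ X ^ ε := by
  rw [← Real.rpow_natCast, ← Real.rpow_mul (by linarith)]
  exact Real.rpow_le_rpow_of_exponent_le hX h

theorem zero_free {ε : ℝ} (hε : 0 < ε) : ∃ c : ℝ, 0 < c ∧ c ≤ 1 / 4 ∧
    ∀ (Q : ℕ) [NeZero Q] (χ : DirichletCharacter ℂ Q), χ ≠ 1 → ∀ T : ℝ, 1 ≤ T → ∀ s : ℂ,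
      |s.im| ≤ T → 1 - c * (Q * T) ^ (-ε) ≤ s.re → s.re ≤ 2 →
      DirichletCharacter.LFunction χ s ≠ 0 ∧
        ‖deriv (DirichletCharacter.LFunction χ) s / DirichletCharacter.LFunction χ s‖ ≤
          (Q * T) ^ ε / c := by
  set e := min (ε / 16) (1 / 2) with he
  have he0 : 0 < e := lt_min (by linarith) (by norm_num)
  have he1 : e ≤ 1 / 2 := min_le_right _ _
  have he2 : e ≤ ε / 16 := min_le_left _ _
  obtain ⟨C1, hC1, H1⟩ := Lfun_growth he0 he1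
  obtain ⟨C2, hC2, H2⟩ := zeta0_growth he0 he1
  obtain ⟨C3, hC3, H3⟩ := siegel (ε := 2 * e) (by linarith)
  obtain ⟨C4, hC4, H4⟩ := two_pow_omega_le (κ := 2 * e) (by linarith)
  have p0 : 0 < 2 / e := by positivity
  have p1 : 0 < 12 * C1 / e := by positivity
  have p2 : 0 < 12 * C2 / e := by positivity
  have p3 : 0 < 1 / C3 := by positivity
  obtain ⟨K, hK⟩ : ∃ K : ℝ, K = 1 + 2 / e + 12 * C1 / e + 12 * C2 / e + 1 / C3 + C4 := ⟨_, rfl⟩
  have hK1 : 1 ≤ K := by linarith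
  have hK8 : 1 ≤ K ^ 8 := one_le_pow₀ hK1
  refine ⟨1 / (6144 * K ^ 8), by positivity,
    one_div_le_one_div_of_le (by norm_num) (by linarith), ?_⟩
  intro Q _ χ hχ T hT s s3 s1 s2
  have hQ : (1 : ℝ) ≤ Q := by exact_mod_cast Nat.one_le_iff_ne_zero.2 (NeZero.ne Q)
  have hQT : 1 ≤ (Q : ℝ) * T := one_le_mul_of_one_le_of_one_le hQ hT
  set W := ((Q : ℝ) * T) ^ (2 * e) with hW
  have hW1 : 1 ≤ W := Real.one_le_rpow hQT (by linarith)
  have hWQ : (Q : ℝ) ^ (2 * e) ≤ W :=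
    Real.rpow_le_rpow (by linarith) (le_mul_of_one_le_right (by linarith) hT) (by linarith)
  have hWT : (1 * T) ^ (2 * e) ≤ W :=
    Real.rpow_le_rpow (by linarith) (by gcongr) (by linarith)
  have hV : W ^ 8 ≤ (Q * T) ^ ε := rpow_pow_le hQT (by push_cast; linarith)
  set V := ((Q : ℝ) * T) ^ ε with hVdef
  have hV0 : 0 < V := by positivity
  set D := K * W with hD
  have hKD : K ≤ D := le_mul_of_one_le_right (by linarith) hW1
  have hD1 : 1 ≤ D := hK1.trans hKD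
  have hD8 : D ^ 8 ≤ K ^ 8 * V := by rw [hD, mul_pow]; gcongr
  have hD7 : D ^ 7 ≤ D ^ 8 := pow_le_pow_right₀ hD1 (by norm_num)
  have hDe : 1 / D ≤ e / 2 := by
    rw [← one_div_div 2 e]
    exact one_div_le_one_div_of_le p0 (by linarith)
  have hL : ∀ ψ : DirichletCharacter ℂ Q, ψ ≠ 1 → ∀ z ∈ rg (1 - e / 2) (2 * T),
      ‖DirichletCharacter.LFunction ψ z‖ ≤ D ∧ ‖deriv (DirichletCharacter.LFunction ψ) z‖ ≤ D := by
    intro ψ hψ z hz
    have h := zf_growth (DirichletCharacter.differentiable_LFunction hψ) he0 he1 hC1 hQ hT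
      (H1 Q ψ hψ) hz
    have : 12 * C1 / e * W ≤ D := by rw [hD]; gcongr; linarith
    exact ⟨h.1.trans this, h.2.trans this⟩
  have hη : 1 / (6144 * K ^ 8) * ((Q : ℝ) * T) ^ (-ε) ≤ 1 / (6144 * D ^ 7) := by
    rw [Real.rpow_neg (by linarith), ← hVdef, ← one_div V, one_div_mul_one_div]
    exact one_div_le_one_div_of_le (by positivity) (by nlinarith)
  have hη2 : 1 / (6144 * D ^ 7) ≤ 1 / D :=
    one_div_le_one_div_of_le (by positivity) (by
      have : D ≤ D ^ 7 := le_self_pow₀ hD1 (by norm_num)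
      linarith)
  have key := lower_L hχ (a := 1 - e / 2) (T := T) hD1 (by linarith) (by linarith)
    (fun z hz => (hL χ hχ z hz).2) (fun h z hz => (hL _ h z hz).1) (fun h => ?_) (fun z hz => ?_) ?_
    (s := s) ⟨by linarith, s2, s3⟩
  · have hpos : 0 < 1 / (6144 * D ^ 7) := by positivity
    refine ⟨norm_pos_iff.1 (hpos.trans_le key), ?_⟩
    rw [norm_div]
    calc _ ≤ D / (1 / (6144 * D ^ 7)) := by
          gcongr
          exact (hL χ hχ s ⟨by linarith, s2, by linarith⟩).2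
      _ = 6144 * D ^ 8 := by field_simp
      _ ≤ 6144 * (K ^ 8 * V) := by gcongr
      _ = _ := by field_simp
  · refine le_trans ?_ (H3 Q χ hχ h)
    rw [Real.rpow_neg (by linarith), ← one_div_one_div C3, ← one_div ((Q : ℝ) ^ (2 * e)),
      one_div_mul_one_div]
    refine one_div_le_one_div_of_le (by positivity) ?_
    rw [hD]; gcongr; linarith
  · refine (zf_growth (Q := 1) differentiable_zeta0 he0 he1 hC2 le_rfl hT
      (fun s hs => by simpa using H2 s hs) hz).1.trans ?_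
    rw [hD]; gcongr; linarith
  · refine (H4 Q (NeZero.ne Q)).trans ?_
    rw [hD]; gcongr; linarith

theorem zero_free_zeta {ε : ℝ} (hε : 0 < ε) : ∃ c : ℝ, 0 < c ∧ c ≤ 1 / 4 ∧
    ∀ T : ℝ, 1 ≤ T → ∀ s : ℂ, |s.im| ≤ T → 1 - c * T ^ (-ε) ≤ s.re → s.re ≤ 2 →
      Zf s ≠ 0 ∧ ‖deriv Zf s / Zf s‖ ≤ T ^ ε / c ∧ ‖(s - 1) / Zf s‖ ≤ T ^ ε / c ∧
        ‖zeta0 s‖ ≤ T ^ ε / c := by
  set e := min (ε / 22) (1 / 2) with he
  have he0 : 0 < e := lt_min (by linarith) (by norm_num)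
  have he1 : e ≤ 1 / 2 := min_le_right _ _
  have he2 : e ≤ ε / 22 := min_le_left _ _
  obtain ⟨C2, hC2, H2⟩ := zeta0_growth he0 he1
  have p0 : 0 < 2 / e := by positivity
  have p2 : 0 < 12 * C2 / e := by positivity
  obtain ⟨K, hK⟩ : ∃ K : ℝ, K = 1 + 2 / e + 12 * C2 / e := ⟨_, rfl⟩
  have hK1 : 1 ≤ K := by linarith
  have hK8 : 1 ≤ K ^ 11 := one_le_pow₀ hK1
  refine ⟨1 / (1500000 * K ^ 11), by positivity,
    one_div_le_one_div_of_le (by norm_num) (by linarith), ?_⟩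
  intro T hT s s3 s1 s2
  set W := T ^ (2 * e) with hW
  have hW1 : 1 ≤ W := Real.one_le_rpow hT (by linarith)
  have hV : W ^ 11 ≤ T ^ ε := rpow_pow_le hT (by push_cast; linarith)
  set V := T ^ ε with hVdef
  have hV0 : 0 < V := by positivity
  set D := K * W with hD
  have hKD : K ≤ D := le_mul_of_one_le_right (by linarith) hW1
  have hD1 : 1 ≤ D := hK1.trans hKD
  have hD0 : 0 < D := by linarith
  have hD11 : D ^ 11 ≤ K ^ 11 * V := by rw [hD, mul_pow]; gcongr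
  have hD9 : D ^ 9 ≤ D ^ 11 := pow_le_pow_right₀ hD1 (by norm_num)
  have hD9' : D ≤ D ^ 9 := le_self_pow₀ hD1 (by norm_num)
  have hDe : 1 / D ≤ e / 2 := by
    rw [← one_div_div 2 e]
    exact one_div_le_one_div_of_le p0 (by linarith)
  have hz : ∀ z ∈ rg (1 - e / 2) (2 * T), ‖zeta0 z‖ ≤ D ∧ ‖deriv zeta0 z‖ ≤ D := by
    intro z hz
    have h := zf_growth (Q := 1) differentiable_zeta0 he0 he1 hC2 le_rfl hT
      (fun s hs => by simpa using H2 s hs) hz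
    rw [one_mul] at h
    have : 12 * C2 / e * W ≤ D := by rw [hD]; gcongr; linarith
    exact ⟨h.1.trans this, h.2.trans this⟩
  have hη : 1 / (1500000 * K ^ 11) * T ^ (-ε) ≤ 1 / (497664 * D ^ 9) := by
    rw [Real.rpow_neg (by linarith), ← hVdef, ← one_div V, one_div_mul_one_div]
    exact one_div_le_one_div_of_le (by positivity) (by nlinarith)
  have hη2 : 1 / (497664 * D ^ 9) ≤ 1 / D :=
    one_div_le_one_div_of_le (by positivity) (by linarith)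
  have hfin : 1500000 * D ^ 11 ≤ V / (1 / (1500000 * K ^ 11)) := by
    rw [div_div_eq_mul_div, div_one]; nlinarith
  obtain ⟨z1, z2⟩ := hz s ⟨by linarith, s2, by linarith⟩
  have hder : ‖deriv Zf s‖ ≤ D + ‖s - 1‖ * D := by
    rw [deriv_Zf]
    refine (norm_add_le _ _).trans ?_
    rw [norm_mul]; gcongr
  rw [norm_div, norm_div]
  by_cases hr : 1 / (2 * D) ≤ ‖s - 1‖
  · have key := lower_Zf (a := 1 - e / 2) hD1 (by linarith) hz ⟨by linarith, s2, s3⟩ hr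
    have hr0 : 0 < ‖s - 1‖ := lt_of_lt_of_le (by positivity) hr
    have hpos : 0 < ‖s - 1‖ * (1 / (497664 * D ^ 9)) := by positivity
    have hr1 : 1 ≤ ‖s - 1‖ * (2 * D) := by rwa [div_le_iff₀ (by positivity)] at hr
    refine ⟨norm_pos_iff.1 (hpos.trans_le key), le_trans ?_ hfin, le_trans ?_ hfin, by linarith⟩
    · have b1 : ‖deriv Zf s‖ ≤ ‖s - 1‖ * (3 * D ^ 2) := by
        have : ‖s - 1‖ * D * 1 ≤ ‖s - 1‖ * D * D := by gcongr
        nlinarith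
      calc _ ≤ ‖s - 1‖ * (3 * D ^ 2) / (‖s - 1‖ * (1 / (497664 * D ^ 9))) := by gcongr
        _ = 1492992 * D ^ 11 := by field_simp; ring
        _ ≤ _ := by gcongr; norm_num
    · calc _ ≤ ‖s - 1‖ / (‖s - 1‖ * (1 / (497664 * D ^ 9))) := by gcongr
        _ = 497664 * D ^ 9 := by field_simp
        _ ≤ _ := by linarith
  · have hr1 : ‖s - 1‖ * (2 * D) ≤ 1 := by
      rw [not_le, lt_div_iff₀ (by positivity)] at hr; exact hr.le
    have b1 : ‖(s - 1) * zeta0 s‖ ≤ 1 / 2 := by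
      rw [norm_mul]
      have : ‖s - 1‖ * ‖zeta0 s‖ ≤ ‖s - 1‖ * D := by gcongr
      linarith
    have b2 : 1 / 2 ≤ ‖Zf s‖ := by
      have := norm_sub_le (Zf s) ((s - 1) * zeta0 s)
      rw [show Zf s - (s - 1) * zeta0 s = 1 by rw [Zf_eq_zeta0]; ring, norm_one] at this
      linarith
    have b3 : ‖s - 1‖ * 1 ≤ ‖s - 1‖ * D := by gcongr
    refine ⟨norm_pos_iff.1 (by linarith), le_trans ?_ hfin, le_trans ?_ hfin, by linarith⟩
    · calc _ ≤ (D + ‖s - 1‖ * D) / (1 / 2) := by gcongr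
        _ ≤ _ := by linarith
    · calc _ ≤ ‖s - 1‖ / (1 / 2) := by gcongr
        _ ≤ _ := by linarith

end Vale.Agent.P013
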